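import Crest.Agent.R27.Ku.Cnt
import Crest.Agent.R27.ArithIface

/-! Row 27, block Ku (owner helper94): `StZFK → StKum`. -/

set_option autoImplicit false

namespace Crest.Agent.R27

open NumberField Finset Ku
open scoped Classical Real ArithmeticFunction.vonMangoldt

theorem Ku.main_dvd {m : ℤ} (hm : m ≠ 0) (Y : ℕ) :
    ∑ n ∈ Icc 1 Y, (if (n : ℤ) ∣ m then Λ n else 0) ≤ Real.log (m.natAbs : ℝ) := by
  rw [← ArithmeticFunction.vonMangoldt_sum, ← sum_filter]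
  refine sum_le_sum_of_subset_of_nonneg (fun n hn => ?_) fun _ _ _ => ArithmeticFunction.vonMangoldt_nonneg
  rw [mem_filter] at hn
  exact Nat.mem_divisors.2 ⟨Int.natCast_dvd.1 hn.2, Int.natAbs_ne_zero.2 hm⟩

theorem Ku.main_sum {a : ℤ} (ha : a ≠ 0) {q : ℕ} (hq : q.Prime) {K : Type} [Field K] [NumberField K]
    (hK : ∀ p : ℕ, p.Prime → ¬ (p : ℤ) ∣ q * a → aK K p = Nat.card {y : ZMod p // y ^ q = (a : ZMod p)})
    (X : ℕ) :
    (q : ℝ) / 4 * ∑ p ∈ (Icc 1 X).filter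
        (fun p : ℕ => p.Prime ∧ q ∣ p - 1 ∧ ((a : ℤ) : ZMod p) ^ ((p - 1) / q) = 1), Real.log p ≤
      ∑ n ∈ Icc 1 (2 * X), (lamK K n - lamK ℚ n) * wt (2 * X) n +
      ∑ n ∈ (Icc 1 (2 * X)).filter (fun n => n ≡ 1 [MOD q]), Λ n * Real.log (((2 * X : ℕ) : ℝ) / n) +
      ∑ n ∈ (Icc 1 (2 * X)).filter (fun n => ¬ n.Prime), Λ n * Real.log ((2 * X : ℕ) : ℝ) +
      Real.log (((q : ℤ) * a).natAbs : ℝ) * Real.log ((2 * X : ℕ) : ℝ) := by
  have hqa : (q : ℤ) * a ≠ 0 := mul_ne_zero (by exact_mod_cast hq.ne_zero) ha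
  have hL : 0 ≤ Real.log ((2 * X : ℕ) : ℝ) := Real.log_natCast_nonneg _
  refine le_trans ?_ (add_le_add_right (mul_le_mul_of_nonneg_right (main_dvd hqa (2 * X)) hL) _)
  rw [sum_filter, sum_filter, sum_filter, sum_mul, ← sum_add_distrib, ← sum_add_distrib, ← sum_add_distrib,
    mul_sum]
  calc _ ≤ ∑ n ∈ Icc 1 X, (if n.Prime ∧ q ∣ n - 1 ∧ ((a : ℤ) : ZMod n) ^ ((n - 1) / q) = 1 then
          (q : ℝ) * Real.log n else 0) * wt (2 * X) n := by
        refine sum_le_sum fun n hn => ?_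
        obtain ⟨h1, h2⟩ := mem_Icc.1 hn
        have hw := (wt_bounds (Y := 2 * X) h1 (by omega)).2.2.2 (by omega)
        have hl : 0 ≤ (q : ℝ) * Real.log n := mul_nonneg (Nat.cast_nonneg _) (Real.log_natCast_nonneg _)
        split_ifs
        · nlinarith
        · simp
    _ ≤ ∑ n ∈ Icc 1 (2 * X), (if n.Prime ∧ q ∣ n - 1 ∧ ((a : ℤ) : ZMod n) ^ ((n - 1) / q) = 1 then
          (q : ℝ) * Real.log n else 0) * wt (2 * X) n := by
        refine sum_le_sum_of_subset_of_nonneg (Icc_subset_Icc_right (by omega)) fun n hn _ => ?_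
        obtain ⟨h1, h2⟩ := mem_Icc.1 hn
        refine mul_nonneg ?_ (wt_bounds h1 h2).1
        split_ifs
        · exact mul_nonneg (Nat.cast_nonneg _) (Real.log_natCast_nonneg _)
        · exact le_rfl
    _ ≤ _ := by
        refine sum_le_sum fun n hn => ?_
        obtain ⟨h1, h2⟩ := mem_Icc.1 hn
        obtain ⟨w0, w1, w2, -⟩ := wt_bounds h1 h2
        have hv : 0 ≤ Λ n := ArithmeticFunction.vonMangoldt_nonneg
        refine (mul_le_mul_of_nonneg_right (point_le hq hK n) w0).trans ?_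
        rw [add_mul, add_mul, add_mul]
        refine add_le_add (add_le_add (add_le_add le_rfl ?_) ?_) ?_
        · split_ifs
          · exact mul_le_mul_of_nonneg_left w1 hv
          · simp
        · split_ifs
          · simp
          · exact mul_le_mul_of_nonneg_left (w1.trans w2) hv
        · split_ifs
          · exact mul_le_mul_of_nonneg_left (w1.trans w2) hv
          · simp

/-- Main.  `|a| ≥ 2` (`0`, `1` are squares); `q₀ = max 3 |a|`, `K` from `exists_F0`, `Y = 2 X`; multiply `point_le` by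
`wt Y n ≥ 0` and sum over `n ≤ Y`; `wt_bounds`, `psi_diff`, `ap_weight`, `pp_weight`,
`∑_{n ∣ q |a|} Λ n = log (q |a|)` (`ArithmeticFunction.vonMangoldt_sum`); `log |d| ≤ q log q + q log |a| ≤ 2 q²`;
`θ' = max θ (19/20)`, `log Y ≤ C Y^(3/4)`. -/
theorem stKum_of (h : StZFK) : StKum := by
  intro a ha1 hsq
  obtain ⟨θ, C₁, hθ, hC₁, h1⟩ := psi_diff h
  obtain ⟨C₂, hC₂, h2⟩ := ap_weight
  obtain ⟨C₃, hC₃, h3⟩ := pp_weight
  have ha0 : a ≠ 0 := by
    rintro rfl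
    exact hsq IsSquare.zero
  have ha1' : a ≠ 1 := by
    rintro rfl
    exact hsq IsSquare.one
  have ha2 : 2 ≤ |a| := by
    rcases abs_cases a with h' | h' <;> omega
  refine ⟨max θ (19 / 20), 8 * (3 * C₁ + C₂ + C₃ + 4), max 3 a.natAbs, max_lt hθ (by norm_num), by positivity,
    fun q hq hq0 X hX => ?_⟩
  have hq3 : 3 ≤ q := (le_max_left _ _).trans hq0
  have hqa : a.natAbs ≤ q := (le_max_right _ _).trans hq0
  have haq : |a| < 2 ^ q := by
    have : a.natAbs < 2 ^ q := hqa.trans_lt Nat.lt_two_pow_self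
    rw [← Int.natCast_natAbs]
    exact_mod_cast this
  obtain ⟨K, _, _, hn, hd, hK⟩ := exists_F0 ha2 hq haq
  have hS := main_sum ha0 hq hK X
  set θ' : ℝ := max θ (19 / 20) with hθ'
  have hθ1 : θ' < 1 := max_lt hθ (by norm_num)
  have hθ2 : (19 / 20 : ℝ) ≤ θ' := le_max_right _ _
  have hY : 1 ≤ 2 * X := by omega
  have hY1 : (1 : ℝ) ≤ ((2 * X : ℕ) : ℝ) := by exact_mod_cast hY
  have hX0 : (0 : ℝ) < X := by exact_mod_cast (by omega : 0 < X)
  have hq1 : (3 : ℝ) ≤ q := by exact_mod_cast hq3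
  have hP0 : 0 < (X : ℝ) ^ θ' := Real.rpow_pos_of_pos hX0 _
  have hYP : ∀ x : ℝ, x ≤ θ' → ((2 * X : ℕ) : ℝ) ^ x ≤ 2 * (X : ℝ) ^ θ' := fun x hx => by
    refine (Real.rpow_le_rpow_of_exponent_le hY1 hx).trans ?_
    rw [Nat.cast_mul, Real.mul_rpow (by positivity) hX0.le]
    refine mul_le_mul_of_nonneg_right ?_ hP0.le
    calc ((2 : ℕ) : ℝ) ^ θ' ≤ ((2 : ℕ) : ℝ) ^ (1 : ℝ) :=
          Real.rpow_le_rpow_of_exponent_le (by norm_num) hθ1.le
      _ = 2 := by norm_num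
  have hlq : Real.log q ≤ q := (Real.log_le_sub_one_of_pos (by linarith)).trans (by linarith)
  have hA : (1 : ℝ) ≤ a.natAbs := by exact_mod_cast Int.natAbs_pos.2 ha0
  have hAq : (a.natAbs : ℝ) ≤ q := by exact_mod_cast hqa
  have hla : Real.log a.natAbs ≤ q := (Real.log_le_log (by linarith) hAq).trans hlq
  have hld : Real.log |(discr K : ℝ)| ≤ 2 * (q : ℝ) ^ 2 := by
    have e1 : |(discr K : ℝ)| ≤ (q : ℝ) ^ q * (a.natAbs : ℝ) ^ q := by
      have hd' : ((|discr K| : ℤ) : ℝ) ≤ (((q : ℤ) ^ q * |a| ^ q : ℤ) : ℝ) := Int.cast_le.2 hd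
      rw [← Int.natCast_natAbs a] at hd'
      simpa using hd'
    have e0 : 0 < |(discr K : ℝ)| := abs_pos.2 (by exact_mod_cast discr_ne_zero K)
    refine (Real.log_le_log e0 e1).trans ?_
    rw [Real.log_mul (by positivity) (by positivity), Real.log_pow, Real.log_pow]
    nlinarith
  have hld0 : 0 ≤ Real.log |(discr K : ℝ)| := by
    rw [← Int.cast_abs]
    exact Real.log_intCast_nonneg _
  have t1 := h1 K (hn ▸ hq.odd_of_ne_two (by omega)) (2 * X) hY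
  rw [hn] at t1
  have t1' : C₁ * (q + Real.log |(discr K : ℝ)|) * ((2 * X : ℕ) : ℝ) ^ θ ≤
      C₁ * (3 * (q : ℝ) ^ 2) * (2 * (X : ℝ) ^ θ') := by
    have := hYP θ (le_max_left _ _)
    gcongr
    nlinarith
  have t2 := h2 q (2 * X) hq hY
  have t2' : C₂ * (((2 * X : ℕ) : ℝ) / q + ((2 * X : ℕ) : ℝ) ^ (19 / 20 : ℝ) * q) ≤
      C₂ * (2 * X / q + 2 * (X : ℝ) ^ θ' * (q : ℝ) ^ 2) := by
    have := hYP _ hθ2
    have e : (q : ℝ) ≤ (q : ℝ) ^ 2 := by nlinarith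
    rw [show ((2 * X : ℕ) : ℝ) / q = 2 * X / q by push_cast; ring]
    gcongr
  have t3 := h3 (2 * X) hY
  have hY34 := hYP (3 / 4) (by linarith)
  have t3' : C₃ * ((2 * X : ℕ) : ℝ) ^ (3 / 4 : ℝ) ≤ C₃ * (2 * (X : ℝ) ^ θ' * (q : ℝ) ^ 2) := by
    gcongr
    nlinarith [mul_le_mul_of_nonneg_left (show (1 : ℝ) ≤ (q : ℝ) ^ 2 by nlinarith) hP0.le]
  have t4 : Real.log (((q : ℤ) * a).natAbs : ℝ) * Real.log ((2 * X : ℕ) : ℝ) ≤
      4 * (2 * (X : ℝ) ^ θ' * (q : ℝ) ^ 2) := by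
    have e1 : Real.log (((q : ℤ) * a).natAbs : ℝ) ≤ 2 * q := by
      rw [Int.natAbs_mul, Int.natAbs_natCast, Nat.cast_mul, Real.log_mul (by positivity) (by positivity)]
      linarith
    have e2 : Real.log ((2 * X : ℕ) : ℝ) ≤ 2 * (2 * (X : ℝ) ^ θ') := by
      refine (Real.log_le_rpow_div (by linarith) (by norm_num : (0 : ℝ) < 3 / 4)).trans ?_
      rw [div_le_iff₀ (by norm_num)]
      linarith
    calc _ ≤ (2 * q) * (2 * (2 * (X : ℝ) ^ θ')) :=
          mul_le_mul e1 e2 (Real.log_natCast_nonneg _) (by positivity)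
      _ ≤ _ := by nlinarith [mul_le_mul_of_nonneg_left (show (q : ℝ) ≤ (q : ℝ) ^ 2 by nlinarith) hP0.le]
  set S := ∑ p ∈ (Icc 1 X).filter
        (fun p : ℕ => p.Prime ∧ q ∣ p - 1 ∧ ((a : ℤ) : ZMod p) ^ ((p - 1) / q) = 1), Real.log p
  have key : (q : ℝ) / 4 * S ≤ (q : ℝ) / 4 * (8 * C₂ * (X / (q : ℝ) ^ 2) +
      8 * (3 * C₁ + C₂ + C₃ + 4) * ((X : ℝ) ^ θ' * q)) := by
    refine hS.trans ((add_le_add (add_le_add (add_le_add (t1.trans t1') (t2.trans t2')) (t3.trans t3'))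
      t4).trans (le_of_eq ?_))
    field_simp
    ring
  have key' := le_of_mul_le_mul_left key (by positivity)
  have hqC : (q : ℝ) ≤ (q : ℝ) ^ (8 * (3 * C₁ + C₂ + C₃ + 4)) := by
    conv_lhs => rw [← Real.rpow_one q]
    exact Real.rpow_le_rpow_of_exponent_le (by linarith) (by linarith)
  refine key'.trans ?_
  rw [mul_add (8 * (3 * C₁ + C₂ + C₃ + 4))]
  gcongr
  linarith

end Crest.Agent.R27
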