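import Crest.Agent.R27.Ku.Unit
import Crest.Agent.R17.B.Gamma

/-! Row 27, block Ku (owner helper94): the gamma factor. -/

set_option autoImplicit false

namespace Crest.Agent.R27.Ku

open NumberField MeasureTheory Finset
open scoped Classical Real

/-- the local factor `∫ exp (ε v - π m e^(2v) + m s v) dv` -/
noncomputable def gam (m ε : ℕ) (s : ℂ) : ℂ :=
  1 / 2 * ((π * m : ℝ) : ℂ) ^ (-((m * s + ε) / 2)) * Complex.Gamma ((m * s + ε) / 2)

theorem gama_re {m : ℕ} (hm : 0 < m) (ε : ℕ) {s : ℂ} (hs : 0 < s.re) :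
    0 < (((m : ℂ) * s + ε) / 2).re := by
  have h : (((m : ℂ) * s + ε) / 2).re = (m * s.re + ε) / 2 := by simp
  rw [h]
  positivity

/-- Gam-a.  substitution `u = π m exp (2 v)` (`integral_comp_mul_deriv_Ioi`-like, or
`integral_cpow_mul_exp_neg_mul_Ioi` with `x = exp (2 v)`) -/
theorem gam_int {m : ℕ} (hm : 0 < m) (ε : ℕ) {s : ℂ} (hs : 0 < s.re) :
    Integrable (fun v : ℝ => ((Real.exp v ^ ε * Real.exp (-(π * (m * Real.exp v ^ 2))) : ℝ) : ℂ) *
      Complex.exp (m * s * v)) ∧
    ∫ v : ℝ, ((Real.exp v ^ ε * Real.exp (-(π * (m * Real.exp v ^ 2))) : ℝ) : ℂ) *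
      Complex.exp (m * s * v) = gam m ε s := by
  have hr : 0 < π * m := mul_pos Real.pi_pos (Nat.cast_pos.2 hm)
  have ha := gama_re hm ε hs
  set a : ℂ := (m * s + ε) / 2 with ha'
  set L : ℝ := Real.log (π * m) with hL
  have hd : ∀ v ∈ (Set.univ : Set ℝ), HasDerivWithinAt (fun v : ℝ => Real.exp (L + 2 * v))
      (Real.exp (L + 2 * v) * 2) Set.univ v := fun v _ =>
    (((hasDerivAt_id v).const_mul 2).const_add L).exp.hasDerivWithinAt.congr_deriv (by simp)
  have hinj : Set.InjOn (fun v : ℝ => Real.exp (L + 2 * v)) Set.univ := fun v _ w _ h => by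
    have := Real.exp_injective h
    linarith
  have im : (fun v : ℝ => Real.exp (L + 2 * v)) '' Set.univ = Set.Ioi 0 := by
    ext x
    constructor
    · rintro ⟨v, -, rfl⟩
      exact Real.exp_pos _
    · intro hx
      refine ⟨(Real.log x - L) / 2, trivial, ?_⟩
      have : L + 2 * ((Real.log x - L) / 2) = Real.log x := by ring
      simp only [this]
      exact Real.exp_log hx
  have h1 := Complex.GammaIntegral_convergent ha
  have h2 := Complex.Gamma_eq_integral ha
  rw [← im, integrableOn_image_iff_integrableOn_abs_deriv_smul MeasurableSet.univ hd hinj,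
    integrableOn_univ] at h1
  rw [Complex.GammaIntegral, ← im, integral_image_eq_integral_abs_deriv_smul MeasurableSet.univ hd hinj,
    Measure.restrict_univ] at h2
  have key : (fun v : ℝ => ((Real.exp v ^ ε * Real.exp (-(π * (m * Real.exp v ^ 2))) : ℝ) : ℂ) *
      Complex.exp (m * s * v)) = fun v : ℝ => 1 / 2 * ((π * m : ℝ) : ℂ) ^ (-a) *
        (|Real.exp (L + 2 * v) * 2| • (((Real.exp (-Real.exp (L + 2 * v)) : ℝ) : ℂ) *
          ((Real.exp (L + 2 * v) : ℝ) : ℂ) ^ (a - 1))) := by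
    funext v
    have e1 : π * (m * Real.exp v ^ 2) = Real.exp (L + 2 * v) := by
      rw [Real.exp_add, hL, Real.exp_log hr, ← Real.exp_nat_mul]
      push_cast
      ring
    have e2 : ((π * m : ℝ) : ℂ) ^ (-a) = Complex.exp (L * -a) := by
      rw [Complex.cpow_def_of_ne_zero (Complex.ofReal_ne_zero.2 hr.ne'), ← Complex.ofReal_log hr.le]
    have e3 : ((Real.exp (L + 2 * v) : ℝ) : ℂ) ^ (a - 1) = Complex.exp ((L + 2 * v) * (a - 1)) := by
      rw [Complex.cpow_def_of_ne_zero (Complex.ofReal_ne_zero.2 (Real.exp_pos _).ne'),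
        ← Complex.ofReal_log (Real.exp_pos _).le, Real.log_exp]
      push_cast
      rfl
    have e4 : Complex.exp (ε * v) * Complex.exp (m * s * v) =
        Complex.exp (L * -a) * Complex.exp (L + 2 * v) * Complex.exp ((L + 2 * v) * (a - 1)) := by
      rw [← Complex.exp_add, ← Complex.exp_add, ← Complex.exp_add, ha']
      congr 1
      ring
    rw [e1, e2, e3, abs_of_pos (by positivity), Complex.real_smul, ← Real.exp_nat_mul]
    generalize Real.exp (-Real.exp (L + 2 * v)) = E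
    push_cast
    linear_combination (E : ℂ) * e4
  rw [key]
  exact ⟨h1.const_mul _, by rw [integral_const_mul, ← h2]; rfl⟩

/-- Gam-a -/
theorem gam_diff {m : ℕ} (hm : 0 < m) (ε : ℕ) : DifferentiableOn ℂ (gam m ε) {s | 0 < s.re} ∧
    ∀ s : ℂ, 0 < s.re → gam m ε s ≠ 0 := by
  have hr : ((π * m : ℝ) : ℂ) ≠ 0 :=
    Complex.ofReal_ne_zero.2 (mul_pos Real.pi_pos (Nat.cast_pos.2 hm)).ne'
  refine ⟨fun s hs => DifferentiableAt.differentiableWithinAt ?_, fun s hs => ?_⟩
  · have h1 : DifferentiableAt ℂ (fun s : ℂ => ((m : ℂ) * s + ε) / 2) s := by fun_prop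
    refine ((h1.neg.const_cpow (Or.inl hr)).const_mul _).mul
      ((Complex.differentiableAt_Gamma _ fun k hk => ?_).comp s h1)
    have h2 := gama_re hm ε hs
    rw [hk] at h2
    simp only [Complex.neg_re, Complex.natCast_re] at h2
    linarith [Nat.cast_nonneg (α := ℝ) k]
  · exact mul_ne_zero (mul_ne_zero (by norm_num) (Complex.cpow_ne_zero_iff.2 (Or.inl hr)))
      (Complex.Gamma_ne_zero_of_re_pos (gama_re hm ε hs))

/-- Gam-a.  `R17.inv_Gamma_strip` -/
theorem gam_ratio : ∃ C : ℝ, 0 < C ∧ ∀ m ε : ℕ, 1 ≤ m → m ≤ 2 → ε ≤ 1 → ∀ s : ℂ, 1 / 2 ≤ s.re →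
    s.re ≤ 2 → ‖gam m ε 2‖ ≤ Real.exp (C * (|s.im| + 2)) * ‖gam m ε s‖ := by
  obtain ⟨C, hC, h₁⟩ := R17.inv_Gamma_strip 0 3
  obtain ⟨K, hK, h₂⟩ := R17.Gamma_strip one_pos 3
  refine ⟨π + 512 * K * C, by positivity, fun m ε hm hm2 hε s hs hs2 => ?_⟩
  have hm1 : (1 : ℝ) ≤ m := by exact_mod_cast hm
  have hm2' : (m : ℝ) ≤ 2 := by exact_mod_cast hm2
  have hε' : (ε : ℝ) ≤ 1 := by exact_mod_cast hε
  have hε0 : (0 : ℝ) ≤ ε := Nat.cast_nonneg _
  have hr1 : 1 ≤ π * m := by nlinarith [Real.pi_gt_three]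
  have hr8 : π * m ≤ 8 := by nlinarith [Real.pi_le_four]
  have hre : ∀ z : ℂ, (((m : ℂ) * z + ε) / 2).re = (m * z.re + ε) / 2 := fun z => by simp
  have him : ∀ z : ℂ, (((m : ℂ) * z + ε) / 2).im = m * z.im / 2 := fun z => by simp
  have hn : ∀ z : ℂ, ‖gam m ε z‖ =
      1 / 2 * (π * m) ^ (-((m * z.re + ε) / 2)) * ‖Complex.Gamma ((m * z + ε) / 2)‖ := fun z => by
    rw [gam, norm_mul, norm_mul, Complex.norm_cpow_eq_rpow_re_of_pos (by linarith), Complex.neg_re, hre]
    norm_num
  have e1 : ‖gam m ε 2‖ ≤ 1 / 2 * K := by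
    rw [hn, mul_assoc]
    refine mul_le_mul_of_nonneg_left ?_ (by norm_num)
    have h3 := h₂ ((m * 2 + ε) / 2) ⟨by rw [hre]; norm_num; linarith, by rw [hre]; norm_num; linarith⟩
    have h4 : (π * m) ^ (-((m * (2 : ℂ).re + ε) / 2)) ≤ 1 :=
      Real.rpow_le_one_of_one_le_of_nonpos hr1 (by norm_num; positivity)
    refine (mul_le_of_le_one_left (norm_nonneg _) h4).trans (h3.trans ?_)
    exact mul_le_of_le_one_right hK.le (Real.exp_le_one_iff.2 (neg_nonpos.2 (abs_nonneg _)))
  have ha := gama_re (by omega : 0 < m) ε (by linarith : 0 < s.re)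
  have hG := norm_pos_iff.2 (Complex.Gamma_ne_zero_of_re_pos ha)
  have h3 := h₁ ((m * s + ε) / 2) ⟨ha.le, by rw [hre]; nlinarith⟩
  have h4 : Real.exp (π * |(((m : ℂ) * s + ε) / 2).im|) ≤ Real.exp (π * |s.im|) := by
    rw [him, abs_div, abs_mul, Nat.abs_cast, abs_two]
    refine Real.exp_le_exp.2 (mul_le_mul_of_nonneg_left ?_ Real.pi_pos.le)
    nlinarith [abs_nonneg s.im]
  have h5 : 1 ≤ C * Real.exp (π * |s.im|) * ‖Complex.Gamma ((m * s + ε) / 2)‖ := by
    rw [norm_inv] at h3
    rw [← div_le_iff₀ hG, one_div]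
    exact h3.trans (mul_le_mul_of_nonneg_left h4 hC.le)
  have h6 : 1 / 512 ≤ (π * m) ^ (-((m * s.re + ε) / 2)) := by
    calc (1 / 512 : ℝ) = 8 ^ (-3 : ℝ) := by
          rw [Real.rpow_neg (by norm_num), show (3 : ℝ) = (3 : ℕ) by norm_num, Real.rpow_natCast]
          norm_num
      _ ≤ (π * m) ^ (-3 : ℝ) := Real.rpow_le_rpow_of_nonpos (by linarith) hr8 (by norm_num)
      _ ≤ _ := Real.rpow_le_rpow_of_exponent_le hr1 (by nlinarith)
  have h7 : 512 * K * C * Real.exp (π * |s.im|) ≤ Real.exp ((π + 512 * K * C) * (|s.im| + 2)) := by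
    have h8 : 512 * K * C ≤ Real.exp (512 * K * C) := by linarith [Real.add_one_le_exp (512 * K * C)]
    refine (mul_le_mul_of_nonneg_right h8 (Real.exp_pos _).le).trans ?_
    rw [← Real.exp_add, Real.exp_le_exp]
    have h9 : 0 < 512 * K * C := by positivity
    nlinarith [abs_nonneg s.im, Real.pi_pos]
  rw [hn s]
  calc ‖gam m ε 2‖ ≤ 1 / 2 * K * (C * Real.exp (π * |s.im|) * ‖Complex.Gamma ((m * s + ε) / 2)‖) :=
        e1.trans (le_mul_of_one_le_right (by positivity) h5)
    _ = 512 * K * C * Real.exp (π * |s.im|) *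
          (1 / 2 * (1 / 512) * ‖Complex.Gamma ((m * s + ε) / 2)‖) := by ring
    _ ≤ _ := by gcongr

variable {K : Type} [Field K] [NumberField K]

theorem gmb_sum (f : InfinitePlace K → ℝ) :
    ∑ φ : K →+* ℂ, f (InfinitePlace.mk φ) = ∑ w : InfinitePlace K, (w.mult : ℝ) * f w := by
  rw [← Finset.sum_fiberwise Finset.univ (fun φ : K →+* ℂ => InfinitePlace.mk φ)]
  refine Finset.sum_congr rfl fun w _ => ?_
  rw [Finset.sum_congr rfl (g := fun _ => f w)
    (fun φ hφ => by rw [(Finset.mem_filter.1 hφ).2]), Finset.sum_const, nsmul_eq_mul,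
    InfinitePlace.card_filter_mk_eq]

/-- Gam-b.  the test function as a product over the places (`Finset.sum_fiberwise` along `InfinitePlace.mk`,
`InfinitePlace.card_filter_mk_eq`; a real place has exactly one embedding above it) -/
theorem fS_places (e : Bool) (v : InfinitePlace K → ℝ) :
    fS (Sg K e) (fun φ => Real.exp (v (InfinitePlace.mk φ))) =
      ∏ w : InfinitePlace K, Real.exp (v w) ^ (if e ∧ w.IsReal then 1 else 0) *
        Real.exp (-(π * (w.mult * Real.exp (v w) ^ 2))) := by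
  unfold fS
  rw [Finset.prod_mul_distrib, ← Real.exp_sum, gmb_sum (fun w => Real.exp (v w) ^ 2),
    ← Real.exp_sum, Finset.sum_neg_distrib, ← Finset.mul_sum]
  congr 1
  simp only [← Real.exp_nat_mul]
  rw [← Real.exp_sum]
  congr 1
  cases e with
  | false => simp [Sg]
  | true =>
    have h := gmb_sum (fun w : InfinitePlace K => if w.IsReal then v w else 0)
    simp only [InfinitePlace.isReal_mk_iff] at h
    simp only [Sg, if_true, true_and]
    rw [Finset.sum_filter, h]
    refine Finset.sum_congr rfl fun w _ => ?_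
    split_ifs with hw
    · rw [hw.mult_eq_one]
    · simp

/-- Gam-b.  `yv` in logarithmic coordinates; `∑ w, mult w * logT p w = n p.1` -/
theorem yv_logT (p : ℝ × (Fin (Units.rank K) → ℝ)) :
    (∀ φ : K →+* ℂ, yv (ellK K) (Real.exp (Module.finrank ℚ K * p.1)) p.2 φ =
      Real.exp (logT K p (InfinitePlace.mk φ))) ∧
    ∑ w : InfinitePlace K, (w.mult : ℝ) * logT K p w = Module.finrank ℚ K * p.1 := by
  have hn : (Module.finrank ℚ K : ℝ) ≠ 0 := by exact_mod_cast Module.finrank_pos.ne'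
  constructor
  · intro φ
    unfold yv
    rw [Embeddings.card K ℂ, ← Real.exp_mul, ← Real.exp_add]
    congr 1
    change _ = p.1 + ∑ j, p.2 j * Real.log (InfinitePlace.mk φ ((Units.fundSystem K j : 𝓞 K) : K))
    simp only [InfinitePlace.apply, ellK]
    congr 1
    field_simp
  · change ∑ w : InfinitePlace K, (w.mult : ℝ) *
      (p.1 + ∑ j, p.2 j * Real.log (w ((Units.fundSystem K j : 𝓞 K) : K))) = _
    simp only [mul_add, Finset.sum_add_distrib, Finset.mul_sum]
    rw [← Finset.sum_mul, Finset.sum_comm, ← Nat.cast_sum, InfinitePlace.sum_mult_eq]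
    have h0 : ∑ j, ∑ w : InfinitePlace K,
        (w.mult : ℝ) * (p.2 j * Real.log (w ((Units.fundSystem K j : 𝓞 K) : K))) = 0 := by
      refine Finset.sum_eq_zero fun j _ => ?_
      have h := Units.sum_mult_mul_log (Units.fundSystem K j)
      have e : ∑ w : InfinitePlace K,
          (w.mult : ℝ) * (p.2 j * Real.log (w ((Units.fundSystem K j : 𝓞 K) : K))) =
          p.2 j * ∑ w : InfinitePlace K,
            (w.mult : ℝ) * Real.log (w ((Units.fundSystem K j : 𝓞 K) : K)) := by
        rw [Finset.mul_sum]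
        exact Finset.sum_congr rfl fun w _ => by ring
      rw [e]
      exact mul_eq_zero_of_right _ h
    rw [h0, add_zero]

lemma gamc_haar : ∃ J : ℝ, 0 < J ∧ ∀ F : (InfinitePlace K → ℝ) → ℂ, Integrable F →
    Integrable (fun p => F (logT K p)) ∧ ∫ p, F (logT K p) = J * ∫ v, F v := by
  let L := (LinearEquiv.ofBijective (logT K) (logT_bij K)).toContinuousLinearEquiv
  have hL : ∀ p, L p = logT K p := fun p => rfl
  have : Measure.IsAddHaarMeasure (volume : Measure (ℝ × (Fin (Units.rank K) → ℝ))) := by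
    rw [Measure.volume_eq_prod]
    infer_instance
  have : Measure.IsAddHaarMeasure
      ((volume : Measure (ℝ × (Fin (Units.rank K) → ℝ))).map L) :=
    L.isAddHaarMeasure_map volume
  have h := Measure.isAddLeftInvariant_eq_smul
    ((volume : Measure (ℝ × (Fin (Units.rank K) → ℝ))).map L) (volume : Measure (InfinitePlace K → ℝ))
  have hpos := Measure.addHaarScalarFactor_pos_of_isAddHaarMeasure
    ((volume : Measure (ℝ × (Fin (Units.rank K) → ℝ))).map L) (volume : Measure (InfinitePlace K → ℝ))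
  generalize Measure.addHaarScalarFactor
    ((volume : Measure (ℝ × (Fin (Units.rank K) → ℝ))).map L)
      (volume : Measure (InfinitePlace K → ℝ)) = J at h hpos
  have hemb : MeasurableEmbedding L := L.toHomeomorph.measurableEmbedding
  refine ⟨J, by exact_mod_cast hpos, fun F hF => ⟨?_, ?_⟩⟩
  · have h1 : Integrable F ((volume : Measure (ℝ × (Fin (Units.rank K) → ℝ))).map L) := by
      rw [h]
      exact hF.smul_measure_nnreal
    exact hemb.integrable_map_iff.1 h1
  · have h1 := hemb.integral_map (μ := volume) F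
    rw [h, integral_smul_nnreal_measure] at h1
    simp only [hL] at h1
    rw [← h1, NNReal.smul_def, Complex.real_smul]

lemma gamc_subst {n : ℝ} (hn : 0 < n) (f : ℝ → ℂ) (s : ℂ)
    (h : Integrable fun τ : ℝ => f (Real.exp (n * τ)) * Complex.exp (s * (n * τ : ℝ))) :
    MellinConvergent f s ∧
      mellin f s = n * ∫ τ : ℝ, f (Real.exp (n * τ)) * Complex.exp (s * (n * τ : ℝ)) := by
  have him : (fun τ : ℝ => Real.exp (n * τ)) '' Set.univ = Set.Ioi 0 := by
    ext t
    simp only [Set.image_univ, Set.mem_range, Set.mem_Ioi]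
    constructor
    · rintro ⟨τ, rfl⟩
      exact Real.exp_pos _
    · intro ht
      refine ⟨Real.log t / n, ?_⟩
      rw [mul_div_cancel₀ _ hn.ne', Real.exp_log ht]
  have hd : ∀ τ ∈ (Set.univ : Set ℝ), HasDerivWithinAt (fun τ : ℝ => Real.exp (n * τ))
      (Real.exp (n * τ) * n) Set.univ τ := fun τ _ => by
    have : HasDerivAt (fun τ : ℝ => Real.exp (n * τ)) (Real.exp (n * τ) * n) τ := by
      simpa using ((hasDerivAt_id τ).const_mul n).exp
    exact this.hasDerivWithinAt
  have hinj : Set.InjOn (fun τ : ℝ => Real.exp (n * τ)) Set.univ := fun a _ b _ hab => by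
    have := Real.exp_injective hab
    exact mul_left_cancel₀ hn.ne' this
  have key : ∀ τ : ℝ, |Real.exp (n * τ) * n| • (((Real.exp (n * τ) : ℝ) : ℂ) ^ (s - 1) •
      f (Real.exp (n * τ))) = n * (f (Real.exp (n * τ)) * Complex.exp (s * (n * τ : ℝ))) := fun τ => by
    have h0 : ((Real.exp (n * τ) : ℝ) : ℂ) ≠ 0 := by exact_mod_cast (Real.exp_pos _).ne'
    have h1 : ((Real.exp (n * τ) : ℝ) : ℂ) ^ s = Complex.exp (s * (n * τ : ℝ)) := by
      rw [Complex.cpow_def_of_ne_zero h0, ← Complex.ofReal_log (Real.exp_pos _).le, Real.log_exp,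
        mul_comm]
    rw [abs_of_pos (mul_pos (Real.exp_pos _) hn), Complex.cpow_sub _ _ h0, Complex.cpow_one, h1,
      Complex.real_smul, smul_eq_mul, Complex.ofReal_mul]
    field_simp
  constructor
  · unfold MellinConvergent
    rw [← him, integrableOn_image_iff_integrableOn_abs_deriv_smul MeasurableSet.univ hd hinj]
    simp only [key, integrableOn_univ]
    exact h.const_mul _
  · unfold mellin
    rw [← him, integral_image_eq_integral_abs_deriv_smul MeasurableSet.univ hd hinj]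
    simp only [key, Measure.restrict_univ]
    exact integral_const_mul _ _

/-- Gam-c.  The function `v ↦ ∏ w, (..) exp (mult w s v w)` is integrable with integral `∏ gam`
(`Integrable.fintype_prod`, `integral_fintype_prod_volume_eq_prod`, `gam_int`); `logT` is a linear equivalence, so
`map logT volume = J₀ • volume` with `J₀ > 0` (uniqueness of Haar measure: `Measure.isAddLeftInvariant_eq_smul`,
`addHaarScalarFactor_pos_of_isAddHaarMeasure`, `ContinuousLinearEquiv.isAddHaarMeasure_map`); Fubini on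
`ℝ × (Fin r → ℝ)` (`integral_prod`, `Integrable.integral_prod_left`); substitution `t = exp (n τ)`. -/
theorem mellin_phb : ∃ J : ℝ, 0 < J ∧ ∀ (e : Bool) (s : ℂ), 0 < s.re →
    MellinConvergent (fun t => ((phb (ellK K) (Sg K e) t : ℝ) : ℂ)) s ∧
    mellin (fun t => ((phb (ellK K) (Sg K e) t : ℝ) : ℂ)) s =
      J * ∏ w : InfinitePlace K, gam w.mult (if e ∧ w.IsReal then 1 else 0) s := by
  obtain ⟨J, hJ, hH⟩ := gamc_haar (K := K)
  have hn : (0 : ℝ) < Module.finrank ℚ K := by exact_mod_cast Module.finrank_pos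
  refine ⟨Module.finrank ℚ K * J, mul_pos hn hJ, fun e s hs => ?_⟩
  let g : InfinitePlace K → ℝ → ℂ := fun w v =>
    ((Real.exp v ^ (if e ∧ w.IsReal then 1 else 0) *
      Real.exp (-(π * (w.mult * Real.exp v ^ 2))) : ℝ) : ℂ) * Complex.exp (w.mult * s * v)
  have hg : ∀ w, Integrable (g w) ∧ ∫ v, g w v = gam w.mult (if e ∧ w.IsReal then 1 else 0) s :=
    fun w => gam_int InfinitePlace.mult_pos _ hs
  have hF : Integrable fun v : InfinitePlace K → ℝ => ∏ w, g w (v w) :=
    Integrable.fintype_prod (fun w => (hg w).1)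
  have hFi : ∫ v : InfinitePlace K → ℝ, ∏ w, g w (v w) =
      ∏ w : InfinitePlace K, gam w.mult (if e ∧ w.IsReal then 1 else 0) s := by
    rw [integral_fintype_prod_volume_eq_prod]
    exact Finset.prod_congr rfl fun w _ => (hg w).2
  obtain ⟨h1, h2⟩ := hH _ hF
  have hpt : ∀ p : ℝ × (Fin (Units.rank K) → ℝ), ∏ w, g w (logT K p w) =
      ((fS (Sg K e) (yv (ellK K) (Real.exp (Module.finrank ℚ K * p.1)) p.2) : ℝ) : ℂ) *
        Complex.exp (s * ((Module.finrank ℚ K : ℝ) * p.1 : ℝ)) := fun p => by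
    obtain ⟨y1, y2⟩ := yv_logT (K := K) p
    have e1 : yv (ellK K) (Real.exp (Module.finrank ℚ K * p.1)) p.2 =
        fun φ => Real.exp (logT K p (InfinitePlace.mk φ)) := funext y1
    rw [e1, fS_places, ← y2, Complex.ofReal_prod, Complex.ofReal_sum, Finset.mul_sum, Complex.exp_sum,
      ← Finset.prod_mul_distrib]
    refine Finset.prod_congr rfl fun w _ => ?_
    simp only [g]
    congr 2
    push_cast
    ring
  simp only [hpt] at h1 h2
  have hin : ∀ τ : ℝ, ∫ c : Fin (Units.rank K) → ℝ,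
      ((fS (Sg K e) (yv (ellK K) (Real.exp (Module.finrank ℚ K * τ)) c) : ℝ) : ℂ) *
        Complex.exp (s * ((Module.finrank ℚ K : ℝ) * τ : ℝ)) =
      ((phb (ellK K) (Sg K e) (Real.exp (Module.finrank ℚ K * τ)) : ℝ) : ℂ) *
        Complex.exp (s * ((Module.finrank ℚ K : ℝ) * τ : ℝ)) := fun τ => by
    rw [integral_mul_const, integral_complex_ofReal]
    rfl
  rw [Measure.volume_eq_prod] at h1 h2
  have h3 := h1.integral_prod_left
  rw [integral_prod _ h1] at h2
  simp only [hin] at h2 h3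
  obtain ⟨m1, m2⟩ := gamc_subst hn (fun t => ((phb (ellK K) (Sg K e) t : ℝ) : ℂ)) s h3
  refine ⟨m1, ?_⟩
  rw [m2, h2, hFi]
  push_cast
  ring

/-- Gam-b.  `mellin_phb`, `gam_diff`, `gam_ratio`; there are at most `finrank` places -/
theorem gam_pack : ∃ C : ℝ, 0 < C ∧ ∀ (K : Type) [Field K] [NumberField K] (e : Bool), ∃ G : ℂ → ℂ,
    DifferentiableOn ℂ G {s | 0 < s.re} ∧
    (∀ s : ℂ, 0 < s.re → G s ≠ 0 ∧ MellinConvergent (fun t => ((phb (ellK K) (Sg K e) t : ℝ) : ℂ)) s ∧
      mellin (fun t => ((phb (ellK K) (Sg K e) t : ℝ) : ℂ)) s = G s) ∧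
    ∀ s : ℂ, 1 / 2 ≤ s.re → s.re ≤ 2 →
      ‖G 2‖ ≤ Real.exp (C * Module.finrank ℚ K * (|s.im| + 2)) * ‖G s‖ := by
  obtain ⟨C, hC, hr⟩ := gam_ratio
  refine ⟨C, hC, fun K _ _ e => ?_⟩
  obtain ⟨J, hJ, hm⟩ := mellin_phb (K := K)
  refine ⟨fun s => J * ∏ w : InfinitePlace K, gam w.mult (if e ∧ w.IsReal then 1 else 0) s,
    ?_, fun s hs => ⟨?_, (hm e s hs).1, (hm e s hs).2⟩, fun s h1 h2 => ?_⟩
  · refine DifferentiableOn.const_mul ?_ _
    exact DifferentiableOn.fun_finsetProd fun w _ => (gam_diff InfinitePlace.mult_pos _).1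
  · refine mul_ne_zero (by exact_mod_cast hJ.ne') ?_
    exact Finset.prod_ne_zero_iff.2 fun w _ => (gam_diff InfinitePlace.mult_pos _).2 s hs
  · have hcard : (Fintype.card (InfinitePlace K) : ℝ) ≤ Module.finrank ℚ K := by
      have h3 := InfinitePlace.card_eq_nrRealPlaces_add_nrComplexPlaces K
      have h4 := InfinitePlace.card_add_two_mul_card_eq_rank K
      exact_mod_cast (by omega : Fintype.card (InfinitePlace K) ≤ Module.finrank ℚ K)
    have hp : ∏ w : InfinitePlace K, ‖gam w.mult (if e ∧ w.IsReal then 1 else 0) 2‖ ≤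
        ∏ w : InfinitePlace K, (Real.exp (C * (|s.im| + 2)) *
          ‖gam w.mult (if e ∧ w.IsReal then 1 else 0) s‖) := by
      refine Finset.prod_le_prod (fun w _ => norm_nonneg _) fun w _ => ?_
      refine hr _ _ InfinitePlace.mult_pos ?_ ?_ s h1 h2
      · unfold InfinitePlace.mult
        split_ifs <;> norm_num
      · split_ifs <;> norm_num
    rw [Finset.prod_mul_distrib, Finset.prod_const, Finset.card_univ, ← Real.exp_nat_mul] at hp
    have he : Real.exp (Fintype.card (InfinitePlace K) * (C * (|s.im| + 2))) ≤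
        Real.exp (C * Module.finrank ℚ K * (|s.im| + 2)) := by
      refine Real.exp_le_exp.2 ?_
      have h5 : 0 ≤ C * (|s.im| + 2) := by positivity
      calc _ ≤ Module.finrank ℚ K * (C * (|s.im| + 2)) := mul_le_mul_of_nonneg_right hcard h5
        _ = _ := by ring
    have h6 : 0 ≤ ∏ w : InfinitePlace K, ‖gam w.mult (if e ∧ w.IsReal then 1 else 0) s‖ :=
      Finset.prod_nonneg fun w _ => norm_nonneg _
    have h7 := hp.trans (mul_le_mul_of_nonneg_right he h6)
    rw [norm_mul, norm_mul, norm_prod, norm_prod, mul_left_comm]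
    exact mul_le_mul_of_nonneg_left h7 (norm_nonneg _)

end Crest.Agent.R27.Ku
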