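import Crest.Agent.R27.Ku.Defs

/-! Row 27, block Ku (owner helper94): counting ideals. -/

set_option autoImplicit false

namespace Crest.Agent.R27.Ku

open NumberField MeasureTheory Finset
open scoped Classical Real nonZeroDivisors ArithmeticFunction.vonMangoldt

variable (K : Type) [Field K] [NumberField K]

theorem zeta_eq (s : ℂ) : dedekindZeta K s = LSeries (fun n => (aK K n : ℂ)) s := rfl

/-- Arith-a.  `Ideal.absNorm_eq_one_iff` -/
theorem aK_one : aK K 1 = 1 := by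
  simp [aK, Ideal.absNorm_eq_one_iff]

/-- Arith-a.  as in the proof of `dedekindZeta`'s residue theorem: `Ideal.tendsto_norm_le_div_atTop₀`,
`LSeriesSummable_of_sum_norm_bigO_and_nonneg` -/
theorem summable_aK {s : ℂ} (hs : 1 < s.re) : LSeriesSummable (fun n => (aK K n : ℂ)) s := by
  have h : Filter.Tendsto (fun n : ℕ => (∑ k ∈ Icc 1 n, (aK K k : ℝ)) / (n : ℝ)) Filter.atTop
      (nhds (dedekindZeta_residue K)) := by
    refine ((Ideal.tendsto_norm_le_div_atTop₀ K).comp tendsto_natCast_atTop_atTop).congr fun n ↦ ?_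
    simp only [Function.comp_apply, Nat.cast_le, ← Nat.cast_sum, aK]
    congr
    rw [← add_left_inj 1, ← Ideal.card_norm_le_eq_card_norm_le_add_one,
      show Finset.Icc 1 n = Finset.Ioc 0 n from Finset.Icc_succ_left_eq_Ioc _ _,
      show 1 = Nat.card {I : Ideal (𝓞 K) // Ideal.absNorm I = 0} by simp [Ideal.absNorm_eq_zero_iff],
      Finset.sum_Ioc_add_eq_sum_Icc (n.zero_le),
      ← Finset.card_preimage_eq_sum_card_image_eq (fun k _ ↦ Ideal.finite_setOfPred_absNorm_eq k)]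
    simp [Set.coe_eq_subtype]
  have := LSeriesSummable_of_sum_norm_bigO_and_nonneg (f := fun n => (aK K n : ℝ)) (r := 1) (s := s)
    (Asymptotics.isBigO_atTop_natCast_rpow_of_tendsto_div_rpow (by simpa using h))
    (fun _ => Nat.cast_nonneg _) zero_le_one hs
  simpa using this

/-- the nonzero ideals of norm `n` -/
abbrev ara_F (n : ℕ) : Type := {I : (Ideal (𝓞 K))⁰ // Ideal.absNorm (I : Ideal (𝓞 K)) = n}

theorem ara_fin (n : ℕ) : Finite (ara_F K n) := by
  have : Finite {I : Ideal (𝓞 K) // Ideal.absNorm I = n} := (Ideal.finite_setOfPred_absNorm_eq n).to_subtype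
  exact Finite.of_injective (fun I : ara_F K n => (⟨I.1, I.2⟩ : {I : Ideal (𝓞 K) // Ideal.absNorm I = n}))
    fun I J h => Subtype.ext (Subtype.ext (Subtype.mk.inj h))

theorem ara_card (n : ℕ) : Nat.card (ara_F K n) = if n = 0 then 0 else aK K n := by
  split_ifs with hn
  · subst hn
    have : IsEmpty (ara_F K 0) := ⟨fun I => nonZeroDivisors.coe_ne_zero I.1 (Ideal.absNorm_eq_zero_iff.1 I.2)⟩
    exact Nat.card_of_isEmpty
  · refine Nat.card_congr ⟨fun I => ⟨I.1, I.2⟩, fun I => ⟨⟨I.1, mem_nonZeroDivisors_of_ne_zero ?_⟩, I.2⟩,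
      fun _ => rfl, fun _ => rfl⟩
    intro h
    exact hn (I.2.symm.trans (Ideal.absNorm_eq_zero_iff.2 h))

theorem ara_hasSum {E : Type} [NormedAddCommGroup E] (g : ℕ → E) (n : ℕ) :
    HasSum (fun I : ara_F K n => g (Ideal.absNorm (I.1 : Ideal (𝓞 K))))
      ((if n = 0 then 0 else aK K n) • g n) := by
  have := ara_fin K n
  have := Fintype.ofFinite (ara_F K n)
  have e : (fun I : ara_F K n => g (Ideal.absNorm (I.1 : Ideal (𝓞 K)))) = fun _ => g n :=
    funext fun I => by rw [I.2]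
  rw [e, ← ara_card, Nat.card_eq_fintype_card]
  simpa using hasSum_fintype (fun _ : ara_F K n => g n)

/-- Arith-a.  group the ideals by their norm (`Equiv.sigmaFiberEquiv`, `summable_sigma_of_nonneg`,
`Ideal.finite_setOf_absNorm_eq`), `summable_aK` -/
theorem summable_ideal {σ : ℝ} (hσ : 1 < σ) :
    Summable fun I : (Ideal (𝓞 K))⁰ => (Ideal.absNorm (I : Ideal (𝓞 K)) : ℝ) ^ (-σ) := by
  rw [← (Equiv.sigmaFiberEquiv fun I : (Ideal (𝓞 K))⁰ => Ideal.absNorm (I : Ideal (𝓞 K))).summable_iff]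
  have h := ara_hasSum K (fun n : ℕ => (n : ℝ) ^ (-σ))
  refine (summable_sigma_of_nonneg fun _ => Real.rpow_nonneg (Nat.cast_nonneg _) _).2
    ⟨fun n => (h n).summable, ?_⟩
  have h2 := (summable_aK K (s := σ) (by simpa using hσ)).norm
  refine h2.congr fun n => ?_
  refine Eq.trans ?_ (h n).tsum_eq.symm
  rw [LSeries.norm_term_eq]
  split_ifs with hn
  · simp
  · simp [Real.rpow_neg (Nat.cast_nonneg n), div_eq_mul_inv]

/-- Arith-a -/
theorem LS_eq_tsum {c : ℕ → ℂ} (hc : ∀ n, ‖c n‖ ≤ 1) {s : ℂ} (hs : 1 < s.re) :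
    LSeries (fun n => (aK K n : ℂ) * c n) s = ∑' I : (Ideal (𝓞 K))⁰,
      c (Ideal.absNorm (I : Ideal (𝓞 K))) * (Ideal.absNorm (I : Ideal (𝓞 K)) : ℂ) ^ (-s) := by
  have hS : Summable fun I : (Ideal (𝓞 K))⁰ =>
      c (Ideal.absNorm (I : Ideal (𝓞 K))) * (Ideal.absNorm (I : Ideal (𝓞 K)) : ℂ) ^ (-s) := by
    refine Summable.of_norm_bounded (summable_ideal K hs) fun I => ?_
    have hI : 0 < Ideal.absNorm (I : Ideal (𝓞 K)) :=
      Nat.pos_of_ne_zero fun h => nonZeroDivisors.coe_ne_zero I (Ideal.absNorm_eq_zero_iff.1 h)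
    rw [norm_mul, Complex.norm_natCast_cpow_of_pos hI, Complex.neg_re]
    exact mul_le_of_le_one_left (Real.rpow_nonneg (Nat.cast_nonneg _) _) (hc _)
  have h := ara_hasSum K (fun n : ℕ => c n * (n : ℂ) ^ (-s))
  have h2 := ((Equiv.sigmaFiberEquiv fun I : (Ideal (𝓞 K))⁰ =>
    Ideal.absNorm (I : Ideal (𝓞 K))).hasSum_iff.2 hS.hasSum).sigma h
  rw [← h2.tsum_eq, LSeries]
  refine tsum_congr fun n => ?_
  rw [LSeries.term_def]
  split_ifs with hn
  · simp
  · rw [nsmul_eq_mul, Complex.cpow_neg, div_eq_mul_inv, mul_assoc]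

/-- Arith-b -/
theorem lamI_nonneg (I : Ideal (𝓞 K)) : 0 ≤ lamI K I := by
  unfold lamI
  split_ifs
  · exact Real.log_natCast_nonneg _
  · exact le_rfl

/-- Arith-b -/
theorem lamI_pow {P : Ideal (𝓞 K)} (hP : Prime P) {k : ℕ} (hk : 0 < k) :
    lamI K (P ^ k) = Real.log (Ideal.absNorm P) := by
  rw [lamI, if_pos ⟨P, k, hP, hk, rfl⟩, Ideal.radical_pow _ hk.ne', (Ideal.isPrime_of_prime hP).radical]

theorem arb_fin {I : Ideal (𝓞 K)} (hI : I ≠ ⊥) : {J : Ideal (𝓞 K) | J ∣ I}.Finite :=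
  (Ideal.finite_setOfPred_absNorm_le (Ideal.absNorm I)).subset fun _ hJ =>
    Nat.le_of_dvd (Nat.pos_of_ne_zero fun h => hI (Ideal.absNorm_eq_zero_iff.1 h)) (map_dvd _ hJ)

/-- Arith-b.  `log N I = ∑_{P^k ∣ I} log N P`.  E.g. `UniqueFactorizationMonoid.induction_on_prime`: the prime power
divisors of `P * I` are those of `I` and one more, `P ^ (v + 1)`, `v` the multiplicity of `P` in `I`. -/
theorem sum_lamI {I : Ideal (𝓞 K)} (hI : I ≠ ⊥) :
    {J : Ideal (𝓞 K) | J ∣ I}.Finite ∧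
      ∑ᶠ J ∈ {J : Ideal (𝓞 K) | J ∣ I}, lamI K J = Real.log (Ideal.absNorm I) := by
  refine ⟨arb_fin K hI, ?_⟩
  induction I using UniqueFactorizationMonoid.induction_on_prime with
  | h₁ => exact absurd rfl hI
  | h₂ I hu =>
    rw [Ideal.isUnit_iff.1 hu, Ideal.absNorm_top, Nat.cast_one, Real.log_one]
    refine finsum_mem_eq_zero_of_forall_eq_zero fun J hJ => ?_
    rw [lamI, if_neg]
    exact fun h => h.not_isUnit (isUnit_of_dvd_unit hJ (Ideal.isUnit_iff.2 rfl))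
  | h₃ I P hI0 hP ih =>
    have hf : FiniteMultiplicity P I := FiniteMultiplicity.of_prime_left hP hI0
    have hn : ¬ P ^ (multiplicity P I + 1) ∣ I := hf.not_pow_dvd_of_multiplicity_lt (Nat.lt_succ_self _)
    have e : ∑ᶠ J ∈ {J : Ideal (𝓞 K) | J ∣ P * I}, lamI K J =
        ∑ᶠ J ∈ insert (P ^ (multiplicity P I + 1)) {J : Ideal (𝓞 K) | J ∣ I}, lamI K J := by
      refine finsum_mem_inter_support_eq' _ _ _ fun J hJ => ?_
      have hJ' : IsPrimePow J := by
        by_contra h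
        exact hJ (by rw [lamI, if_neg h])
      obtain ⟨Q, k, hQ, hk, rfl⟩ := hJ'
      simp only [Set.mem_ofPred_eq, Set.mem_insert_iff]
      constructor
      · intro h
        by_cases hQP : Q ∣ P
        · obtain rfl : Q = P := associated_iff_eq.1 (hQ.associated_of_dvd hP hQP)
          obtain ⟨j, rfl⟩ := Nat.exists_eq_add_one_of_ne_zero hk.ne'
          rw [pow_succ', mul_dvd_mul_iff_left hQ.ne_zero, hf.pow_dvd_iff_le_multiplicity] at h
          rcases h.eq_or_lt with h | h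
          · exact Or.inl (by rw [h])
          · exact Or.inr (hf.pow_dvd_iff_le_multiplicity.2 h)
        · exact Or.inr (hQ.pow_dvd_of_dvd_mul_left k hQP h)
      · rintro (h | h)
        · rw [h, pow_succ']
          exact mul_dvd_mul_left _ (pow_multiplicity_dvd _ _)
        · exact h.mul_left _
    have hN : ∀ {J : Ideal (𝓞 K)}, J ≠ 0 → (Ideal.absNorm J : ℝ) ≠ 0 := fun hJ =>
      Nat.cast_ne_zero.2 fun h => hJ (Ideal.absNorm_eq_zero_iff.1 h)
    rw [e, finsum_mem_insert (s := {J : Ideal (𝓞 K) | J ∣ I}) _ hn (arb_fin K hI0), ih hI0,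
      lamI_pow K hP (Nat.succ_pos _), map_mul, Nat.cast_mul, Real.log_mul (hN hP.ne_zero) (hN hI0)]

/-- Arith-c -/
theorem lamK_nonneg (n : ℕ) : 0 ≤ lamK K n := by
  unfold lamK
  exact finsum_nonneg fun I => finsum_nonneg fun _ => lamI_nonneg K I

theorem arc_struct {I : Ideal (𝓞 K)} (hI : IsPrimePow I) :
    ∃ k p f : ℕ, Prime I.radical ∧ 0 < k ∧ I = I.radical ^ k ∧ p.Prime ∧ 0 < f ∧ (p : 𝓞 K) ∈ I.radical ∧
      Ideal.absNorm I.radical = p ^ f := by
  obtain ⟨P, k, hP, hk, rfl⟩ := hI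
  have hPp : P.IsPrime := Ideal.isPrime_of_prime hP
  have hr : (P ^ k).radical = P := by
    rw [Ideal.radical_pow _ hk.ne', hPp.radical]
  have hM : P.IsMaximal := hPp.isMaximal hP.ne_zero
  obtain ⟨p, f, hf, hm, hp, hn⟩ := Ideal.exists_prime_and_absNorm_eq_pow P
  rw [hr]
  exact ⟨k, p, f, hP, hk, rfl, hp, hf, hm, hn⟩

/-- Arith-c.  If `I = P ^ k` has norm `n` then `N P` is a power of the prime `p` under `P`, so `n` is a power of `p`
and `Λ n = log p`; `I ↦ P = radical I` is injective on such `I` and `P ∣ (p)`; `sum_lamI` for `I = (p)`,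
`N (p) = p ^ finrank` (`Ideal.absNorm_span_natCast` or `absNorm_span_singleton`, `RingOfIntegers.rank`). -/
theorem lamK_le (n : ℕ) : lamK K n ≤ Module.finrank ℚ K * Λ n := by
  have hfin : {I : Ideal (𝓞 K) | Ideal.absNorm I = n}.Finite := Ideal.finite_setOfPred_absNorm_eq n
  have e0 : lamK K n = ∑ I ∈ hfin.toFinset.filter IsPrimePow, lamI K I := by
    unfold lamK
    rw [finsum_mem_eq_finite_toFinset_sum _ hfin, Finset.sum_filter]
    refine Finset.sum_congr rfl fun I _ => ?_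
    split_ifs with h
    · rfl
    · simp [lamI, h]
  rw [e0]
  rcases (hfin.toFinset.filter IsPrimePow).eq_empty_or_nonempty with h0 | ⟨I0, hI0⟩
  · rw [h0, Finset.sum_empty]
    exact mul_nonneg (Nat.cast_nonneg _) ArithmeticFunction.vonMangoldt_nonneg
  simp only [Finset.mem_filter, Set.Finite.mem_toFinset, Set.mem_ofPred_eq] at hI0
  obtain ⟨k0, p, f0, -, hk0, e1, hp, hf0, -, hn0⟩ := arc_struct K hI0.2
  have hn : n = p ^ (f0 * k0) := by
    rw [← hI0.1, e1, map_pow, hn0, pow_mul]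
  have hΛ : Λ n = Real.log p := by
    rw [hn, ArithmeticFunction.vonMangoldt_apply_pow (Nat.mul_pos hf0 hk0).ne',
      ArithmeticFunction.vonMangoldt_apply_prime hp]
  have hp0 : Ideal.span {(p : 𝓞 K)} ≠ ⊥ := by
    rw [Ne, Ideal.span_singleton_eq_bot]
    exact_mod_cast hp.ne_zero
  obtain ⟨hfd, hsum⟩ := sum_lamI K hp0
  rw [finsum_mem_eq_finite_toFinset_sum _ hfd, Ideal.absNorm_span_natCast, RingOfIntegers.rank,
    Nat.cast_pow, Real.log_pow] at hsum
  rw [hΛ, ← hsum]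
  have hinj : Set.InjOn (fun I : Ideal (𝓞 K) => I.radical) (hfin.toFinset.filter IsPrimePow) := by
    intro I hI J hJ hIJ
    simp only [Finset.coe_filter, Set.Finite.mem_toFinset, Set.mem_ofPred_eq] at hI hJ hIJ
    obtain ⟨k, q, f, -, hk, e2, hq, hf, -, hn2⟩ := arc_struct K hI.2
    obtain ⟨k', -, -, -, -, e3, -⟩ := arc_struct K hJ.2
    have h1 : Ideal.absNorm I.radical ^ k = Ideal.absNorm I.radical ^ k' := by
      rw [← map_pow, ← map_pow, ← e2, hIJ, ← e3, hI.1, hJ.1]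
    have h2 : 2 ≤ Ideal.absNorm I.radical := by
      rw [hn2]
      exact (hq.two_le).trans (Nat.le_self_pow hf.ne' q)
    have h3 : k = k' := Nat.pow_right_injective h2 h1
    rw [e2, e3, ← hIJ, h3]
  have e4 : ∑ I ∈ hfin.toFinset.filter IsPrimePow, lamI K I =
      ∑ J ∈ (hfin.toFinset.filter IsPrimePow).image (fun I : Ideal (𝓞 K) => I.radical), lamI K J := by
    rw [Finset.sum_image hinj]
    refine Finset.sum_congr rfl fun I hI => ?_
    simp only [Finset.mem_filter, Set.Finite.mem_toFinset, Set.mem_ofPred_eq] at hI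
    obtain ⟨k, -, -, hP, -⟩ := arc_struct K hI.2
    simp [lamI, hI.2, hP.isPrimePow]
  rw [e4]
  refine Finset.sum_le_sum_of_subset_of_nonneg ?_ fun J _ _ => lamI_nonneg K J
  intro J hJ
  obtain ⟨I, hI, rfl⟩ := Finset.mem_image.1 hJ
  simp only [Finset.mem_filter, Set.Finite.mem_toFinset, Set.mem_ofPred_eq] at hI ⊢
  obtain ⟨k, q, f, -, hk, e2, hq, hf, hm, hn2⟩ := arc_struct K hI.2
  have h1 : q ^ (f * k) = p ^ (f0 * k0) := by
    rw [← hn, ← hI.1, e2, map_pow, hn2, pow_mul]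
  have h2 : q = p := by
    have : q ∣ p ^ (f0 * k0) := h1 ▸ dvd_pow_self q (Nat.mul_pos hf hk).ne'
    exact (Nat.prime_dvd_prime_iff_eq hq hp).1 (hq.dvd_of_dvd_pow this)
  rw [Ideal.dvd_span_singleton, ← h2]
  exact hm

/-- the ideals of norm `n` -/
noncomputable def ard_S (n : ℕ) : Finset (Ideal (𝓞 K)) := (Ideal.finite_setOfPred_absNorm_eq n).toFinset

theorem ard_mem {n : ℕ} {I : Ideal (𝓞 K)} : I ∈ ard_S K n ↔ Ideal.absNorm I = n := by
  simp [ard_S]

theorem ard_aK (n : ℕ) : aK K n = (ard_S K n).card :=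
  Nat.subtype_card _ fun _ => ard_mem K

theorem ard_lamK (n : ℕ) : lamK K n = ∑ I ∈ ard_S K n, lamI K I :=
  finsum_mem_eq_finite_toFinset_sum _ _

/-- Arith-d.  pairs `(J, J')` with `N J * N J' = n` correspond to `I = J J'` of norm `n` with a divisor `J`;
`sum_lamI` -/
theorem lamK_conv {n : ℕ} (hn : 1 ≤ n) : (aK K n : ℝ) * Real.log n =
    ∑ d ∈ n.divisorsAntidiagonal, lamK K d.1 * (aK K d.2 : ℝ) := by
  have hn0 : n ≠ 0 := by omega
  set T : Finset (Ideal (𝓞 K)) := (Ideal.finite_setOfPred_absNorm_le n).toFinset with hT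
  have h0 : ∀ {I : Ideal (𝓞 K)}, Ideal.absNorm I = n → I ≠ ⊥ := fun hI h =>
    hn0 (hI.symm.trans (Ideal.absNorm_eq_zero_iff.2 h))
  have hD : ∀ {I J : Ideal (𝓞 K)}, Ideal.absNorm I = n → (J ∈ T.filter (· ∣ I) ↔ J ∣ I) := fun hI => by
    rw [mem_filter, hT, Set.Finite.mem_toFinset]
    exact ⟨fun h => h.2, fun h => ⟨Nat.le_of_dvd hn (hI ▸ map_dvd Ideal.absNorm h), h⟩⟩
  have e1 : (aK K n : ℝ) * Real.log n = ∑ I ∈ ard_S K n, ∑ J ∈ T.filter (· ∣ I), lamI K J := by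
    rw [ard_aK, ← nsmul_eq_mul, ← sum_const]
    refine sum_congr rfl fun I hI => ?_
    rw [ard_mem] at hI
    rw [← hI, ← (sum_lamI K (h0 hI)).2, ← finsum_mem_coe_finset]
    exact finsum_mem_congr (Set.ext fun J => (hD hI).symm) fun _ _ => rfl
  have e2 : ∀ d : ℕ × ℕ, lamK K d.1 * (aK K d.2 : ℝ) = ∑ x ∈ ard_S K d.1 ×ˢ ard_S K d.2, lamI K x.1 := by
    intro d
    rw [sum_product, ard_lamK, ard_aK, sum_mul]
    refine sum_congr rfl fun J _ => ?_
    simp only [sum_const, nsmul_eq_mul, mul_comm]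
  rw [e1, sum_congr rfl fun d _ => e2 d, sum_sigma', sum_sigma']
  symm
  refine sum_bij (fun x _ => ⟨x.2.1 * x.2.2, x.2.1⟩) ?_ ?_ ?_ fun _ _ => rfl
  · rintro ⟨⟨a, b⟩, J, J'⟩ hx
    simp only [mem_sigma, Nat.mem_divisorsAntidiagonal, mem_product, ard_mem] at hx
    have h : Ideal.absNorm (J * J') = n := by rw [map_mul, hx.2.1, hx.2.2, hx.1.1]
    exact mem_sigma.2 ⟨(ard_mem K).2 h, (hD h).2 (dvd_mul_right _ _)⟩
  · rintro ⟨⟨a, b⟩, J, J'⟩ hx ⟨⟨a', b'⟩, L, L'⟩ hy h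
    simp only [mem_sigma, Nat.mem_divisorsAntidiagonal, mem_product, ard_mem] at hx hy
    simp only [Sigma.mk.injEq, heq_eq_eq] at h
    obtain ⟨h1, rfl⟩ := h
    have hJ : J ≠ 0 := fun h => by
      have h2 := hx.1.1
      rw [← hx.2.1, Ideal.absNorm_eq_zero_iff.2 h, zero_mul] at h2
      exact hn0 h2.symm
    obtain rfl := mul_left_cancel₀ hJ h1
    obtain rfl : a = a' := hx.2.1.symm.trans hy.2.1
    obtain rfl : b = b' := hx.2.2.symm.trans hy.2.2
    rfl
  · rintro ⟨I, J⟩ hy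
    rw [mem_sigma, ard_mem] at hy
    obtain ⟨J', rfl⟩ : J ∣ I := (hD hy.1).1 hy.2
    refine ⟨⟨(Ideal.absNorm J, Ideal.absNorm J'), J, J'⟩, ?_, rfl⟩
    simp only [mem_sigma, Nat.mem_divisorsAntidiagonal, mem_product, ard_mem, and_self, and_true]
    exact ⟨(map_mul _ _ _).symm.trans hy.1, hn0⟩

/-- Arith-d.  `lamK_conv` at a prime, `lamK K 1 = 0` by `lamK_le` -/
theorem lamK_prime {p : ℕ} (hp : p.Prime) : lamK K p = (aK K p : ℝ) * Real.log p := by
  have h1 : lamK K 1 = 0 := le_antisymm (by simpa using lamK_le K 1) (lamK_nonneg K 1)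
  rw [lamK_conv K hp.one_le, Nat.sum_divisorsAntidiagonal (fun a b => lamK K a * (aK K b : ℝ)),
    hp.sum_divisors, Nat.div_self hp.pos, aK_one, h1]
  simp

/-- Arith-d.  `φ ↦ ker φ`; a ring of prime order `p` is `ZMod p` (`ZMod.ringEquiv`, `ZMod.ringEquivOfPrime`),
ring homs out of `ZMod p` are unique (`RingHom.ext_zmod`) -/
theorem aK_prime {p : ℕ} (hp : p.Prime) : aK K p = Nat.card (𝓞 K →+* ZMod p) := by
  have hk : ∀ φ : 𝓞 K →+* ZMod p, Ideal.absNorm (RingHom.ker φ) = p := fun φ => by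
    rw [Ideal.absNorm_apply, Submodule.cardQuot_apply,
      Nat.card_congr (RingHom.quotientKerEquivOfSurjective (ZMod.ringHom_surjective φ)).toEquiv, Nat.card_zmod]
  symm
  refine Nat.card_eq_of_bijective (fun φ => ⟨RingHom.ker φ, hk φ⟩) ⟨fun φ ψ h => ?_, fun I => ?_⟩
  · exact ZMod.ringHom_eq_of_ker_eq φ ψ (Subtype.mk.inj h)
  · have hI := I.2
    rw [Ideal.absNorm_apply, Submodule.cardQuot_apply] at hI
    have : Finite (𝓞 K ⧸ I.1) := Nat.finite_of_card_ne_zero (hI.trans_ne hp.ne_zero)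
    have := Fintype.ofFinite (𝓞 K ⧸ I.1)
    rw [Nat.card_eq_fintype_card] at hI
    refine ⟨(ZMod.ringEquivOfPrime (𝓞 K ⧸ I.1) hp hI).symm.toRingHom.comp (Ideal.Quotient.mk I.1),
      Subtype.ext (Ideal.ext fun x => ?_)⟩
    simp [RingHom.mem_ker, Ideal.Quotient.eq_zero_iff_mem]

end Crest.Agent.R27.Ku
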