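import Crest.Agent.R27.Ku.Core

/-! Row 27, block Ku (owner helper94): the averaged theta series. -/

set_option autoImplicit false

namespace Crest.Agent.R27.Ku

open NumberField MeasureTheory Finset
open scoped Classical Real

variable {ι κ : Type} [Fintype ι] [DecidableEq ι] [Fintype κ]

theorem avg_cont (D : Dat ι κ) (S : Finset ι) {ψ : (ι → ℤ) → ℂ} (hψ : ∀ m, ‖ψ m‖ ≤ 1) {t : ℝ}
    (ht : 0 < t) : Continuous (th D S ψ t) := by
  rw [← continuousOn_univ]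
  exact (th_cont D S hψ).comp (f := fun c => (t, c)) (by fun_prop) fun c _ => ⟨ht, trivial⟩

theorem avg_vol : volume.real (Set.Icc (0 : κ → ℝ) 1) = 1 := by
  simp [Measure.real, Real.volume_Icc_pi]

theorem avg_bound {f : (κ → ℝ) → ℂ} (hf : Continuous f) {g : ℂ} {B : ℝ}
    (h : ∀ c ∈ Set.Icc (0 : κ → ℝ) 1, ‖f c - g‖ ≤ B) :
    ‖(∫ c in Set.Icc (0 : κ → ℝ) 1, f c) - g‖ ≤ B := by
  have h1 := norm_setIntegral_le_of_norm_le_const (μ := volume) isCompact_Icc.measure_lt_top h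
  rwa [integral_sub hf.continuousOn.integrableOn_Icc continuousOn_const.integrableOn_Icc,
    setIntegral_const, avg_vol, one_smul, mul_one] at h1

theorem avg_one {f : (κ → ℝ) → ℂ} (hf : Continuous f) {g : (κ → ℝ) → ℝ}
    (h : ∀ c, f c = 1 + (g c : ℂ)) : Continuous g ∧
      ∫ c in Set.Icc (0 : κ → ℝ) 1, f c = 1 + ((∫ c in Set.Icc (0 : κ → ℝ) 1, g c : ℝ) : ℂ) := by
  have hg : Continuous g := by
    have : g = fun c => (f c - 1).re := funext fun c => by simp [h c]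
    rw [this]
    fun_prop
  refine ⟨hg, ?_⟩
  have h1 : Continuous fun c => (g c : ℂ) := by fun_prop
  simp only [h]
  rw [integral_add continuousOn_const.integrableOn_Icc h1.continuousOn.integrableOn_Icc,
    setIntegral_const, avg_vol, one_smul, integral_complex_ofReal]

theorem avg_gs {A : Matrix ι ι ℝ} (hA : A.det ≠ 0) {l : ℝ} (hl : 0 < l) {y : ι → ℝ} {δ : ℝ}
    (hδ : 0 < δ) (hy : ∀ i, δ ≤ y i) {ρ r : ℝ}
    (hρ : ∀ m : ι → ℤ, m ≠ 0 → ρ ≤ ∑ i, (y i * lat A m i) ^ 2) (hr : 1 ≤ r) :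
    gs A l (fun i => r * y i) ≤
      gs A l (fun _ => δ) * Real.exp (l * ρ) * Real.exp (-(l * ρ * r ^ 2)) := by
  refine (gs_scale hA hl (fun i => hδ.trans_le (hy i)) hρ hr).trans ?_
  rw [mul_assoc (gs A l _), ← Real.exp_add, show l * ρ + -(l * ρ * r ^ 2) = -(l * ρ * (r ^ 2 - 1)) by ring]
  exact mul_le_mul_of_nonneg_right (gs_anti hA hl (fun _ => hδ) hy) (Real.exp_pos _).le

omit [DecidableEq ι] in
theorem avg_yv (l : κ → ι → ℝ) {t : ℝ} (ht : 0 < t) (c : κ → ℝ) :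
    yv l t c = fun i => t ^ (1 / (Fintype.card ι : ℝ)) * yv l 1 c i := by
  funext i
  rw [← yv_mul l ht.le zero_le_one, mul_one]

omit [DecidableEq ι] in
theorem avg_yv_inv (l : κ → ι → ℝ) {t : ℝ} (ht : 0 < t) (c : κ → ℝ) :
    (fun i => (yv l t c i)⁻¹) = fun i => t ^ (-(1 / (Fintype.card ι : ℝ))) * (yv l 1 c i)⁻¹ := by
  funext i
  rw [avg_yv l ht c, mul_inv, Real.rpow_neg ht.le]

theorem avg_sq {t : ℝ} (ht : 0 < t) (x : ℝ) : (t ^ (1 / x)) ^ 2 = t ^ (2 / x) := by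
  rw [← Real.rpow_natCast, ← Real.rpow_mul ht.le]
  congr 1
  push_cast
  ring

theorem avg_sq' {t : ℝ} (ht : 0 < t) (x : ℝ) : (t ^ (-(1 / x))) ^ 2 = t ^ (-(2 / x)) := by
  rw [Real.rpow_neg ht.le, Real.rpow_neg ht.le, inv_pow, avg_sq ht]

/-- Avg.  `th_sub_le`, `yv_mul`, `gs_scale` with `r = t ^ (1 / n)`, `gs_anti` with `yv_cube`; the cube has
volume `1` (`norm_setIntegral_le_of_norm_le_const`) -/
theorem thA_top (D : Dat ι κ) (S : Finset ι) {ψ : (ι → ℤ) → ℂ} (hψ : ∀ m, ‖ψ m‖ ≤ 1) :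
    ∃ C a δ : ℝ, 0 < a ∧ 0 < δ ∧ ∀ t : ℝ, 1 ≤ t →
      ‖thA D S ψ t - ψ 0 * ((fS S 0 : ℝ) : ℂ)‖ ≤ C * Real.exp (-(a * t ^ δ)) := by
  obtain ⟨δ, hδ, h⟩ := yv_cube D.l
  have hn : (0 : ℝ) < Fintype.card ι := by exact_mod_cast D.hι
  have hρ := D.hρ
  refine ⟨gs D.A (π / 2) (fun _ => δ) * Real.exp (π / 2 * D.ρ), π / 2 * D.ρ, 2 / Fintype.card ι,
    by positivity, by positivity, fun t ht => ?_⟩
  have ht0 : 0 < t := by linarith
  refine avg_bound (avg_cont D S hψ ht0) fun c hc => (th_sub_le D S hψ ht0 c).trans ?_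
  rw [avg_yv D.l ht0, ← avg_sq ht0]
  exact avg_gs D.detA (by positivity) hδ (fun i => (h c hc i).1) (D.hA c)
    (Real.one_le_rpow ht (by positivity))

/-- Avg.  The same with `th_pois` and `r = t ^ (-1 / n)` -/
theorem thA_bot (D : Dat ι κ) (S : Finset ι) {ψ : (ι → ℤ) → ℂ} (hψ : ∀ m, ‖ψ m‖ ≤ 1) {M : ℕ}
    (hM : 1 ≤ M) (hper : ∀ m k : ι → ℤ, ψ (m + (M : ℤ) • k) = ψ m) :
    ∃ (g₀ : ℂ) (C a δ : ℝ), 0 < a ∧ 0 < δ ∧ ∀ t : ℝ, 0 < t → t ≤ 1 →
      ‖(t : ℂ) * thA D S ψ t - g₀‖ ≤ C * Real.exp (-(a * t ^ (-δ))) := by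
  obtain ⟨δ, hδ, h⟩ := yv_cube D.l
  obtain ⟨g₀, hg⟩ := th_pois D S hψ hM hper
  have hn : (0 : ℝ) < Fintype.card ι := by exact_mod_cast D.hι
  have hM0 : (0 : ℝ) < M := by exact_mod_cast hM
  have hρ := D.hρ'
  refine ⟨g₀, gs D.B (π / 2 / (M : ℝ) ^ 2) (fun _ => δ) * Real.exp (π / 2 / (M : ℝ) ^ 2 * D.ρ'),
    π / 2 / (M : ℝ) ^ 2 * D.ρ', 2 / Fintype.card ι, by positivity, by positivity, fun t ht0 ht => ?_⟩
  rw [thA, ← integral_const_mul]
  refine avg_bound (continuous_const.mul (avg_cont D S hψ ht0)) fun c hc => (hg t ht0 c).trans ?_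
  rw [avg_yv_inv D.l ht0, ← avg_sq' ht0]
  exact avg_gs D.detB (by positivity) hδ (fun i => (h c hc i).2) (D.hB c)
    (Real.one_le_rpow_of_pos_of_le_one_of_nonpos ht0 ht (neg_nonpos.2 (by positivity)))

/-- Avg.  `F t`, `E t` are the integrals over the cube of the two `gs` in `th_one` (continuous in `c`, being
real parts of `th - 1` and `t th - 1`); `gs_anti`, `gs_scale` -/
theorem thA_one (D : Dat ι κ) : ∃ F E : ℝ → ℝ,
    (∀ t : ℝ, 0 < t → thA D ∅ (fun _ => 1) t = 1 + (F t : ℂ) ∧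
      (t : ℂ) * thA D ∅ (fun _ => 1) t = 1 + (E t : ℂ) ∧ 0 ≤ F t ∧ 0 ≤ E t) ∧
    AntitoneOn F (Set.Ioi 0) ∧ ∀ t : ℝ, 0 < t → t ≤ 1 →
      E t ≤ E 1 * Real.exp (-(π * D.ρ' * (t ^ (-(2 / (Fintype.card ι : ℝ))) - 1))) := by
  have hψ : ∀ m : ι → ℤ, ‖(fun _ => 1 : (ι → ℤ) → ℂ) m‖ ≤ 1 := fun m => by simp
  have hn : (0 : ℝ) < Fintype.card ι := by exact_mod_cast D.hι
  have hF := fun (t : ℝ) (ht : 0 < t) => avg_one (avg_cont D ∅ hψ ht) fun c => (th_one D ht c).1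
  have hE := fun (t : ℝ) (ht : 0 < t) =>
    avg_one (continuous_const.mul (avg_cont D ∅ hψ ht)) fun c => (th_one D ht c).2
  refine ⟨fun t => ∫ c in Set.Icc (0 : κ → ℝ) 1, gs D.A π (yv D.l t c),
    fun t => ∫ c in Set.Icc (0 : κ → ℝ) 1, gs D.B π fun i => (yv D.l t c i)⁻¹,
    fun t ht => ⟨(hF t ht).2, ?_, integral_nonneg fun c => gs_nonneg _ _ _,
      integral_nonneg fun c => gs_nonneg _ _ _⟩, fun s hs t ht hst => ?_, fun t ht0 ht => ?_⟩
  · rw [thA, ← integral_const_mul]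
    exact (hE t ht).2
  · refine integral_mono (hF t ht).1.continuousOn.integrableOn_Icc
      (hF s hs).1.continuousOn.integrableOn_Icc fun c => ?_
    refine gs_anti D.detA Real.pi_pos (yv_pos D.l hs c) fun i => ?_
    exact mul_le_mul_of_nonneg_right (Real.rpow_le_rpow (le_of_lt hs) hst (by positivity))
      (Real.exp_pos _).le
  · rw [← integral_mul_const]
    refine integral_mono (hE t ht0).1.continuousOn.integrableOn_Icc
      ((hE 1 one_pos).1.mul continuous_const).continuousOn.integrableOn_Icc fun c => ?_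
    show gs D.B π (fun i => (yv D.l t c i)⁻¹) ≤ _
    rw [avg_yv_inv D.l ht0, ← avg_sq' ht0]
    exact gs_scale D.detB Real.pi_pos (fun i => inv_pos.2 (yv_pos D.l one_pos c i)) (D.hB c)
      (Real.one_le_rpow_of_pos_of_le_one_of_nonpos ht0 ht (neg_nonpos.2 (by positivity)))

end Crest.Agent.R27.Ku
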