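import Crest.Agent.R27.Ku.Defs
import Crest.Agent.R26.Z.Perron
import Crest.Agent.R17.B.Log

/-! Row 27, block Ku (owner helper94): Borel–Carathéodory and Perron. -/

set_option autoImplicit false

namespace Crest.Agent.R27.Ku

open NumberField MeasureTheory Finset
open scoped Classical Real nonZeroDivisors ArithmeticFunction.vonMangoldt

open Crest.Agent.R17 in
/-- BC.  On the disc with centre `c = 2 + i t` and radius `2 - θ₀` take `g` with `exp g = Z` (`R17.exists_log_ext` with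
`V = ∅` or `{c}`), `re (g - g c) ≤ B (|t| + 4) + B`; `Complex.borelCaratheodory_zero` on the disc of radius
`2 - (θ₀ + θ₁) / 2`, then `Complex.norm_deriv_le_of_forall_mem_sphere_norm_le` with radius `(θ₁ - θ₀) / 4`. -/
theorem bc_ld {θ₀ θ₁ : ℝ} (h0 : 0 ≤ θ₀) (h01 : θ₀ < θ₁) (h1 : θ₁ < 2) : ∃ C : ℝ, 0 < C ∧
    ∀ (Z : ℂ → ℂ) (B : ℝ), 0 < B → DifferentiableOn ℂ Z {s | θ₀ < s.re} → (∀ s : ℂ, θ₀ < s.re → Z s ≠ 0) →
      (∀ s : ℂ, θ₀ < s.re → s.re ≤ 4 → ‖Z s‖ ≤ Real.exp (B * (|s.im| + 2))) →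
      (∀ s : ℂ, s.re = 2 → Real.exp (-B) ≤ ‖Z s‖) →
      ∀ s ∈ strip θ₁ 2, ‖deriv Z s / Z s‖ ≤ C * B * (|s.im| + 2) := by
  obtain ⟨e, he⟩ : ∃ e : ℝ, e = θ₁ - θ₀ := ⟨_, rfl⟩
  have he0 : 0 < e := by linarith
  refine ⟨48 / e ^ 2, by positivity, fun Z B hB hZ hZ0 hup hlo s hs => ?_⟩
  have hU : IsOpen {s : ℂ | θ₀ < s.re} := isOpen_lt continuous_const Complex.continuous_re
  obtain ⟨G, hG, hGe, -⟩ := exists_log_ext hU (convex_halfSpace_re_gt θ₀) (V := ∅) (g := Z)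
    (Set.empty_subset _) isPreconnected_empty hZ hZ0 (continuousOn_empty _) fun s hs => hs.elim
  obtain ⟨c, hc1, hc2⟩ : ∃ c : ℂ, c.re = 2 ∧ c.im = s.im := ⟨⟨2, s.im⟩, rfl, rfl⟩
  have hsU : θ₀ < s.re := h01.trans_le hs.1
  have ht := abs_nonneg s.im
  have hball : ∀ v ∈ Metric.ball (0 : ℂ) (2 - θ₀),
      θ₀ < (c + v).re ∧ (c + v).re ≤ 4 ∧ |(c + v).im| ≤ |s.im| + 2 := fun v hv => by
    have a0 := mem_ball_zero_iff.1 hv
    have a1 := abs_le.1 (Complex.abs_re_le_norm v)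
    have a2 := Complex.abs_im_le_norm v
    have a3 := abs_add_le s.im v.im
    rw [Complex.add_re, Complex.add_im, hc1, hc2]
    exact ⟨by linarith [a1.1], by linarith [a1.2], by linarith⟩
  have hcre : -B ≤ (G c).re := by
    have := hlo c hc1
    rwa [← hGe c (show θ₀ < c.re by linarith), Complex.norm_exp, Real.exp_le_exp] at this
  have hsc : ‖s - c‖ ≤ 2 - θ₁ := by
    have : s - c = ((s.re - 2 : ℝ) : ℂ) := by
      apply Complex.ext <;> simp [hc1, hc2]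
    rw [this, Complex.norm_real, Real.norm_eq_abs, abs_le]
    constructor <;> linarith [hs.1, hs.2]
  have hnear : ∀ w : ℂ, ‖w - s‖ ≤ e / 2 → ‖w - c‖ ≤ 2 - θ₀ - e / 2 := fun w hw => by
    have := norm_add_le (w - s) (s - c)
    rw [sub_add_sub_cancel] at this
    linarith
  have hsph : ∀ w ∈ Metric.sphere s (e / 2), ‖G w - G c‖ ≤ 8 * (B * (|s.im| + 5)) / e := by
    intro w hw
    have a1 := hnear w (mem_sphere_iff_norm.1 hw).le
    have a2 := Complex.borelCaratheodory_zero (f := fun v => G (c + v) - G c)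
      (M := B * (|s.im| + 5)) (R := 2 - θ₀) (z := w - c) (by positivity)
      ((hG.comp (by fun_prop) fun v hv => (hball v hv).1).sub_const _)
      (fun v hv => by
        obtain ⟨b1, b2, b3⟩ := hball v hv
        have b4 := hup _ b1 b2
        rw [← hGe _ b1, Complex.norm_exp, Real.exp_le_exp] at b4
        have b5 := mul_le_mul_of_nonneg_left b3 hB.le
        show (G (c + v) - G c).re ≤ _
        rw [Complex.sub_re]
        linarith)
      (by linarith) (mem_ball_zero_iff.2 (by linarith)) (by simp)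
    simp only [add_sub_cancel] at a2
    refine a2.trans ?_
    rw [div_le_div_iff₀ (by linarith) he0]
    have a3 : ‖w - c‖ * e ≤ 4 * (2 - θ₀ - ‖w - c‖) := by nlinarith [norm_nonneg (w - c)]
    have a4 := mul_le_mul_of_nonneg_left a3 (by positivity : 0 ≤ 2 * (B * (|s.im| + 5)))
    linarith
  have hdc : DiffContOnCl ℂ (fun w => G w - G c) (Metric.ball s (e / 2)) := by
    refine DifferentiableOn.diffContOnCl ((hG.sub_const _).mono ?_)
    rw [closure_ball _ (by positivity)]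
    intro w hw
    have a1 := hnear w (mem_closedBall_iff_norm.1 hw)
    have := (hball (w - c) (mem_ball_zero_iff.2 (by linarith))).1
    rwa [add_sub_cancel] at this
  have key := Complex.norm_deriv_le_of_forall_mem_sphere_norm_le (by positivity) hdc hsph
  rw [deriv_sub_const] at key
  have hd : HasDerivAt Z (Complex.exp (G s) * deriv G s) s :=
    ((hG.differentiableAt (hU.mem_nhds hsU)).hasDerivAt.cexp).congr_of_eventuallyEq
      (Filter.eventually_of_mem (hU.mem_nhds hsU) fun w hw => (hGe w hw).symm)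
  rw [hd.deriv, hGe s hsU, mul_div_cancel_left₀ _ (hZ0 s hsU)]
  refine key.trans ?_
  have e1 : 8 * (B * (|s.im| + 5)) / e / (e / 2) = 16 / e ^ 2 * B * (|s.im| + 5) := by
    field_simp
    ring
  have e2 : 48 / e ^ 2 * B * (|s.im| + 2) = 16 / e ^ 2 * B * (3 * (|s.im| + 2)) := by ring
  rw [e1, e2]
  exact mul_le_mul_of_nonneg_left (by linarith) (by positivity)

/-- the weight `(1 - n / Y) log (Y / n)` -/
noncomputable def wt (Y n : ℕ) : ℝ := (1 - (n : ℝ) / Y) * Real.log ((Y : ℝ) / n)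

section Per
open Crest.Agent.R17 Crest.Agent.R26.Z Complex

/-- the kernel `x^s (1 / s² - 1 / (s+1)²)` -/
noncomputable def bcbK (x : ℝ) (s : ℂ) : ℂ := (x : ℂ) ^ s * (1 / s ^ 2 - 1 / (s + 1) ^ 2)

theorem bcb_eq {x : ℝ} (hx : 0 < x) : bcbK x = fun s => Kr x s - (x : ℂ)⁻¹ * Kr x (s + 1) := by
  funext s
  have h : (x : ℂ) ≠ 0 := ofReal_ne_zero.2 hx.ne'
  rw [bcbK, Kr, Kr, cpow_add _ _ h, cpow_one]
  field_simp

theorem bcb_vint {x : ℝ} (hx : 0 < x) : VInt 2 (fun s => (x : ℂ)⁻¹ * Kr x (s + 1)) := by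
  refine Integrable.const_mul (Integrable.congr (vint_Kr hx three_pos) (Filter.Eventually.of_forall fun y => ?_)) _
  simp only
  congr 1
  push_cast
  ring

theorem bcb_VI {x : ℝ} (hx : 0 < x) :
    VInt 2 (bcbK x) ∧ VI 2 (bcbK x) = (((1 - x⁻¹) * max (Real.log x) 0 : ℝ) : ℂ) := by
  rw [bcb_eq hx]
  refine ⟨(vint_Kr hx two_pos).sub (bcb_vint hx), ?_⟩
  rw [VI_sub (vint_Kr hx two_pos) (bcb_vint hx), VI_const_mul, VI_add_const, VI_Kr hx one_le_two,
    VI_Kr hx (by simp)]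
  push_cast
  ring

theorem bcb_diff {x : ℝ} (hx : 0 < x) : DifferentiableOn ℂ (bcbK x) {s | 0 < s.re} := by
  rw [bcb_eq hx]
  refine (diff_Kr hx).sub (((diff_Kr hx).comp (differentiableOn_id.add_const 1) fun s hs => ?_).const_mul _)
  have : 0 < s.re := hs
  show 0 < (s + 1).re
  rw [add_re, one_re]
  linarith

theorem bcb_norm {x : ℝ} (hx : 0 < x) {s : ℂ} (hs : 1 / 2 ≤ s.re) :
    ‖bcbK x s‖ * (|s.im| + 2) ≤ x ^ s.re * (24 * (1 + s.im ^ 2)⁻¹) := by
  have h1 : 3 / 2 ≤ ‖s + 1‖ := le_trans (by rw [add_re, one_re]; linarith) (re_le_norm (s + 1))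
  have h2 : |s.im| ≤ ‖s + 1‖ := le_trans (by rw [add_im, one_im, add_zero]) (abs_im_le_norm (s + 1))
  have h3 : ‖s‖ ^ 2 = s.re ^ 2 + s.im ^ 2 := by rw [Complex.sq_norm, normSq_apply, sq, sq]
  have h4 : ‖s‖ ≤ ‖s + 1‖ := by
    refine (pow_le_pow_iff_left₀ (norm_nonneg _) (norm_nonneg _) two_ne_zero).1 ?_
    rw [h3, Complex.sq_norm, normSq_apply, add_re, one_re, add_im, one_im, add_zero]
    nlinarith
  have h5 : 0 < ‖s‖ := lt_of_lt_of_le (by linarith) (re_le_norm s)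
  have h6 : ‖2 * s + 1‖ ≤ 2 * ‖s + 1‖ := by
    rw [show 2 * s + 1 = s + (s + 1) by ring]
    linarith [norm_add_le s (s + 1)]
  have hs0 : s ≠ 0 := norm_pos_iff.1 h5
  have hs1 : s + 1 ≠ 0 := norm_pos_iff.1 (by linarith)
  have e : 1 / s ^ 2 - 1 / (s + 1) ^ 2 = (2 * s + 1) / (s ^ 2 * (s + 1) ^ 2) := by
    field_simp
    ring
  rw [bcbK, e, norm_mul, norm_cpow_eq_rpow_re_of_pos hx, norm_div, norm_mul, norm_pow, norm_pow, mul_assoc]
  refine mul_le_mul_of_nonneg_left ?_ (by positivity)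
  calc _ ≤ 2 * ‖s + 1‖ / (‖s‖ ^ 2 * ‖s + 1‖ ^ 2) * (3 * ‖s + 1‖) := by
        gcongr
        linarith
    _ = 24 * (4 * ‖s‖ ^ 2)⁻¹ := by
        have : ‖s + 1‖ ≠ 0 := by linarith
        field_simp
        norm_num
    _ ≤ _ := by
        gcongr
        rw [h3]
        nlinarith [sq_nonneg s.im]

theorem bcb_pa {a : ℕ → ℂ} (ha : LSeriesSummable a 2) {Y : ℕ} (hY : 1 ≤ Y) :
    ∑ n ∈ Icc 1 Y, a n * ((wt Y n : ℝ) : ℂ) = VI 2 fun s => bcbK Y s * LSeries a s := by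
  have hx : (0 : ℝ) < Y := by exact_mod_cast hY
  have hA : Adm (fun n : ℕ => if n = 0 then 0 else a n) (fun n => (n : ℝ)) 2 := by
    refine ⟨fun n hn => ?_, ha.norm.congr fun n => ?_⟩
    · rcases Nat.eq_zero_or_pos n with rfl | h
      · simp at hn
      · exact Nat.cast_pos.2 h
    · rw [LSeries.norm_term_eq]
      split_ifs with h
      · simp [h]
      · rw [Real.rpow_neg (Nat.cast_nonneg n), div_eq_mul_inv]
        simp [h]
  have hD : ∀ s, DD (fun n : ℕ => if n = 0 then 0 else a n) (fun n => (n : ℝ)) s = LSeries a s :=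
    fun s => tsum_congr fun n => by
      rw [LSeries.term]
      split_ifs with h
      · simp [h]
      · rw [cpow_neg, div_eq_mul_inv, ofReal_natCast]
        simp [h]
  obtain ⟨-, h2⟩ := hA.VI_mul_DD (bcb_VI hx).1
  simp only [hD] at h2
  have e : ∀ n : ℕ, (0 : ℝ) < n → (fun s => bcbK Y s * ((n : ℝ) : ℂ) ^ (-s)) = bcbK (Y / n) := by
    intro n hp
    funext s
    rw [bcbK, bcbK, ofReal_div, div_cpow_ofReal_nonneg hx.le hp.le, cpow_neg]
    ring
  rw [← h2.tsum_eq, tsum_eq_sum (s := Icc 1 Y)]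
  · refine sum_congr rfl fun n hn => ?_
    obtain ⟨h1, h3⟩ := mem_Icc.1 hn
    have hp : (0 : ℝ) < n := by exact_mod_cast h1
    have h4 : (n : ℝ) ≤ Y := by exact_mod_cast h3
    rw [if_neg (by omega), e n hp, (bcb_VI (div_pos hx hp)).2, wt, inv_div,
      max_eq_left (Real.log_nonneg ((one_le_div hp).2 h4))]
  · intro n hn
    split_ifs with h
    · simp
    · have h1 : Y < n := by
        rw [mem_Icc] at hn
        omega
      have hp : (0 : ℝ) < n := by exact_mod_cast (by omega : 0 < n)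
      have h3 : (Y : ℝ) ≤ n := by exact_mod_cast h1.le
      rw [e n hp, (bcb_VI (div_pos hx hp)).2,
        max_eq_right (Real.log_nonpos (by positivity) ((div_le_one hp).2 h3))]
      simp

end Per

open Crest.Agent.R17 in
/-- Per.  Copy `R26.Z.pa_eq` / `riesz_le` with the kernel `x^s (1 / s² - 1 / (s+1)²) = x^s (2s+1) / (s² (s+1)²)`:
`VI 2` of `x^s / (s+1)²` is `x⁻¹ VI 3 (Kr x) = x⁻¹ max (log x) 0`; the kernel is `O(x^σ (1+|t|)^(-3))`. -/
theorem perron3 {θ : ℝ} (hθ : 1 / 2 ≤ θ) (hθ' : θ ≤ 2) : ∃ C : ℝ, 0 < C ∧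
    ∀ (a : ℕ → ℂ) (H : ℂ → ℂ) (B : ℝ), LSeriesSummable a 2 → DifferentiableOn ℂ H (strip θ 2) →
      (∀ s ∈ strip θ 2, ‖H s‖ ≤ B * (|s.im| + 2)) → (∀ s : ℂ, s.re = 2 → H s = LSeries a s) →
      ∀ Y : ℕ, 1 ≤ Y → ‖∑ n ∈ Icc 1 Y, a n * ((wt Y n : ℝ) : ℂ)‖ ≤ C * B * (Y : ℝ) ^ θ := by
  refine ⟨12, by norm_num, fun a H B ha hH hb hL Y hY => ?_⟩
  have hx : (1 : ℝ) ≤ Y := by exact_mod_cast hY
  have hx0 : (0 : ℝ) < Y := by linarith
  have hB0 : 0 ≤ B := by
    have h := (norm_nonneg _).trans (hb 2 ⟨by simpa using hθ', by simp⟩)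
    exact nonneg_of_mul_nonneg_left h (by positivity)
  have key : ∀ s ∈ strip θ 2, ‖bcbK Y s * H s‖ ≤ (Y : ℝ) ^ s.re * B * (24 * (1 + s.im ^ 2)⁻¹) :=
    fun s hs => by
      rw [norm_mul]
      calc _ ≤ ‖bcbK Y s‖ * (B * (|s.im| + 2)) := mul_le_mul_of_nonneg_left (hb s hs) (norm_nonneg _)
        _ = B * (‖bcbK Y s‖ * (|s.im| + 2)) := by ring
        _ ≤ B * _ := mul_le_mul_of_nonneg_left (bcb_norm hx0 (hθ.trans hs.1)) hB0
        _ = _ := by ring
  obtain ⟨-, -, h3⟩ := VI_shift (σ₁ := θ) (σ₂ := 2) (T₀ := 0) (F := fun s => bcbK Y s * H s) hθ'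
    (((bcb_diff hx0).mono fun s hs => lt_of_lt_of_le (by norm_num) (hθ.trans hs.1)).mul hH)
    ((integrable_inv_one_add_sq.const_mul 24).const_mul ((Y : ℝ) ^ (2 : ℝ) * B))
    fun s hs _ => (key s hs).trans (by
      gcongr
      exact hs.2)
  rw [bcb_pa ha hY, VI_congr (G := fun s => bcbK Y s * H s) fun s hs => by rw [hL s hs], ← h3]
  refine (norm_VI_le ((integrable_inv_one_add_sq.const_mul 24).const_mul ((Y : ℝ) ^ θ * B)) fun y =>
    (key _ ⟨by simp, by simpa using hθ'⟩).trans (le_of_eq (by simp))).trans (le_of_eq ?_)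
  rw [integral_const_mul, integral_const_mul, integral_univ_inv_one_add_sq]
  field_simp
  ring

end Crest.Agent.R27.Ku
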