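import Crest.Agent.R27.Ku.Arith

/-! Row 27, block Ku (owner helper94): `L = exp P` on `re s > 1`. -/

set_option autoImplicit false

namespace Crest.Agent.R27.Ku

open NumberField MeasureTheory Finset
open scoped Classical Real nonZeroDivisors ArithmeticFunction.vonMangoldt

theorem expa_sum {L : ℕ → ℂ} {B : ℝ} (hL : ∀ n, ‖L n‖ ≤ B * Λ n) {s : ℂ} (hs : 1 < s.re) :
    LSeriesSummable L s := by
  refine Summable.of_norm_bounded ((ArithmeticFunction.LSeriesSummable_vonMangoldt hs).smul (B : ℂ)).norm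
    fun n => LSeries.norm_term_le s ((hL n).trans ?_)
  rw [Pi.smul_apply, smul_eq_mul, ← Complex.ofReal_mul, Complex.norm_real]
  exact le_abs_self _

/-- Exp.  `ArithmeticFunction.LSeriesSummable_vonMangoldt`, `Λ n ≤ log n`-type comparison (`Λ n / log n ≤ 2 Λ n`) -/
theorem summable_of_le_vM {L : ℕ → ℂ} {B : ℝ} (hL : ∀ n, ‖L n‖ ≤ B * Λ n) {s : ℂ} (hs : 1 < s.re) :
    LSeriesSummable L s ∧ LSeriesSummable (fun n => L n / ((Real.log n : ℝ) : ℂ)) s := by
  refine ⟨expa_sum hL hs, Summable.of_norm_bounded ((expa_sum hL hs).smul (2 : ℂ)).norm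
    fun n => LSeries.norm_term_le s ?_⟩
  rw [Pi.smul_apply, smul_eq_mul, norm_mul, Complex.norm_two]
  rcases Nat.lt_or_ge n 2 with h | h
  · interval_cases n <;> simp
  have h2 : (2 : ℝ) ≤ n := by exact_mod_cast h
  have hl : 1 / 2 < Real.log n := lt_of_lt_of_le (by linarith [Real.log_two_gt_d9]) (Real.log_le_log two_pos h2)
  rw [norm_div, Complex.norm_real, Real.norm_of_nonneg (by linarith), div_le_iff₀ (by linarith)]
  nlinarith [norm_nonneg (L n)]

theorem expa_abs {a : ℕ → ℂ} (ha : ∀ s : ℂ, 1 < s.re → LSeriesSummable a s) :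
    LSeries.abscissaOfAbsConv a ≤ 1 :=
  LSeries.abscissaOfAbsConv_le_of_forall_lt_LSeriesSummable (x := 1) fun y hy => ha y (by simpa using hy)

/-- Exp.  `LSeries_deriv`, `LSeries_convolution'` give `A' = - L A`, `P' = - L`; so `A exp (-P)` is constant on the
half plane and tends to `1` at `+∞` (`LSeries.tendsto_atTop`; compare
`DirichletCharacter.LSeries_eq_exp_LSeries`-type proofs or `IsOpen.is_const_of_deriv_eq_zero`) -/
theorem LS_exp {a L : ℕ → ℂ} {B : ℝ} (ha1 : a 1 = 1) (ha : ∀ s : ℂ, 1 < s.re → LSeriesSummable a s)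
    (hL : ∀ n, ‖L n‖ ≤ B * Λ n)
    (hconv : ∀ n : ℕ, 1 ≤ n → a n * ((Real.log n : ℝ) : ℂ) = ∑ d ∈ n.divisorsAntidiagonal, L d.1 * a d.2)
    {s : ℂ} (hs : 1 < s.re) :
    LSeries a s = Complex.exp (LSeries (fun n => L n / ((Real.log n : ℝ) : ℂ)) s) ∧
      deriv (LSeries a) s = -LSeries L s * LSeries a s := by
  set p : ℕ → ℂ := fun n => L n / ((Real.log n : ℝ) : ℂ) with hp
  have hAa := expa_abs ha
  have hAp : LSeries.abscissaOfAbsConv p ≤ 1 := expa_abs fun s hs => (summable_of_le_vM hL hs).2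
  have hlt : ∀ {z : ℂ}, 1 < z.re → (1 : EReal) < z.re := fun hz => by exact_mod_cast hz
  have hA : ∀ {z : ℂ}, 1 < z.re → HasDerivAt (LSeries a) (-LSeries L z * LSeries a z) z := fun {z} hz => by
    convert LSeries_hasDerivAt (hAa.trans_lt (hlt hz)) using 1
    rw [neg_mul, ← LSeries_convolution' (expa_sum hL hz) (ha z hz), neg_inj]
    refine LSeries_congr (fun {n} hn => ?_) z
    rw [LSeries.convolution_def, LSeries.logMul, ← Complex.natCast_log, mul_comm,
      hconv n (Nat.pos_of_ne_zero hn)]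
  have hP : ∀ {z : ℂ}, 1 < z.re → HasDerivAt (LSeries p) (-LSeries L z) z := fun {z} hz => by
    convert LSeries_hasDerivAt (hAp.trans_lt (hlt hz)) using 2
    refine LSeries_congr (fun {n} hn => ?_) z
    rw [LSeries.logMul, ← Complex.natCast_log, hp]
    rcases eq_or_ne n 1 with rfl | h1
    · simpa using hL 1
    · have : ((Real.log n : ℝ) : ℂ) ≠ 0 := Complex.ofReal_ne_zero.2
        (Real.log_pos (by exact_mod_cast (by omega : 1 < n))).ne'
      field_simp
  have hD : ∀ {z : ℂ}, 1 < z.re →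
      HasDerivAt (fun z => LSeries a z * Complex.exp (-LSeries p z)) 0 z := fun {z} hz => by
    exact ((hA hz).fun_mul (hP hz).fun_neg.cexp).congr_deriv (by ring)
  refine ⟨?_, (hA hs).deriv⟩
  obtain ⟨c, hc⟩ := (isOpen_lt continuous_const Complex.continuous_re).exists_is_const_of_deriv_eq_zero
    (convex_halfSpace_re_gt 1).isPreconnected
    (fun z hz => (hD hz).differentiableAt.differentiableWithinAt) fun z hz => (hD hz).deriv
  have h1 : Filter.Tendsto (fun x : ℝ => LSeries a x * Complex.exp (-LSeries p x)) Filter.atTop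
      (nhds (a 1 * Complex.exp (-p 1))) :=
    (LSeries.tendsto_atTop (hAa.trans_lt (EReal.coe_lt_top 1))).mul
      (LSeries.tendsto_atTop (hAp.trans_lt (EReal.coe_lt_top 1))).neg.cexp
  have h2 : Filter.Tendsto (fun x : ℝ => LSeries a x * Complex.exp (-LSeries p x)) Filter.atTop (nhds c) :=
    tendsto_const_nhds.congr' ((Filter.eventually_gt_atTop 1).mono fun x hx => (hc x (by simpa using hx)).symm)
  have h3 := (hc s hs).trans (tendsto_nhds_unique h2 h1)
  have hp1 : p 1 = 0 := by simp [hp]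
  rw [ha1, hp1, neg_zero, Complex.exp_zero, mul_one, Complex.exp_neg,
    mul_inv_eq_one₀ (Complex.exp_ne_zero _)] at h3
  exact h3

/-- Exp.  `Λ n / log n ≤ 1`, the terms `n = 0, 1` vanish, `∑_{n ≥ 2} n⁻² ≤ 1` -/
theorem norm_P_le {L : ℕ → ℂ} {B : ℝ} (hL : ∀ n, ‖L n‖ ≤ B * Λ n) {s : ℂ} (hs : 2 ≤ s.re) :
    ‖LSeries (fun n => L n / ((Real.log n : ℝ) : ℂ)) s‖ ≤ B := by
  have hB : 0 ≤ B := by
    have h := (norm_nonneg _).trans (hL 2)
    rw [ArithmeticFunction.vonMangoldt_apply_prime Nat.prime_two] at h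
    exact nonneg_of_mul_nonneg_left h (Real.log_pos (by norm_num))
  have hS := (hasSum_zeta_two.sub (hasSum_ite_eq 1 (1 : ℝ))).mul_left B
  refine (tsum_of_norm_bounded hS fun n => ?_).trans ?_
  · rw [LSeries.norm_term_eq]
    rcases Nat.lt_or_ge n 2 with h | h
    · interval_cases n <;> simp
    have h1 : (1 : ℝ) < n := by exact_mod_cast h
    have hl := Real.log_pos h1
    rw [if_neg (by omega), if_neg (by omega), sub_zero, norm_div, Complex.norm_real, Real.norm_eq_abs,
      abs_of_pos hl, mul_one_div]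
    refine div_le_div₀ hB ((div_le_iff₀ hl).2 ((hL n).trans ?_)) (by positivity) ?_
    · exact mul_le_mul_of_nonneg_left ArithmeticFunction.vonMangoldt_le_log hB
    · rw [← Real.rpow_two]
      exact Real.rpow_le_rpow_of_exponent_le h1.le hs
  · refine mul_le_of_le_one_right hB ?_
    nlinarith [Real.pi_lt_d2, Real.pi_pos]

variable (K : Type) [Field K] [NumberField K]

theorem expb_norm (n : ℕ) : ‖(lamK K n : ℂ)‖ ≤ Module.finrank ℚ K * Λ n := by
  rw [Complex.norm_real, Real.norm_of_nonneg (lamK_nonneg K n)]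
  exact lamK_le K n

theorem expb_conv {n : ℕ} (hn : 1 ≤ n) : (aK K n : ℂ) * ((Real.log n : ℝ) : ℂ) =
    ∑ d ∈ n.divisorsAntidiagonal, (lamK K d.1 : ℂ) * (aK K d.2 : ℂ) := by
  exact_mod_cast congrArg (fun x : ℝ => (x : ℂ)) (lamK_conv K hn)

/-- Exp.  `LS_exp` for `a n = aK n χ n`, `L n = lamK n χ n` -/
theorem twist_exp {M : ℕ} (χ : DirichletCharacter ℂ M) {s : ℂ} (hs : 1 < s.re) :
    LSeries (fun n => (aK K n : ℂ) * χ n) s =
      Complex.exp (LSeries (fun n => (lamK K n : ℂ) * χ n / ((Real.log n : ℝ) : ℂ)) s) := by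
  refine (LS_exp (a := fun n => (aK K n : ℂ) * χ n) (L := fun n => (lamK K n : ℂ) * χ n)
    (B := Module.finrank ℚ K) (by simp [aK_one]) (fun s hs => ?_) (fun n => ?_) (fun n hn => ?_) hs).1
  · refine Summable.of_norm_bounded (summable_aK K hs).norm fun n => LSeries.norm_term_le s ?_
    rw [norm_mul]
    exact mul_le_of_le_one_right (norm_nonneg _) (χ.norm_le_one _)
  · rw [norm_mul]
    exact (mul_le_of_le_one_right (norm_nonneg _) (χ.norm_le_one _)).trans (expb_norm K n)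
  · rw [mul_right_comm, expb_conv K hn, Finset.sum_mul]
    refine Finset.sum_congr rfl fun d hd => ?_
    rw [← (Nat.mem_divisorsAntidiagonal.1 hd).1, Nat.cast_mul, map_mul]
    ring

/-- Exp -/
theorem zeta_exp {s : ℂ} (hs : 1 < s.re) :
    LSeries (fun n => (aK K n : ℂ)) s =
      Complex.exp (LSeries (fun n => (lamK K n : ℂ) / ((Real.log n : ℝ) : ℂ)) s) ∧
    deriv (LSeries fun n => (aK K n : ℂ)) s =
      -LSeries (fun n => (lamK K n : ℂ)) s * LSeries (fun n => (aK K n : ℂ)) s :=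
  LS_exp (a := fun n => (aK K n : ℂ)) (L := fun n => (lamK K n : ℂ)) (B := Module.finrank ℚ K)
    (by simp [aK_one]) (fun _ hs => summable_aK K hs) (expb_norm K) (fun _ hn => expb_conv K hn) hs

/-- Exp -/
theorem zeta_bounds {s : ℂ} (hs : 2 ≤ s.re) :
    Real.exp (-(Module.finrank ℚ K : ℝ)) ≤ ‖LSeries (fun n => (aK K n : ℂ)) s‖ ∧
      ‖LSeries (fun n => (aK K n : ℂ)) s‖ ≤ Real.exp (Module.finrank ℚ K) := by
  have h := abs_le.1 ((Complex.abs_re_le_norm _).trans (norm_P_le (expb_norm K) hs))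
  rw [(zeta_exp K (by linarith)).1, Complex.norm_exp]
  exact ⟨Real.exp_le_exp.2 h.1, Real.exp_le_exp.2 h.2⟩

end Crest.Agent.R27.Ku
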