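import Crest.Agent.R27.Ku.Defs

/-! Row 27, block Ku (owner helper94): continuation of a Mellin transform. -/

set_option autoImplicit false

namespace Crest.Agent.R27.Ku

open NumberField MeasureTheory Finset
open scoped Classical Real

theorem mela_isBigO {u : ℝ → ℂ} {C a δ : ℝ} (ha : 0 < a) (hδ : 0 < δ)
    (h : ∀ t : ℝ, 1 ≤ t → ‖u t‖ ≤ C * Real.exp (-(a * t ^ δ))) (r : ℝ) :
    u =O[Filter.atTop] fun t : ℝ => t ^ r := by
  have h1 : (fun y : ℝ => Real.exp (-a * y)) =o[Filter.atTop] fun y : ℝ => y ^ (r / δ) :=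
    isLittleO_exp_neg_mul_rpow_atTop ha _
  have h2 := (h1.comp_tendsto (tendsto_rpow_atTop hδ)).isBigO
  have h3 : u =O[Filter.atTop] fun t : ℝ => Real.exp (-a * t ^ δ) := by
    refine Asymptotics.IsBigO.of_bound C ?_
    filter_upwards [Filter.eventually_ge_atTop 1] with t ht
    rw [Real.norm_of_nonneg (Real.exp_pos _).le, neg_mul]
    exact h t ht
  refine h3.trans (h2.congr' Filter.EventuallyEq.rfl ?_)
  filter_upwards [Filter.eventually_gt_atTop 0] with t ht
  simp only [Function.comp_apply]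
  rw [← Real.rpow_mul ht.le, mul_div_cancel₀ _ hδ.ne']

/-- Mel-a.  `WeakFEPair` with `g x = f (1 / x) / x`, `k = 1`, `ε = 1`; `Λ₀ = mellin f_modif` -/
theorem mel_pair {f : ℝ → ℂ} (hf : ContinuousOn f (Set.Ioi 0)) {f₀ g₀ : ℂ} {C a δ C' a' δ' : ℝ}
    (ha : 0 < a) (hδ : 0 < δ) (ha' : 0 < a') (hδ' : 0 < δ')
    (htop : ∀ t : ℝ, 1 ≤ t → ‖f t - f₀‖ ≤ C * Real.exp (-(a * t ^ δ)))
    (hbot : ∀ t : ℝ, 0 < t → t ≤ 1 → ‖(t : ℂ) * f t - g₀‖ ≤ C' * Real.exp (-(a' * t ^ (-δ')))) :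
    ∃ L : ℂ → ℂ, Differentiable ℂ L ∧
      (∀ s : ℂ, 1 < s.re → MellinConvergent (fun t => f t - f₀) s ∧
        mellin (fun t => f t - f₀) s = L s - f₀ / s - g₀ / (1 - s)) ∧
      ∀ s : ℂ, L s = mellin ((Set.Ioi 1).indicator (fun t => f t - f₀) +
        (Set.Ioo 0 1).indicator fun t : ℝ => f t - g₀ / (t : ℂ)) s := by
  have hgc : ContinuousOn (fun x : ℝ => f (1 / x) / (x : ℂ)) (Set.Ioi 0) := by
    refine ContinuousOn.div (hf.comp ?_ ?_) Complex.continuous_ofReal.continuousOn ?_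
    · exact continuousOn_const.div continuousOn_id fun x hx => ne_of_gt hx
    · intro x hx
      exact one_div_pos.2 (Set.mem_Ioi.1 hx)
    · intro x hx
      exact Complex.ofReal_ne_zero.2 (ne_of_gt hx)
  let P : WeakFEPair ℂ :=
    { f := f
      g := fun x : ℝ => f (1 / x) / (x : ℂ)
      k := 1
      ε := 1
      f₀ := f₀
      g₀ := g₀
      hf_int := hf.locallyIntegrableOn measurableSet_Ioi
      hg_int := hgc.locallyIntegrableOn measurableSet_Ioi
      hk := one_pos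
      hε := one_ne_zero
      h_feq := fun x hx => by
        have hx' : (x : ℂ) ≠ 0 := Complex.ofReal_ne_zero.2 (ne_of_gt hx)
        rw [Real.rpow_one, one_mul, smul_eq_mul]
        field_simp
      hf_top := mela_isBigO ha hδ htop
      hg_top := mela_isBigO (C := C') ha' hδ' fun t ht => by
        have ht0 : 0 < t := lt_of_lt_of_le one_pos ht
        have h1 := hbot (1 / t) (one_div_pos.2 ht0) ((div_le_one ht0).2 ht)
        rw [Real.rpow_neg (one_div_pos.2 ht0).le, one_div t, Real.inv_rpow ht0.le, inv_inv] at h1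
        rw [one_div t, div_eq_inv_mul, ← Complex.ofReal_inv]
        exact h1 }
  refine ⟨P.Λ₀, P.differentiable_Λ₀, fun s hs => ?_, fun s => ?_⟩
  · obtain ⟨h1, h2⟩ := P.hasMellin (s := s) hs
    refine ⟨h1, h2.trans ?_⟩
    simp only [WeakFEPair.Λ, P, smul_eq_mul, Complex.ofReal_one]
    ring
  · unfold WeakFEPair.Λ₀ mellin
    refine setIntegral_congr_fun measurableSet_Ioi fun t ht => ?_
    simp only [WeakFEPair.f_modif, P, Pi.add_apply]
    congr 2
    by_cases hx : t ∈ Set.Ioo (0 : ℝ) 1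
    · rw [Set.indicator_of_mem hx, Set.indicator_of_mem hx, Real.rpow_neg_one, one_mul, smul_eq_mul,
        Complex.ofReal_inv, div_eq_inv_mul]
    · rw [Set.indicator_of_notMem hx, Set.indicator_of_notMem hx]

/-- Mel-a.  `Z s = (s - 1) L s - f₀ (s - 1) / s + g₀` -/
theorem mel_cont {f : ℝ → ℂ} (hf : ContinuousOn f (Set.Ioi 0)) {f₀ g₀ : ℂ} {C a δ C' a' δ' : ℝ}
    (ha : 0 < a) (hδ : 0 < δ) (ha' : 0 < a') (hδ' : 0 < δ')
    (htop : ∀ t : ℝ, 1 ≤ t → ‖f t - f₀‖ ≤ C * Real.exp (-(a * t ^ δ)))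
    (hbot : ∀ t : ℝ, 0 < t → t ≤ 1 → ‖(t : ℂ) * f t - g₀‖ ≤ C' * Real.exp (-(a' * t ^ (-δ')))) :
    ∃ Z : ℂ → ℂ, DifferentiableOn ℂ Z {s | 0 < s.re} ∧
      ∀ s : ℂ, 1 < s.re → Z s = (s - 1) * mellin (fun t => f t - f₀) s := by
  obtain ⟨L, hL, h1, -⟩ := mel_pair hf ha hδ ha' hδ' htop hbot
  refine ⟨fun s => (s - 1) * L s - f₀ * (s - 1) / s + g₀, ?_, fun s hs => ?_⟩
  · intro s hs
    have hs0 : s ≠ 0 := by
      rintro rfl
      simp at hs
    refine DifferentiableAt.differentiableWithinAt ?_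
    exact (((differentiableAt_id.sub_const 1).mul (hL s)).sub
      (((differentiableAt_id.sub_const 1).const_mul f₀).div differentiableAt_id hs0)).add_const _
  · have hs0 : s ≠ 0 := by
      rintro rfl
      simp at hs
      linarith
    have hs1 : 1 - s ≠ 0 := by
      intro h
      have : s = 1 := by linear_combination -h
      rw [this] at hs
      simp at hs
    rw [(h1 s hs).2]
    field_simp
    ring

/-- Mel-b.  `exp (λ v) ≥ (λ v)^n / n! ≥ (λ v / n)^n`, `v = t^(-2/n)` -/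
theorem exp_le_sq {n : ℕ} (hn : 0 < n) {lam t : ℝ} (hl : 0 < lam) (ht : 0 < t) :
    Real.exp (-(lam * (t ^ (-(2 / (n : ℝ))) - 1))) ≤ Real.exp lam * (n / lam) ^ n * t ^ 2 := by
  have hn' : (0 : ℝ) < n := by exact_mod_cast hn
  set v : ℝ := t ^ (-(2 / (n : ℝ))) with hv
  have hv0 : 0 < v := Real.rpow_pos_of_pos ht _
  have hvn : v ^ n * t ^ 2 = 1 := by
    rw [hv, ← Real.rpow_natCast, ← Real.rpow_mul ht.le, ← Real.rpow_natCast t 2,
      ← Real.rpow_add ht]
    have : -(2 / (n : ℝ)) * n + ((2 : ℕ) : ℝ) = 0 := by push_cast; field_simp; ring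
    rw [this, Real.rpow_zero]
  have h1 : (lam * v / n) ^ n ≤ Real.exp (lam * v) := by
    have h2 : Real.exp (lam * v) = Real.exp (lam * v / n) ^ n := by
      rw [← Real.exp_nat_mul]; congr 1; field_simp
    rw [h2]
    refine pow_le_pow_left₀ (by positivity) ?_ n
    linarith [Real.add_one_le_exp (lam * v / n)]
  have h3 : (n / lam) ^ n * t ^ 2 * (lam * v / n) ^ n = 1 := by
    have : (n / lam) ^ n * (lam * v / n) ^ n = v ^ n := by
      rw [← mul_pow]; congr 1; field_simp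
    calc (n / lam) ^ n * t ^ 2 * (lam * v / n) ^ n
        = ((n / lam) ^ n * (lam * v / n) ^ n) * t ^ 2 := by ring
      _ = 1 := by rw [this, hvn]
  have h4 : Real.exp (-(lam * (v - 1))) = Real.exp lam * (Real.exp (lam * v))⁻¹ := by
    rw [← Real.exp_neg, ← Real.exp_add]; congr 1; ring
  rw [h4, mul_assoc]
  refine mul_le_mul_of_nonneg_left ?_ (Real.exp_pos _).le
  rw [inv_le_iff_one_le_mul₀ (Real.exp_pos _)]
  calc (1 : ℝ) = (n / lam) ^ n * t ^ 2 * (lam * v / n) ^ n := h3.symm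
    _ ≤ (n / lam) ^ n * t ^ 2 * Real.exp (lam * v) :=
      mul_le_mul_of_nonneg_left h1 (by positivity)

theorem melb_lower {h g : ℝ → ℝ} (hh : IntegrableOn h (Set.Ioi 0)) (h0 : ∀ t, 0 < t → 0 ≤ h t)
    (hg : Continuous g) (hle : ∀ t, 0 < t → t ≤ 1 → g t ≤ h t) :
    ∫ t in (0 : ℝ)..1, g t ≤ ∫ t in Set.Ioi 0, h t := by
  rw [intervalIntegral.integral_of_le zero_le_one]
  have hsub : Set.Ioc (0 : ℝ) 1 ⊆ Set.Ioi 0 := Set.Ioc_subset_Ioi_self
  calc ∫ t in Set.Ioc (0 : ℝ) 1, g t ≤ ∫ t in Set.Ioc (0 : ℝ) 1, h t :=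
        setIntegral_mono_on (hg.integrableOn_Icc.mono_set Set.Ioc_subset_Icc_self)
          (hh.mono_set hsub) measurableSet_Ioc fun t ht => hle t ht.1 ht.2
    _ ≤ ∫ t in Set.Ioi 0, h t :=
        setIntegral_mono_set hh
          ((ae_restrict_iff' measurableSet_Ioi).2 (Filter.Eventually.of_forall fun t ht => h0 t ht))
          hsub.eventuallyLE

/-- Mel-b.  With `L` from `mel_pair` (`f₀ = g₀ = 1`; the bound at `0` comes from `hE`), `Z s = (s - 1) L s + 1 / s`.
Put `I = ∫_0^∞ F t · t dt = mellin (f - 1) 2`.  `I ≥ ∫_0^1 (1/t - 1) t = 1/2` since `F t = (1 + E t)/t - 1`;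
`E 1 = F 1 ≤ 2 I` since `F` is antitone; `‖L s‖ ≤ ∫_1^∞ F t · t + ∫_0^1 E t · t^(-3/2) ≤ I + E 1 · e^λ (n/λ)^n`. -/
theorem mel_bound {f : ℝ → ℂ} (hf : ContinuousOn f (Set.Ioi 0)) {C a δ : ℝ} (ha : 0 < a) (hδ : 0 < δ)
    (htop : ∀ t : ℝ, 1 ≤ t → ‖f t - 1‖ ≤ C * Real.exp (-(a * t ^ δ))) {F E : ℝ → ℝ}
    (hFE : ∀ t : ℝ, 0 < t → f t = 1 + (F t : ℂ) ∧ (t : ℂ) * f t = 1 + (E t : ℂ) ∧ 0 ≤ F t ∧ 0 ≤ E t)
    (hF : AntitoneOn F (Set.Ioi 0)) {n : ℕ} (hn : 0 < n) {lam : ℝ} (hl : 0 < lam)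
    (hE : ∀ t : ℝ, 0 < t → t ≤ 1 → E t ≤ E 1 * Real.exp (-(lam * (t ^ (-(2 / (n : ℝ))) - 1)))) :
    ∃ Z : ℂ → ℂ, DifferentiableOn ℂ Z {s | 0 < s.re} ∧
      (∀ s : ℂ, 1 < s.re → Z s = (s - 1) * mellin (fun t => f t - 1) s) ∧
      ∀ s : ℂ, 1 / 2 ≤ s.re → s.re ≤ 2 → ‖Z s‖ ≤
        (5 + 2 * (Real.exp lam * (n / lam) ^ n)) * (‖s‖ + 1) * ‖mellin (fun t => f t - 1) 2‖ := by
  have hn' : (0 : ℝ) < n := by exact_mod_cast hn
  have hE1 : 0 ≤ E 1 := (hFE 1 one_pos).2.2.2
  have hEF : E 1 = F 1 := by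
    obtain ⟨h1, h2, -, -⟩ := hFE 1 one_pos
    rw [Complex.ofReal_one, one_mul, h1] at h2
    exact_mod_cast (add_left_cancel h2).symm
  have hbot : ∀ t : ℝ, 0 < t → t ≤ 1 → ‖(t : ℂ) * f t - 1‖ ≤
      (E 1 * Real.exp lam) * Real.exp (-(lam * t ^ (-(2 / (n : ℝ))))) := by
    intro t ht ht1
    obtain ⟨-, h2, -, h4⟩ := hFE t ht
    rw [h2, add_sub_cancel_left, Complex.norm_real, Real.norm_of_nonneg h4, mul_assoc,
      ← Real.exp_add]
    refine (hE t ht ht1).trans (le_of_eq ?_)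
    congr 2; ring
  obtain ⟨L, hL, hL1, hL2⟩ := mel_pair hf ha hδ hl (by positivity : (0 : ℝ) < 2 / n) htop hbot
  set K : ℝ := Real.exp lam * (n / lam) ^ n with hK
  have hK0 : 0 ≤ K := by positivity
  have hEK : ∀ t : ℝ, 0 < t → t ≤ 1 → E t ≤ E 1 * K * t ^ 2 := by
    intro t ht ht1
    refine (hE t ht ht1).trans ?_
    rw [mul_assoc]
    exact mul_le_mul_of_nonneg_left (exp_le_sq hn hl ht) hE1
  -- the integral `I`
  have hcongr : ∀ t ∈ Set.Ioi (0 : ℝ),
      (t : ℂ) ^ ((2 : ℂ) - 1) • (f t - 1) = ((t * F t : ℝ) : ℂ) := by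
    intro t ht
    rw [(hFE t ht).1, add_sub_cancel_left, show (2 : ℂ) - 1 = 1 by norm_num, Complex.cpow_one,
      smul_eq_mul, Complex.ofReal_mul]
  have hint : IntegrableOn (fun t : ℝ => t * F t) (Set.Ioi 0) := by
    have h1 : IntegrableOn (fun t : ℝ => ((t * F t : ℝ) : ℂ)) (Set.Ioi 0) :=
      (hL1 2 (by norm_num)).1.congr_fun hcongr measurableSet_Ioi
    simpa [IntegrableOn] using h1.re
  have hnn : ∀ t : ℝ, 0 < t → 0 ≤ t * F t := fun t ht => mul_nonneg ht.le (hFE t ht).2.2.1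
  set I : ℝ := ∫ t in Set.Ioi (0 : ℝ), t * F t with hI
  have hI1 : 1 / 2 ≤ I := by
    have h1 := melb_lower (g := fun t => 1 - t) hint hnn (by fun_prop) fun t ht _ => by
      obtain ⟨h1, h2, -, h4⟩ := hFE t ht
      rw [h1] at h2
      have h3 : t * (1 + F t) = 1 + E t := by exact_mod_cast h2
      show 1 - t ≤ t * F t
      nlinarith
    have h2 : ∫ t in (0 : ℝ)..1, (1 - t) = 1 / 2 := by
      rw [intervalIntegral.integral_sub (by simp) (by simp)]
      simp; norm_num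
    linarith
  have hI2 : E 1 ≤ 2 * I := by
    have h1 := melb_lower (g := fun t => t * F 1) hint hnn (by fun_prop) fun t ht ht1 =>
      mul_le_mul_of_nonneg_left (hF ht (Set.mem_Ioi.2 one_pos) ht1) ht.le
    have h2 : ∫ t in (0 : ℝ)..1, t * F 1 = F 1 / 2 := by
      rw [intervalIntegral.integral_mul_const]
      simp; ring
    linarith
  have hM : ‖mellin (fun t => f t - 1) 2‖ = I := by
    have : mellin (fun t => f t - 1) 2 = (I : ℂ) := by
      rw [mellin, setIntegral_congr_fun measurableSet_Ioi hcongr, integral_complex_ofReal]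
    rw [this, Complex.norm_real, Real.norm_of_nonneg (by linarith)]
  refine ⟨fun s => (s - 1) * L s + 1 / s, ?_, ?_, ?_⟩
  · intro s hs
    have hs0 : s ≠ 0 := by
      rintro rfl
      simp at hs
    refine DifferentiableAt.differentiableWithinAt ?_
    exact ((differentiableAt_id.sub_const 1).mul (hL s)).add
      ((differentiableAt_const _).div differentiableAt_id hs0)
  · intro s hs
    have hs0 : s ≠ 0 := by
      rintro rfl
      norm_num at hs
    have hs1 : 1 - s ≠ 0 := by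
      intro h
      have : s = 1 := by linear_combination -h
      rw [this] at hs
      norm_num at hs
    rw [(hL1 s hs).2]
    field_simp
    ring
  · intro s hs1 hs2
    have hLs : ‖L s‖ ≤ I + E 1 * K := by
      have hci : IntegrableOn ((Set.Ioo (0 : ℝ) 1).indicator fun _ => E 1 * K) (Set.Ioi 0) := by
        refine Integrable.integrableOn ?_
        rw [integrable_indicator_iff measurableSet_Ioo]
        exact integrableOn_const (by simp)
      have hcv : ∫ t in Set.Ioi (0 : ℝ), (Set.Ioo (0 : ℝ) 1).indicator (fun _ => E 1 * K) t =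
          E 1 * K := by
        rw [setIntegral_indicator measurableSet_Ioo,
          Set.inter_eq_right.2 Set.Ioo_subset_Ioi_self]
        simp
      rw [hL2 s, mellin, ← hcv, hI, ← integral_add hint hci]
      refine norm_integral_le_of_norm_le (hint.add hci) ?_
      refine (ae_restrict_iff' measurableSet_Ioi).2 (Filter.Eventually.of_forall fun t ht => ?_)
      have ht0 : 0 < t := ht
      obtain ⟨h1, h2, h3, h4⟩ := hFE t ht
      rw [norm_smul, Complex.norm_cpow_eq_rpow_re_of_pos ht0, Pi.add_apply]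
      rcases lt_trichotomy t 1 with hlt | heq | hgt
      · rw [Set.indicator_of_notMem (by simpa using hlt.le),
          Set.indicator_of_mem (Set.mem_Ioo.2 ⟨ht0, hlt⟩),
          Set.indicator_of_mem (Set.mem_Ioo.2 ⟨ht0, hlt⟩), zero_add]
        have htc : (t : ℂ) ≠ 0 := by exact_mod_cast ht0.ne'
        have h5 : f t - 1 / (t : ℂ) = ((E t / t : ℝ) : ℂ) := by
          push_cast
          field_simp
          linear_combination h2
        rw [h5, Complex.norm_real, Real.norm_of_nonneg (by positivity)]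
        have h6 : t ^ (s - 1).re ≤ t⁻¹ := by
          rw [← Real.rpow_neg_one]
          refine Real.rpow_le_rpow_of_exponent_ge ht0 hlt.le ?_
          simp; linarith
        calc t ^ (s - 1).re * (E t / t) ≤ t⁻¹ * (E 1 * K * t ^ 2 / t) := by
              gcongr
              exact hEK t ht0 hlt.le
          _ = E 1 * K := by field_simp
          _ ≤ t * F t + E 1 * K := by linarith [hnn t ht0]
      · subst heq
        simp only [Set.mem_Ioi, lt_self_iff_false, not_false_eq_true, Set.indicator_of_notMem,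
          Set.mem_Ioo, and_false, add_zero, norm_zero, mul_zero]
        exact hnn 1 one_pos
      · rw [Set.indicator_of_mem (Set.mem_Ioi.2 hgt),
          Set.indicator_of_notMem (fun h => absurd h.2 (not_lt.2 hgt.le)),
          Set.indicator_of_notMem (fun h => absurd h.2 (not_lt.2 hgt.le)), add_zero, add_zero, h1,
          add_sub_cancel_left, Complex.norm_real, Real.norm_of_nonneg h3]
        refine mul_le_mul_of_nonneg_right ?_ h3
        conv_rhs => rw [← Real.rpow_one t]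
        refine Real.rpow_le_rpow_of_exponent_le hgt.le ?_
        simp; linarith
    have hs3 : 1 / 2 ≤ ‖s‖ := hs1.trans (Complex.re_le_norm s)
    have h1 : ‖(1 : ℂ) / s‖ ≤ 2 := by
      rw [norm_div, norm_one, div_le_iff₀ (by linarith)]; linarith
    have h2 : ‖s - 1‖ ≤ ‖s‖ + 1 := by simpa using norm_sub_le s 1
    have h3 : ‖L s‖ ≤ I + 2 * I * K := hLs.trans (by gcongr)
    rw [hM]
    calc ‖(s - 1) * L s + 1 / s‖ ≤ ‖s - 1‖ * ‖L s‖ + 2 := by
          refine (norm_add_le _ _).trans ?_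
          rw [norm_mul]; linarith
      _ ≤ (‖s‖ + 1) * (I + 2 * I * K) + 4 * I * (‖s‖ + 1) := by
          have : ‖s - 1‖ * ‖L s‖ ≤ (‖s‖ + 1) * (I + 2 * I * K) := by gcongr
          nlinarith
      _ = (5 + 2 * K) * (‖s‖ + 1) * I := by ring

end Crest.Agent.R27.Ku
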