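import Crest.Agent.R27.Ku.Unf
import Crest.Agent.R27.Ku.Gam
import Crest.Agent.R27.Ku.Mel
import Crest.Agent.R27.Ku.Exp

/-! Row 27, block Ku (owner helper94): Hecke's continuation. -/

set_option autoImplicit false

namespace Crest.Agent.R27.Ku

open NumberField MeasureTheory Finset
open scoped Classical Real nonZeroDivisors ArithmeticFunction.vonMangoldt

variable {K : Type} [Field K] [NumberField K]

/-- the partial series of an ideal class -/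
noncomputable def LC (C : ClassGroup (𝓞 K)) (c : ℕ → ℂ) (s : ℂ) : ℂ :=
  ∑' I : {I : (Ideal (𝓞 K))⁰ // ClassGroup.mk0 I = C},
    c (Ideal.absNorm (I.1 : Ideal (𝓞 K))) * (Ideal.absNorm (I.1 : Ideal (𝓞 K)) : ℂ) ^ (-s)

/-- Cls-a.  `LS_eq_tsum`, `summable_ideal`, `Equiv.sigmaFiberEquiv`, `Summable.tsum_sigma` -/
theorem LS_eq_sum_LC {c : ℕ → ℂ} (hc : ∀ n, ‖c n‖ ≤ 1) {s : ℂ} (hs : 1 < s.re) :
    LSeries (fun n => (aK K n : ℂ) * c n) s = ∑ C : ClassGroup (𝓞 K), LC C c s := by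
  have hS : Summable fun I : (Ideal (𝓞 K))⁰ =>
      c (Ideal.absNorm (I : Ideal (𝓞 K))) * (Ideal.absNorm (I : Ideal (𝓞 K)) : ℂ) ^ (-s) := by
    refine Summable.of_norm_bounded (summable_ideal K hs) fun I => ?_
    have hI : 0 < Ideal.absNorm (I : Ideal (𝓞 K)) :=
      Nat.pos_of_ne_zero fun h => nonZeroDivisors.coe_ne_zero I (Ideal.absNorm_eq_zero_iff.1 h)
    rw [norm_mul, Complex.norm_natCast_cpow_of_pos hI, Complex.neg_re]
    exact mul_le_of_le_one_left (Real.rpow_nonneg (Nat.cast_nonneg _) _) (hc _)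
  have h2 := (Equiv.sigmaFiberEquiv fun I : (Ideal (𝓞 K))⁰ => ClassGroup.mk0 I).summable_iff.2 hS
  rw [LS_eq_tsum K hc hs, ← (Equiv.sigmaFiberEquiv fun I : (Ideal (𝓞 K))⁰ => ClassGroup.mk0 I).tsum_eq]
  exact h2.tsum_sigma.trans (tsum_fintype _)

/-- Cls-a.  every `LC C 1 2` is a nonnegative real; `LS_eq_sum_LC`, `zeta_bounds` -/
theorem sum_norm_LC : ∑ C : ClassGroup (𝓞 K), ‖LC C (fun _ => 1) 2‖ ≤ Real.exp (Module.finrank ℚ K) := by
  have h1 : ∀ C : ClassGroup (𝓞 K), ((‖LC C (fun _ => 1) 2‖ : ℝ) : ℂ) = LC C (fun _ => 1) 2 := fun C => by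
    have e : LC C (fun _ => 1) 2 = ((∑' I : {I : (Ideal (𝓞 K))⁰ // ClassGroup.mk0 I = C},
        ((Ideal.absNorm (I.1 : Ideal (𝓞 K)) : ℝ) ^ 2)⁻¹ : ℝ) : ℂ) := by
      rw [Complex.ofReal_tsum, LC]
      refine tsum_congr fun I => ?_
      rw [one_mul, Complex.cpow_neg, Complex.cpow_two]
      push_cast
      rfl
    rw [e, Complex.norm_real, Real.norm_of_nonneg (tsum_nonneg fun _ => by positivity)]
  have h2 := LS_eq_sum_LC (K := K) (c := fun _ => 1) (fun _ => by simp) (s := 2) (by simp)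
  have h3 := (zeta_bounds K (s := 2) (by simp)).2
  simp only [mul_one] at h2
  rw [h2, ← Finset.sum_congr rfl fun C _ => h1 C, ← Complex.ofReal_sum, Complex.norm_real] at h3
  exact (le_abs_self _).trans h3

theorem clsa_cop (J : (Ideal (𝓞 K))⁰) {M : ℕ} (hM : M ≠ 0) : ∃ 𝔟 : Ideal (𝓞 K),
    Nat.Coprime (Ideal.absNorm 𝔟) M ∧ ((J : Ideal (𝓞 K)) * 𝔟).IsPrincipal := by
  have hJ : (J : Ideal (𝓞 K)) ≠ 0 := nonZeroDivisors.coe_ne_zero J
  obtain ⟨a, ha⟩ := IsDedekindDomain.exists_sup_span_eq (I := (J : Ideal (𝓞 K)) * Ideal.span {(M : 𝓞 K)}) (J := J)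
    (Ideal.le_of_dvd (dvd_mul_right _ _)) (mul_ne_zero hJ (by simpa using hM))
  obtain ⟨𝔟, h𝔟⟩ := Ideal.dvd_iff_le.2 (le_sup_right.trans ha.le)
  refine ⟨𝔟, Nat.Coprime.symm (Nat.coprime_of_dvd' fun p hp h1 h2 => ?_), ⟨a, h𝔟.symm⟩⟩
  rw [h𝔟, ← Ideal.mul_sup] at ha
  have h3 : Ideal.span {(M : 𝓞 K)} ⊔ 𝔟 = ⊤ := mul_left_cancel₀ hJ (ha.trans (Ideal.mul_top _).symm)
  obtain ⟨P, hP, h4, h5⟩ := Ideal.exists_isMaximal_dvd_of_dvd_absNorm' hp 𝔟 h2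
  refine (hP.ne_top (top_le_iff.1 (h3.ge.trans (sup_le ?_ (Ideal.le_of_dvd h5))))).elim
  have h6 : (M : ℤ) ∈ P.under ℤ := h4 ▸ Ideal.mem_span_singleton.2 (Int.natCast_dvd_natCast.2 h1)
  rw [Ideal.span_singleton_le_iff_mem]
  simpa using Ideal.mem_comap.1 h6

/-- Cls-a.  Take `J` in the class `C`; `IsDedekindDomain.exists_sup_span_eq` gives `a` with `M J ⊔ (a) = J`, so
`(a) = J 𝔟` with `𝔟 ⊔ (M) = ⊤`; a prime dividing `N 𝔟` and `M` would be the order of an element of `𝓞 K ⧸ 𝔟`, where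
`M` is invertible.  `ClassGroup.mk0_eq_one_iff`, `Ideal.dvd_iff_le`. -/
theorem exists_rep (C : ClassGroup (𝓞 K)) {M : ℕ} (hM : 1 ≤ M) : ∃ 𝔟 : Ideal (𝓞 K), 𝔟 ≠ ⊥ ∧
    Nat.Coprime (Ideal.absNorm 𝔟) M ∧ ∃ E : {I : (Ideal (𝓞 K))⁰ // ClassGroup.mk0 I = C} ≃ PP K 𝔟,
      ∀ I, (E I).1 = (I.1 : Ideal (𝓞 K)) * 𝔟 := by
  obtain ⟨J, rfl⟩ := ClassGroup.mk0_surjective C
  obtain ⟨𝔟, h1, h2⟩ := clsa_cop J (M := 2 * M) (by omega)
  have h0 : 𝔟 ≠ ⊥ := by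
    rintro rfl
    rw [Ideal.absNorm_bot, Nat.coprime_zero_left] at h1
    omega
  have hb : 𝔟 ∈ (Ideal (𝓞 K))⁰ := mem_nonZeroDivisors_of_ne_zero h0
  have key : ∀ I : (Ideal (𝓞 K))⁰, ((I : Ideal (𝓞 K)) * 𝔟).IsPrincipal ↔
      ClassGroup.mk0 I * ClassGroup.mk0 ⟨𝔟, hb⟩ = 1 := fun I => by
    rw [← map_mul, ← ClassGroup.mk0_eq_one_iff (mul_mem I.2 hb)]
    rfl
  refine ⟨𝔟, h0, h1.coprime_mul_left_right, Equiv.ofBijective (fun I => ⟨(I.1 : Ideal (𝓞 K)) * 𝔟,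
    mul_ne_zero (nonZeroDivisors.coe_ne_zero I.1) h0, (key _).2 (by rw [I.2]; exact (key J).1 h2),
      Ideal.le_of_dvd (dvd_mul_left _ _)⟩)
    ⟨fun I I' h => ?_, ?_⟩, fun I => rfl⟩
  · exact Subtype.ext (Subtype.ext (mul_right_cancel₀ h0 (congrArg Subtype.val h)))
  · rintro ⟨P, hP, h3, h4⟩
    obtain ⟨I, rfl⟩ := Ideal.dvd_iff_le.2 h4
    have hI : I ∈ (Ideal (𝓞 K))⁰ := mem_nonZeroDivisors_of_ne_zero (right_ne_zero_of_mul hP)
    refine ⟨⟨⟨I, hI⟩, mul_right_cancel (((key ⟨I, hI⟩).1 ?_).trans ((key J).1 h2).symm)⟩,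
      Subtype.ext (mul_comm _ _)⟩
    rwa [mul_comm] at h3

/-- Cls-b.  `exists_rep`, `exists_dat`, `mel_unfold` with `η I = χ (N I)`, `psi_sg` -/
theorem class_mellin (C : ClassGroup (𝓞 K)) {M : ℕ} (hM : 1 ≤ M) (χ : DirichletCharacter ℂ M) :
    ∃ (𝔟 : Ideal (𝓞 K)) (b : Module.Basis (K →+* ℂ) ℤ 𝔟) (D : Dat (K →+* ℂ) (Fin (Units.rank K))) (V : ℝ),
      IsDat K 𝔟 b D V ∧ χ ((Ideal.absNorm 𝔟 : ℕ) : ZMod M) ≠ 0 ∧
      ∀ e : Bool, (χ (-1) = if e then -1 else 1) → ∀ G : ℂ → ℂ,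
        (∀ s : ℂ, 0 < s.re → MellinConvergent (fun t => ((phb (ellK K) (Sg K e) t : ℝ) : ℂ)) s ∧
          mellin (fun t => ((phb (ellK K) (Sg K e) t : ℝ) : ℂ)) s = G s) → ∀ s : ℂ, 1 < s.re →
        mellin (fun t => thA D (Sg K e) (psi b χ) t - psi b χ 0 * ((fS (Sg K e) 0 : ℝ) : ℂ)) s =
          (Units.torsionOrder K : ℂ) * ((Real.sqrt |(discr K : ℝ)| : ℝ) : ℂ) ^ s *
            χ ((Ideal.absNorm 𝔟 : ℕ) : ZMod M) * G s * LC C (fun n => χ n) s := by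
  obtain ⟨𝔟, h𝔟, hco, E, hE⟩ := exists_rep C hM
  obtain ⟨b, D, V, hD⟩ := exists_dat h𝔟
  refine ⟨𝔟, b, D, V, hD, (((ZMod.isUnit_iff_coprime _ _).2 hco).map χ).ne_zero,
    fun e he G hG s hs => ?_⟩
  have hN : ((Ideal.absNorm 𝔟 : ℕ) : ℂ) ≠ 0 :=
    Nat.cast_ne_zero.2 fun h => h𝔟 (Ideal.absNorm_eq_zero_iff.1 h)
  have h1 : ∀ I, χ ((Ideal.absNorm (E I).1 : ℕ) : ZMod M) * (Ideal.absNorm (E I).1 : ℂ) ^ (-s) =
      (χ ((Ideal.absNorm 𝔟 : ℕ) : ZMod M) * (((Ideal.absNorm 𝔟 : ℕ) : ℂ) ^ s)⁻¹) *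
        (χ ((Ideal.absNorm (I.1 : Ideal (𝓞 K)) : ℕ) : ZMod M) *
          (Ideal.absNorm (I.1 : Ideal (𝓞 K)) : ℂ) ^ (-s)) := by
    intro I
    rw [hE, map_mul, Nat.cast_mul, map_mul, Nat.cast_mul, Complex.natCast_mul_natCast_cpow,
      ← Complex.cpow_neg]
    ring
  have h2 : ((Ideal.absNorm 𝔟 : ℕ) : ℂ) ^ s ≠ 0 := by
    rw [Ne, Complex.cpow_eq_zero_iff]
    exact fun h => hN h.1
  rw [mel_unfold h𝔟 hD e (ψ := psi b χ) (fun m => χ.norm_le_one _)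
    (η := fun I => χ ((Ideal.absNorm I : ℕ) : ZMod M)) (fun I => χ.norm_le_one _)
    (fun m hm => psi_sg b χ he hm) hG hs, ← E.tsum_eq, tsum_congr h1, tsum_mul_left, LC, hD.hV,
    Complex.ofReal_mul, Complex.mul_cpow_ofReal_nonneg (Nat.cast_nonneg _) (Real.sqrt_nonneg _),
    Complex.ofReal_natCast]
  field_simp

/-- Cls-b.  `class_mellin`, `gam_pack`, `mel_cont` with `thA_cont`, `thA_top`, `thA_bot`, `psi_per`
(`DirichletCharacter.even_or_odd`); sum over the classes -/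
theorem hecke_cont (K : Type) [Field K] [NumberField K] {M : ℕ} (hM : 1 ≤ M) (χ : DirichletCharacter ℂ M) :
    ∃ Z : ℂ → ℂ, DifferentiableOn ℂ Z {s | 0 < s.re} ∧
      ∀ s : ℂ, 1 < s.re → Z s = (s - 1) * LSeries (fun n => (aK K n : ℂ) * χ n) s := by
  obtain ⟨e, he⟩ : ∃ e : Bool, χ (-1) = if e then -1 else 1 := by
    rcases χ.even_or_odd with h | h
    · exact ⟨false, h⟩
    · exact ⟨true, h⟩
  obtain ⟨_, -, hG⟩ := gam_pack
  obtain ⟨G, hGd, hG1, -⟩ := hG K e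
  have key : ∀ C : ClassGroup (𝓞 K), ∃ Z : ℂ → ℂ, DifferentiableOn ℂ Z {s | 0 < s.re} ∧
      ∀ s : ℂ, 1 < s.re → Z s = (s - 1) * LC C (fun n => χ n) s := by
    intro C
    obtain ⟨𝔟, b, D, V, -, h0, hm⟩ := class_mellin C hM χ
    have hψ : ∀ m, ‖psi b χ m‖ ≤ 1 := fun m => χ.norm_le_one _
    obtain ⟨C₁, a, δ, ha, hδ, htop⟩ := thA_top D (Sg K e) hψ
    obtain ⟨g₀, C₂, a', δ', ha', hδ', hbot⟩ := thA_bot D (Sg K e) hψ hM (psi_per b χ)
    obtain ⟨Z, hZ, hZ'⟩ := mel_cont (thA_cont D (Sg K e) hψ) ha hδ ha' hδ' htop hbot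
    have hd : ((Real.sqrt |(discr K : ℝ)| : ℝ) : ℂ) ≠ 0 :=
      Complex.ofReal_ne_zero.2 (Real.sqrt_pos.2 embe_d).ne'
    have hne : ∀ s : ℂ, 0 < s.re → (Units.torsionOrder K : ℂ) *
        ((Real.sqrt |(discr K : ℝ)| : ℝ) : ℂ) ^ s * χ ((Ideal.absNorm 𝔟 : ℕ) : ZMod M) * G s ≠ 0 := by
      intro s hs
      refine mul_ne_zero (mul_ne_zero (mul_ne_zero ?_ ?_) h0) (hG1 s hs).1
      · exact Nat.cast_ne_zero.2 (Units.torsionOrder_ne_zero K)
      · rw [Ne, Complex.cpow_eq_zero_iff]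
        exact fun h => hd h.1
    refine ⟨fun s => Z s / ((Units.torsionOrder K : ℂ) * ((Real.sqrt |(discr K : ℝ)| : ℝ) : ℂ) ^ s *
      χ ((Ideal.absNorm 𝔟 : ℕ) : ZMod M) * G s), hZ.div (DifferentiableOn.mul ?_ hGd) hne,
      fun s hs => ?_⟩
    · exact (((differentiable_id.const_cpow (Or.inl hd)).const_mul _).mul_const _).differentiableOn
    · rw [div_eq_iff (hne s (zero_lt_one.trans hs)), hZ' s hs,
        hm e he G (fun s hs => (hG1 s hs).2) s hs]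
      ring
  choose Z hZ hZ' using key
  refine ⟨fun s => ∑ C, Z C s, DifferentiableOn.fun_sum fun C _ => hZ C, fun s hs => ?_⟩
  rw [LS_eq_sum_LC (c := fun n => χ n) (fun n => χ.norm_le_one _) hs, mul_sum]
  exact sum_congr rfl fun C _ => hZ' C s hs

theorem clsc_discr (K : Type) [Field K] [NumberField K] : (1 : ℝ) ≤ |(discr K : ℝ)| := by
  exact_mod_cast Int.one_le_abs (discr_ne_zero K)

theorem clsc_A {n : ℕ} (hn : 0 < n) {d : ℝ} (hd : 1 ≤ d) :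
    5 + 2 * (Real.exp (π * (n * d ^ (-(1 / (n : ℝ))))) * (n / (π * (n * d ^ (-(1 / (n : ℝ)))))) ^ n) ≤
      Real.exp (10 * n + Real.log d) := by
  have hn1 : (1 : ℝ) ≤ n := by exact_mod_cast hn
  have hd0 : 0 < d := by linarith
  have h1 : d ^ (-(1 / (n : ℝ))) ≤ 1 :=
    Real.rpow_le_one_of_one_le_of_nonpos hd (neg_nonpos.2 (by positivity))
  have h0 : 0 < d ^ (-(1 / (n : ℝ))) := Real.rpow_pos_of_pos hd0 _
  have h2 : Real.exp (π * (n * d ^ (-(1 / (n : ℝ))))) ≤ Real.exp (4 * n) := by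
    refine Real.exp_le_exp.2 (mul_le_mul Real.pi_le_four ?_ (by positivity) (by norm_num))
    exact mul_le_of_le_one_right (by positivity) h1
  have h3 : (n / (π * (n * d ^ (-(1 / (n : ℝ)))))) ^ n ≤ d := by
    have e : n / (π * (n * d ^ (-(1 / (n : ℝ))))) = d ^ ((n : ℝ)⁻¹) / π := by
      rw [Real.rpow_neg hd0.le, one_div]
      field_simp
    rw [e]
    calc _ ≤ (d ^ ((n : ℝ)⁻¹)) ^ n := pow_le_pow_left₀ (by positivity)
          (div_le_self (by positivity) (by linarith [Real.pi_gt_three])) n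
      _ = d := Real.rpow_inv_natCast_pow hd0.le hn.ne'
  have h4 := mul_le_mul h2 h3 (by positivity) (by positivity)
  have h5 : 1 ≤ Real.exp (4 * n) * d :=
    one_le_mul_of_one_le_of_one_le (Real.one_le_exp (by positivity)) hd
  have h6 : 7 ≤ Real.exp (6 * n) := by linarith [Real.add_one_le_exp (6 * (n : ℝ))]
  have h7 := mul_le_mul_of_nonneg_right h6 (zero_le_one.trans h5)
  rw [Real.exp_add, Real.exp_log hd0, show (10 : ℝ) * n = 6 * n + 4 * n by ring, Real.exp_add]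
  linarith

/-- Cls-c.  `class_mellin` for `M = 1`, `χ = 1`, `e = false` (`psi b 1 = 1`, `Sg K false = ∅`, `fS ∅ 0 = 1`),
`mel_bound` with `thA_one`, `lam = π ρ' = π n |d|^(-1/n)`, so `exp lam (n / lam)^n ≤ exp (π n) |d|`;
`gam_pack`; `|d| ≥ 1`, `‖s‖ + 1 ≤ exp (|im s| + 2)`. -/
theorem class_bound : ∃ C₀ : ℝ, 0 < C₀ ∧ ∀ (K : Type) [Field K] [NumberField K] (C : ClassGroup (𝓞 K)),
    ∃ Z : ℂ → ℂ, DifferentiableOn ℂ Z {s | 0 < s.re} ∧
      (∀ s : ℂ, 1 < s.re → Z s = (s - 1) * LC C (fun _ => 1) s) ∧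
      ∀ s : ℂ, 1 / 2 ≤ s.re → s.re ≤ 2 → ‖Z s‖ ≤
        Real.exp (C₀ * (Module.finrank ℚ K + Real.log |(discr K : ℝ)|) * (|s.im| + 2)) *
          ‖LC C (fun _ => 1) 2‖ := by
  obtain ⟨C₁, hC₁, hG⟩ := gam_pack
  refine ⟨C₁ + 11, by positivity, fun K _ _ C => ?_⟩
  obtain ⟨G, G1, G2, G3⟩ := hG K false
  obtain ⟨𝔟, b, D, V, hD, -, hm⟩ := class_mellin C le_rfl (1 : DirichletCharacter ℂ 1)
  have hχ : ∀ x : ZMod 1, (1 : DirichletCharacter ℂ 1) x = 1 := fun x => by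
    rw [Subsingleton.elim x 1, map_one]
  have hψ : psi b (1 : DirichletCharacter ℂ 1) = fun _ => 1 := funext fun m => hχ _
  have hS : Sg K false = ∅ := by simp [Sg]
  have hf0 : fS (∅ : Finset (K →+* ℂ)) 0 = 1 := by simp [fS]
  have hm' := hm false (by simp [hχ]) G fun s hs => (G2 s hs).2
  simp only [hψ, hS, hf0, hχ, Complex.ofReal_one, mul_one] at hm'
  obtain ⟨c, a, δ, ha, hδ, htop⟩ := thA_top D ∅ (ψ := fun _ => 1) (by simp)
  simp only [hf0, Complex.ofReal_one, mul_one] at htop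
  obtain ⟨F, E, hFE, hF, hE⟩ := thA_one D
  have hn : 0 < Module.finrank ℚ K := Module.finrank_pos
  have hd := clsc_discr K
  rw [Embeddings.card K ℂ] at hE
  obtain ⟨Z, Z1, Z2, Z3⟩ := mel_bound (thA_cont D ∅ (ψ := fun _ => 1) (by simp)) ha hδ htop hFE hF hn
    (mul_pos Real.pi_pos D.hρ') hE
  rw [hD.hρ'] at Z3
  have hr : 1 ≤ Real.sqrt |(discr K : ℝ)| := Real.one_le_sqrt.2 hd
  have hr0 : 0 < Real.sqrt |(discr K : ℝ)| := by linarith
  have hrc : ((Real.sqrt |(discr K : ℝ)| : ℝ) : ℂ) ≠ 0 := by exact_mod_cast hr0.ne'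
  have hw : (0 : ℝ) < Units.torsionOrder K := by exact_mod_cast Units.torsionOrder_pos K
  have hwc : (Units.torsionOrder K : ℂ) ≠ 0 := by exact_mod_cast (Units.torsionOrder_pos K).ne'
  have hne : ∀ s : ℂ, 0 < s.re →
      (Units.torsionOrder K : ℂ) * ((Real.sqrt |(discr K : ℝ)| : ℝ) : ℂ) ^ s * G s ≠ 0 := fun s hs =>
    mul_ne_zero (mul_ne_zero hwc (Complex.cpow_ne_zero_iff.2 (Or.inl hrc))) (G2 s hs).1
  refine ⟨fun s => Z s / ((Units.torsionOrder K : ℂ) * ((Real.sqrt |(discr K : ℝ)| : ℝ) : ℂ) ^ s * G s),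
    Z1.div (((differentiable_id.const_cpow (Or.inl hrc)).const_mul _).differentiableOn.mul G1) hne,
    fun s hs => ?_, fun s h1 h2 => ?_⟩
  · rw [div_eq_iff (hne s (by linarith)), Z2 s hs, hm' s hs]
    ring
  have hs0 : 0 < s.re := by linarith
  have hGs : 0 < ‖G s‖ := norm_pos_iff.2 (G2 s hs0).1
  have a1 := Z3 s h1 h2
  have a2 := clsc_A hn hd
  have a3 : ‖s‖ + 1 ≤ Real.exp (|s.im| + 2) := by
    have := Complex.norm_le_abs_re_add_abs_im s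
    rw [abs_of_pos hs0] at this
    linarith [Real.add_one_le_exp (|s.im| + 2)]
  have a4 := G3 s h1 h2
  have a5 : 1 ≤ Real.sqrt |(discr K : ℝ)| ^ s.re := Real.one_le_rpow hr hs0.le
  have a6 : ‖((Real.sqrt |(discr K : ℝ)| : ℝ) : ℂ) ^ (2 : ℂ)‖ = Real.exp (Real.log |(discr K : ℝ)|) := by
    rw [Complex.norm_cpow_eq_rpow_re_of_pos hr0, Real.exp_log (by linarith), Complex.re_ofNat,
      Real.rpow_two, Real.sq_sqrt (abs_nonneg _)]
  rw [hm' 2 (by simp), norm_mul, norm_mul, norm_mul, a6, Complex.norm_natCast] at a1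
  simp only []
  rw [norm_div, norm_mul, norm_mul, Complex.norm_natCast, Complex.norm_cpow_eq_rpow_re_of_pos hr0,
    div_le_iff₀ (by positivity)]
  have hL : 0 ≤ Real.log |(discr K : ℝ)| := Real.log_nonneg hd
  have hn1 : (1 : ℝ) ≤ Module.finrank ℚ K := by exact_mod_cast hn
  have hT : 1 ≤ |s.im| + 2 := by linarith [abs_nonneg s.im]
  generalize Real.log |(discr K : ℝ)| = L at *
  generalize |s.im| + 2 = T at *
  generalize (Module.finrank ℚ K : ℝ) = n at *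
  have a7 : Real.exp (10 * n + L) * Real.exp T * Real.exp L * Real.exp (C₁ * n * T) ≤
      Real.exp ((C₁ + 11) * (n + L) * T) := by
    rw [← Real.exp_add, ← Real.exp_add, ← Real.exp_add]
    refine Real.exp_le_exp.2 ?_
    have b1 := mul_nonneg (mul_nonneg hC₁.le hL) (zero_le_one.trans hT)
    have b2 := mul_nonneg hL (sub_nonneg.2 hT)
    have b3 := mul_nonneg (zero_le_one.trans hn1) (sub_nonneg.2 hT)
    have b4 := mul_nonneg (sub_nonneg.2 hn1) (zero_le_one.trans hT)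
    linarith
  calc ‖Z s‖ ≤ Real.exp (10 * n + L) * Real.exp T * (Units.torsionOrder K * Real.exp L *
        (Real.exp (C₁ * n * T) * ‖G s‖) * ‖LC C (fun _ => 1) 2‖) := a1.trans (by gcongr)
    _ = Real.exp (10 * n + L) * Real.exp T * Real.exp L * Real.exp (C₁ * n * T) *
        ‖LC C (fun _ => 1) 2‖ * (Units.torsionOrder K * 1 * ‖G s‖) := by ring
    _ ≤ _ := by gcongr

/-- Cls-c.  `class_bound`, `sum_norm_LC`; for `2 ≤ re s ≤ 4` use `zeta_bounds` -/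
theorem hecke_bound : ∃ C₀ : ℝ, 0 < C₀ ∧ ∀ (K : Type) [Field K] [NumberField K],
    ∃ Z : ℂ → ℂ, DifferentiableOn ℂ Z {s | 0 < s.re} ∧
      (∀ s : ℂ, 1 < s.re → Z s = (s - 1) * LSeries (fun n => (aK K n : ℂ)) s) ∧
      ∀ s : ℂ, 1 / 2 ≤ s.re → s.re ≤ 4 → ‖Z s‖ ≤
        Real.exp (C₀ * (Module.finrank ℚ K + Real.log |(discr K : ℝ)|) * (|s.im| + 2)) := by
  obtain ⟨C₀, hC₀, h⟩ := class_bound
  refine ⟨C₀ + 2, by positivity, fun K _ _ => ?_⟩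
  choose Z Z1 Z2 Z3 using h K
  have hZ : ∀ s : ℂ, 1 < s.re → ∑ C, Z C s = (s - 1) * LSeries (fun n => (aK K n : ℂ)) s := fun s hs => by
    have := LS_eq_sum_LC (K := K) (c := fun _ => 1) (by simp) hs
    simp only [mul_one] at this
    rw [this, Finset.mul_sum]
    exact Finset.sum_congr rfl fun C _ => Z2 C s hs
  refine ⟨fun s => ∑ C, Z C s, DifferentiableOn.fun_sum fun C _ => Z1 C, hZ, fun s h1 h2 => ?_⟩
  have hL : 0 ≤ Real.log |(discr K : ℝ)| := Real.log_nonneg (clsc_discr K)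
  have hn1 : (1 : ℝ) ≤ Module.finrank ℚ K := by exact_mod_cast Module.finrank_pos
  have hT : 1 ≤ |s.im| + 2 := by linarith [abs_nonneg s.im]
  have b1 := mul_nonneg (mul_nonneg hC₀.le (add_nonneg (zero_le_one.trans hn1) hL)) (zero_le_one.trans hT)
  have b2 := mul_nonneg hL (zero_le_one.trans hT)
  have b3 := mul_nonneg (zero_le_one.trans hn1) (sub_nonneg.2 hT)
  have b4 := mul_nonneg (sub_nonneg.2 hn1) (zero_le_one.trans hT)
  rcases le_total s.re 2 with h3 | h3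
  · refine (norm_sum_le _ _).trans ((Finset.sum_le_sum fun C _ => Z3 C s h1 h3).trans ?_)
    rw [← Finset.mul_sum]
    refine (mul_le_mul_of_nonneg_left sum_norm_LC (Real.exp_pos _).le).trans ?_
    rw [← Real.exp_add]
    exact Real.exp_le_exp.2 (by linarith)
  · have a1 : ‖s - 1‖ ≤ Real.exp (|s.im| + 2) := by
      have := Complex.norm_le_abs_re_add_abs_im (s - 1)
      rw [Complex.sub_re, Complex.sub_im, Complex.one_re, Complex.one_im, sub_zero,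
        abs_of_pos (by linarith)] at this
      linarith [Real.add_one_le_exp (|s.im| + 2)]
    simp only []
    rw [hZ s (by linarith), norm_mul]
    refine (mul_le_mul a1 (zeta_bounds K h3).2 (norm_nonneg _) (Real.exp_pos _).le).trans ?_
    rw [← Real.exp_add]
    exact Real.exp_le_exp.2 (by linarith)

end Crest.Agent.R27.Ku
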