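import Crest.Agent.R27.Ku.Fac
import Crest.Agent.R27.Ku.BC
import Crest.Agent.R26.Z.Main

/-! Row 27, block Ku (owner helper94): prime counting. -/

set_option autoImplicit false

namespace Crest.Agent.R27.Ku

open NumberField MeasureTheory Finset
open scoped Classical Real nonZeroDivisors ArithmeticFunction.vonMangoldt

theorem cna_log (K : Type) [Field K] [NumberField K] : 0 ≤ Real.log |(discr K : ℝ)| := by
  rw [← Int.cast_abs]
  exact Real.log_intCast_nonneg _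

theorem cna_sum (K : Type) [Field K] [NumberField K] {s : ℂ} (hs : 1 < s.re) :
    LSeriesSummable (fun n => (lamK K n : ℂ)) s :=
  (summable_of_le_vM (B := Module.finrank ℚ K) (fun n => by
    rw [Complex.norm_real, Real.norm_of_nonneg (lamK_nonneg K n)]
    exact lamK_le K n) hs).1

open Crest.Agent.R17 in
theorem cna_one (h : StZFK) : ∃ θ C : ℝ, 1 / 2 ≤ θ ∧ θ < 1 ∧ 0 < C ∧ ∀ (K : Type) [Field K] [NumberField K],
    Odd (Module.finrank ℚ K) → ∃ H : ℂ → ℂ, DifferentiableOn ℂ H (strip θ 2) ∧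
      (∀ s ∈ strip θ 2, ‖H s‖ ≤ C * (Module.finrank ℚ K + Real.log |(discr K : ℝ)|) * (|s.im| + 2)) ∧
      ∀ s : ℂ, s.re = 2 → H s = LSeries (fun n => (lamK K n : ℂ)) s - 1 / (s - 1) := by
  obtain ⟨θ, hθ, hθ1, hZF⟩ := zero_free h
  obtain ⟨C₀, hC₀, hH⟩ := hecke_bound
  obtain ⟨C, hC, hBC⟩ := bc_ld (θ₀ := θ) (θ₁ := (θ + 1) / 2) (by linarith) (by linarith) (by linarith)
  refine ⟨(θ + 1) / 2, C * (C₀ + 1), by linarith, by linarith, by positivity, fun K _ _ hK => ?_⟩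
  obtain ⟨Z, hZ, hZ1, hZ2⟩ := hH K
  have hne := hZF K hK Z hZ hZ1
  have hn : (1 : ℝ) ≤ Module.finrank ℚ K := by exact_mod_cast hK.pos
  have hl := cna_log K
  have hopen : IsOpen {s : ℂ | 0 < s.re} := isOpen_lt continuous_const Complex.continuous_re
  have hsub : strip ((θ + 1) / 2) 2 ⊆ {s : ℂ | 0 < s.re} := fun s hs => by
    have := hs.1
    show 0 < s.re
    linarith
  refine ⟨fun s => -(deriv Z s / Z s), (((hZ.deriv hopen).mono hsub).div (hZ.mono hsub) fun s hs =>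
    hne s (by have := hs.1; linarith)).neg, fun s hs => ?_, fun s hs => ?_⟩
  · rw [norm_neg]
    refine (hBC Z ((C₀ + 1) * (Module.finrank ℚ K + Real.log |(discr K : ℝ)|)) (by positivity)
      (hZ.mono fun s hs => by
        have : θ < s.re := hs
        show 0 < s.re
        linarith) hne (fun s h1 h2 => (hZ2 s (by linarith) h2).trans ?_) (fun s hs => ?_) s hs).trans
      (le_of_eq (by ring))
    · gcongr
      linarith
    · rw [hZ1 s (by linarith), norm_mul]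
      have e1 : 1 ≤ ‖s - 1‖ := by
        have := Complex.re_le_norm (s - 1)
        simp only [Complex.sub_re, Complex.one_re, hs] at this
        linarith
      refine le_trans ?_ (le_mul_of_one_le_left (norm_nonneg _) e1)
      refine le_trans (Real.exp_le_exp.2 ?_) (zeta_bounds K hs.ge).1
      nlinarith
  · have hs1 : 1 < s.re := by linarith
    have ho : {s : ℂ | 1 < s.re} ∈ nhds s := (isOpen_lt continuous_const Complex.continuous_re).mem_nhds hs1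
    have hev : Z =ᶠ[nhds s] fun s => (s - 1) * LSeries (fun n => (aK K n : ℂ)) s :=
      Filter.eventually_of_mem ho fun w hw => hZ1 w hw
    have hd : DifferentiableAt ℂ (LSeries fun n => (aK K n : ℂ)) s :=
      (LSeries_hasDerivAt (lt_of_le_of_lt (LSeries.abscissaOfAbsConv_le_of_forall_lt_LSeriesSummable
        fun y hy => summable_aK K (by simpa using hy)) (by exact_mod_cast hs1))).differentiableAt
    have h0 : LSeries (fun n => (aK K n : ℂ)) s ≠ 0 := by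
      rw [(zeta_exp K hs1).1]
      exact Complex.exp_ne_zero _
    have h1 : s - 1 ≠ 0 := fun h => by
      rw [sub_eq_zero.1 h] at hs1
      simp at hs1
    have hD : deriv Z s = 1 * LSeries (fun n => (aK K n : ℂ)) s +
        (s - 1) * deriv (LSeries fun n => (aK K n : ℂ)) s := by
      rw [hev.deriv_eq]
      exact (((hasDerivAt_id s).sub_const 1).mul hd.hasDerivAt).deriv
    simp only [hD, hZ1 s hs1, (zeta_exp K hs1).2]
    field_simp
    ring

/-- Cnt-a.  `Z_K` from `hecke_bound` for `K` and for `ℚ` (degree `1`, `Rat.numberField_discr`); `zero_free`;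
`bc_ld` (`‖Z s‖ ≥ ‖s - 1‖ exp (-n)` on `re s = 2` by `zeta_bounds`) with `θ₁ = (θ + 1) / 2`;
`H = - Z_K' / Z_K + Z_ℚ' / Z_ℚ` equals `LSeries (lamK K - lamK ℚ)` on `re s > 1` (`zeta_exp`); `perron3`. -/
theorem psi_diff (h : StZFK) : ∃ θ C : ℝ, θ < 1 ∧ 0 < C ∧ ∀ (K : Type) [Field K] [NumberField K],
    Odd (Module.finrank ℚ K) → ∀ Y : ℕ, 1 ≤ Y →
      ∑ n ∈ Icc 1 Y, (lamK K n - lamK ℚ n) * wt Y n ≤
        C * (Module.finrank ℚ K + Real.log |(discr K : ℝ)|) * (Y : ℝ) ^ θ := by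
  obtain ⟨θ, C, hθ, hθ1, hC, hH⟩ := cna_one h
  obtain ⟨C', hC', hP⟩ := perron3 hθ (by linarith)
  refine ⟨θ, C' * (2 * C), hθ1, by positivity, fun K _ _ hK Y hY => ?_⟩
  obtain ⟨H, h1, h2, h3⟩ := hH K hK
  obtain ⟨H', h1', h2', h3'⟩ := hH ℚ (by simp)
  have hn : (1 : ℝ) ≤ Module.finrank ℚ K := by exact_mod_cast hK.pos
  have hl := cna_log K
  have key := hP ((fun n => (lamK K n : ℂ)) - fun n => (lamK ℚ n : ℂ)) (fun s => H s - H' s)
    (2 * C * (Module.finrank ℚ K + Real.log |(discr K : ℝ)|))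
    ((cna_sum K (by simp)).sub (cna_sum ℚ (by simp))) (h1.sub h1') (fun s hs => ?_) (fun s hs => ?_) Y hY
  · refine le_trans ?_ ((Complex.re_le_norm _).trans (key.trans (le_of_eq (by ring))))
    simp [Complex.re_sum]
  · have e := h2' s hs
    simp only [Module.finrank_self, Rat.numberField_discr, Nat.cast_one, Int.cast_one, abs_one, Real.log_one,
      add_zero, mul_one] at e
    have e' : C * (|s.im| + 2) ≤ C * (Module.finrank ℚ K + Real.log |(discr K : ℝ)|) * (|s.im| + 2) := by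
      gcongr
      exact le_mul_of_one_le_right hC.le (by linarith)
    linarith [norm_sub_le (H s) (H' s), h2 s hs]
  · have hs1 : 1 < s.re := by linarith
    simp only [h3 s hs, h3' s hs, LSeries_sub (cna_sum K hs1) (cna_sum ℚ hs1)]
    ring

/-- Cnt-b -/
theorem wt_bounds {Y n : ℕ} (h1 : 1 ≤ n) (hY : n ≤ Y) :
    0 ≤ wt Y n ∧ wt Y n ≤ Real.log ((Y : ℝ) / n) ∧ Real.log ((Y : ℝ) / n) ≤ Real.log Y ∧
      (2 * n ≤ Y → 1 / 4 ≤ wt Y n) := by
  have hn : (1 : ℝ) ≤ n := by exact_mod_cast h1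
  have hnY : (n : ℝ) ≤ Y := by exact_mod_cast hY
  have hn0 : (0 : ℝ) < n := by linarith
  have hY0 : (0 : ℝ) < Y := by linarith
  have h2 : 0 ≤ Real.log ((Y : ℝ) / n) := Real.log_nonneg ((one_le_div hn0).2 hnY)
  have h3 : (n : ℝ) / Y ≤ 1 := (div_le_one hY0).2 hnY
  have h4 : 0 ≤ (n : ℝ) / Y := by positivity
  unfold wt
  refine ⟨mul_nonneg (by linarith) h2, mul_le_of_le_one_left h2 (by linarith),
    Real.log_le_log (by positivity) (div_le_self hY0.le hn), fun h => ?_⟩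
  have h5 : 2 * (n : ℝ) ≤ Y := by exact_mod_cast h
  have h6 : (n : ℝ) / Y ≤ 1 / 2 := by
    rw [div_le_iff₀ hY0]
    linarith
  have h7 : Real.log 2 ≤ Real.log ((Y : ℝ) / n) :=
    Real.log_le_log (by norm_num) ((le_div_iff₀ hn0).2 h5)
  nlinarith [Real.log_two_gt_d9]

theorem cntb_log {n : ℕ} (h1 : 1 ≤ n) {Y : ℕ} (hY : n ≤ Y) :
    Real.log ((Y : ℝ) / n) ≤ ∑ k ∈ Ico n Y, 1 / (k : ℝ) := by
  have hn0 : (0 : ℝ) < n := by exact_mod_cast h1
  induction Y, hY using Nat.le_induction with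
  | base => simp
  | succ Y hY ih =>
    have hY0 : (0 : ℝ) < Y := hn0.trans_le (by exact_mod_cast hY)
    have e : ((Y + 1 : ℕ) : ℝ) / n = (Y : ℝ) / n * (1 + 1 / Y) := by
      push_cast
      field_simp
    have h2 := Real.log_le_sub_one_of_pos (show (0 : ℝ) < 1 + 1 / Y by positivity)
    rw [sum_Ico_succ_top hY, e, Real.log_mul (by positivity) (by positivity)]
    linarith

theorem cntb_sum (Y : ℕ) :
    ∑ k ∈ Icc 1 Y, (k : ℝ) ^ (19 / 20 : ℝ) / k ≤ 2 * (Y : ℝ) ^ (19 / 20 : ℝ) := by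
  induction Y with
  | zero => simp
  | succ Y ih =>
    rw [sum_Icc_succ_top (by omega)]
    have ht : (0 : ℝ) < ((Y + 1 : ℕ) : ℝ) := by positivity
    have ht1 : 1 / ((Y + 1 : ℕ) : ℝ) ≤ 1 := by
      rw [div_le_one ht]
      exact_mod_cast Nat.succ_pos Y
    have e : (Y : ℝ) = ((Y + 1 : ℕ) : ℝ) * (1 + -(1 / ((Y + 1 : ℕ) : ℝ))) := by
      field_simp
      push_cast
      ring
    have h1 := rpow_one_add_le_one_add_mul_self (s := -(1 / ((Y + 1 : ℕ) : ℝ))) (p := 19 / 20)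
      (by linarith) (by norm_num) (by norm_num)
    generalize ((Y + 1 : ℕ) : ℝ) = t at ht ht1 e h1 ⊢
    have h2 : 0 < t ^ (19 / 20 : ℝ) := Real.rpow_pos_of_pos ht _
    have h3 : (Y : ℝ) ^ (19 / 20 : ℝ) ≤ t ^ (19 / 20 : ℝ) * (1 + 19 / 20 * -(1 / t)) := by
      rw [e, Real.mul_rpow ht.le (by linarith)]
      exact mul_le_mul_of_nonneg_left h1 h2.le
    have h4 : t ^ (19 / 20 : ℝ) / t = t ^ (19 / 20 : ℝ) * (1 / t) := by ring
    have h5 : 0 < t ^ (19 / 20 : ℝ) * (1 / t) := by positivity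
    rw [h4]
    nlinarith

/-- Cnt-b.  `log (Y / n) ≤ ∑_{n ≤ k < Y} 1 / k`, exchange the sums, `R26.stAP` with `ε = 1`, `φ(q) = q - 1 ≥ q / 2` -/
theorem ap_weight : ∃ C : ℝ, 0 < C ∧ ∀ q Y : ℕ, q.Prime → 1 ≤ Y →
    ∑ n ∈ (Icc 1 Y).filter (fun n => n ≡ 1 [MOD q]), Λ n * Real.log ((Y : ℝ) / n) ≤
      C * ((Y : ℝ) / q + (Y : ℝ) ^ (19 / 20 : ℝ) * q) := by
  obtain ⟨C, hC, h⟩ := R26.stAP 1 one_pos
  refine ⟨2 + 2 * C, by positivity, fun q Y hq hY => ?_⟩
  have hq2 : (2 : ℝ) ≤ q := by exact_mod_cast hq.two_le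
  have hφ : (q : ℝ) / 2 ≤ Nat.totient q := by
    rw [Nat.totient_prime hq, Nat.cast_sub hq.one_le]
    push_cast
    linarith
  have h1 : ∀ k ∈ Icc 1 Y, (∑ n ∈ (Icc 1 k).filter (fun n => n ≡ 1 [MOD q]), Λ n) * (1 / (k : ℝ)) ≤
      2 / q + C * q * ((k : ℝ) ^ (19 / 20 : ℝ) / k) := fun k hk => by
    have hk1 := (mem_Icc.1 hk).1
    have hk0 : (0 : ℝ) < k := by exact_mod_cast hk1
    have h2 := (abs_le.1 (h q 1 k hq.one_le (Nat.coprime_one_left q) hk1)).2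
    rw [Real.rpow_one] at h2
    have h3 : (k : ℝ) / Nat.totient q ≤ k / (q / 2) :=
      div_le_div_of_nonneg_left hk0.le (by positivity) hφ
    calc _ ≤ (k / (q / 2) + C * (k : ℝ) ^ (19 / 20 : ℝ) * q) * (1 / (k : ℝ)) :=
          mul_le_mul_of_nonneg_right (by linarith) (by positivity)
      _ = _ := by field_simp
  have h2 := cntb_sum Y
  have h3 : 0 ≤ (Y : ℝ) / q := by positivity
  have h4 : 0 ≤ (Y : ℝ) ^ (19 / 20 : ℝ) * q := by positivity
  calc ∑ n ∈ (Icc 1 Y).filter (fun n => n ≡ 1 [MOD q]), Λ n * Real.log ((Y : ℝ) / n)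
      ≤ ∑ n ∈ (Icc 1 Y).filter (fun n => n ≡ 1 [MOD q]), ∑ k ∈ Icc n Y, Λ n * (1 / (k : ℝ)) := by
        refine sum_le_sum fun n hn => ?_
        have hn' := mem_Icc.1 (mem_filter.1 hn).1
        rw [← mul_sum]
        refine mul_le_mul_of_nonneg_left ((cntb_log hn'.1 hn'.2).trans ?_)
          ArithmeticFunction.vonMangoldt_nonneg
        exact sum_le_sum_of_subset_of_nonneg Ico_subset_Icc_self fun _ _ _ => by positivity
    _ = ∑ k ∈ Icc 1 Y, ∑ n ∈ (Icc 1 k).filter (fun n => n ≡ 1 [MOD q]), Λ n * (1 / (k : ℝ)) := by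
        refine sum_comm' fun n k => ?_
        simp only [mem_filter, mem_Icc]
        constructor
        · rintro ⟨⟨⟨a1, a2⟩, a3⟩, a4, a5⟩
          exact ⟨⟨⟨a1, a4⟩, a3⟩, a1.trans a4, a5⟩
        · rintro ⟨⟨⟨a1, a2⟩, a3⟩, a4, a5⟩
          exact ⟨⟨⟨a1, a2.trans a5⟩, a3⟩, a2, a5⟩
    _ ≤ ∑ k ∈ Icc 1 Y, (2 / q + C * q * ((k : ℝ) ^ (19 / 20 : ℝ) / k)) := by
        refine sum_le_sum fun k hk => ?_
        rw [← sum_mul]
        exact h1 k hk
    _ = 2 * ((Y : ℝ) / q) + C * q * ∑ k ∈ Icc 1 Y, (k : ℝ) ^ (19 / 20 : ℝ) / k := by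
        rw [sum_add_distrib, sum_const, Nat.card_Icc, ← mul_sum, nsmul_eq_mul, Nat.add_sub_cancel]
        ring
    _ ≤ 2 * ((Y : ℝ) / q) + C * q * (2 * (Y : ℝ) ^ (19 / 20 : ℝ)) := by gcongr
    _ ≤ _ := by nlinarith [mul_nonneg hC.le h3]

/-- Cnt-b.  `ψ - θ = O(√Y log Y)` (`Chebyshev.abs_psi_sub_theta_le_sqrt_mul_log`) -/
theorem pp_weight : ∃ C : ℝ, 0 < C ∧ ∀ Y : ℕ, 1 ≤ Y →
    ∑ n ∈ (Icc 1 Y).filter (fun n => ¬ n.Prime), Λ n * Real.log Y ≤ C * (Y : ℝ) ^ (3 / 4 : ℝ) := by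
  refine ⟨128, by norm_num, fun Y hY => ?_⟩
  have hY1 : (1 : ℝ) ≤ Y := by exact_mod_cast hY
  have hY0 : (0 : ℝ) < Y := by linarith
  have h1 := Chebyshev.psi_sub_theta_le hY1
  rw [Chebyshev.psi_sub_theta_eq_sum_not_prime, Nat.floor_natCast] at h1
  have h2 := Real.log_nonneg hY1
  have h3 : Real.log Y ≤ 8 * (Y : ℝ) ^ (1 / 8 : ℝ) := by
    have := Real.log_le_rpow_div hY0.le (show (0 : ℝ) < 1 / 8 by norm_num)
    linarith
  have h4 : (Y : ℝ) ^ (3 / 4 : ℝ) = √Y * ((Y : ℝ) ^ (1 / 8 : ℝ) * (Y : ℝ) ^ (1 / 8 : ℝ)) := by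
    rw [Real.sqrt_eq_rpow, ← Real.rpow_add hY0, ← Real.rpow_add hY0]
    norm_num
  rw [← sum_mul, show Icc 1 Y = Ioc 0 Y from rfl, h4]
  calc _ ≤ 2 * √Y * Real.log Y * Real.log Y := mul_le_mul_of_nonneg_right h1 h2
    _ ≤ 2 * √Y * (8 * (Y : ℝ) ^ (1 / 8 : ℝ)) * (8 * (Y : ℝ) ^ (1 / 8 : ℝ)) := by gcongr
    _ = _ := by ring

theorem cnc_not_dvd {a : ℤ} {q n : ℕ} (hq : q.Prime) (hn : n.Prime) (h1 : q ∣ n - 1)
    (h2 : ((a : ℤ) : ZMod n) ^ ((n - 1) / q) = 1) : ¬ (n : ℤ) ∣ q * a := by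
  intro h
  have := Fact.mk hn
  have hn2 := hn.two_le
  rcases (Nat.prime_iff_prime_int.1 hn).dvd_or_dvd h with h | h
  · have h3 : n = q := (Nat.prime_dvd_prime_iff_eq hn hq).1 (Int.natCast_dvd_natCast.1 h)
    have h4 := Nat.le_of_dvd (by omega) h1
    omega
  · have h3 : 0 < (n - 1) / q := Nat.div_pos (Nat.le_of_dvd (by omega) h1) hq.pos
    rw [(ZMod.intCast_zmod_eq_zero_iff_dvd a n).2 h, zero_pow h3.ne'] at h2
    exact zero_ne_one h2

/-- Cnt-c.  pointwise inequality; `lamK_prime`, `roots_pow_one`, `roots_pow_split`, `lamK_le ℚ`, `lamK_nonneg`.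
(A counted prime `n` does not divide `q a`.) -/
theorem point_le {a : ℤ} {q : ℕ} (hq : q.Prime) {K : Type} [Field K] [NumberField K]
    (hK : ∀ p : ℕ, p.Prime → ¬ (p : ℤ) ∣ q * a → aK K p = Nat.card {y : ZMod p // y ^ q = (a : ZMod p)})
    (n : ℕ) :
    (if n.Prime ∧ q ∣ n - 1 ∧ ((a : ℤ) : ZMod n) ^ ((n - 1) / q) = 1 then (q : ℝ) * Real.log n else 0) ≤
      (lamK K n - lamK ℚ n) + (if n ≡ 1 [MOD q] then Λ n else 0) + (if ¬ n.Prime then Λ n else 0) +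
        (if (n : ℤ) ∣ q * a then Λ n else 0) := by
  have hQ : lamK ℚ n ≤ Λ n := by simpa using lamK_le ℚ n
  have hK0 := lamK_nonneg K n
  have hΛ : 0 ≤ Λ n := ArithmeticFunction.vonMangoldt_nonneg
  have i1 : 0 ≤ (if n ≡ 1 [MOD q] then Λ n else 0) := by split_ifs <;> simp [hΛ]
  have i2 : 0 ≤ (if ¬ n.Prime then Λ n else 0) := by split_ifs <;> simp [hΛ]
  have i3 : 0 ≤ (if (n : ℤ) ∣ q * a then Λ n else 0) := by split_ifs <;> simp [hΛ]
  by_cases hn : n.Prime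
  · have hL := ArithmeticFunction.vonMangoldt_apply_prime hn
    have hm : n ≡ 1 [MOD q] ↔ q ∣ n - 1 :=
      ⟨fun h => (Nat.modEq_iff_dvd' hn.one_le).1 h.symm,
        fun h => ((Nat.modEq_iff_dvd' hn.one_le).2 h).symm⟩
    by_cases hc : n.Prime ∧ q ∣ n - 1 ∧ ((a : ℤ) : ZMod n) ^ ((n - 1) / q) = 1
    · have h1 : (q : ℝ) ≤ aK K n := by
        rw [hK n hn (cnc_not_dvd hq hn hc.2.1 hc.2.2)]
        exact_mod_cast roots_pow_split hn hq hc.2.1 hc.2.2
      have h2 := mul_le_mul_of_nonneg_right h1 hΛ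
      rw [if_pos hc, if_pos (hm.2 hc.2.1), lamK_prime K hn, ← hL]
      linarith
    · rw [if_neg hc]
      by_cases hd : (n : ℤ) ∣ q * a
      · rw [if_pos hd]
        linarith
      · by_cases hq1 : q ∣ n - 1
        · rw [if_pos (hm.2 hq1)]
          linarith
        · have h1 : (1 : ℝ) ≤ aK K n := by
            rw [hK n hn hd]
            exact_mod_cast roots_pow_one hn hq hq1 _
          have h2 := mul_le_mul_of_nonneg_right h1 hΛ
          rw [lamK_prime K hn, ← hL]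
          linarith
  · rw [if_neg (fun h => hn h.1), if_pos hn]
    linarith

end Crest.Agent.R27.Ku
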