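import Crest.Agent.R27.Ku.Gauss

/-! Row 27, block Ku (owner helper94): theta series of a lattice, pointwise facts. -/

set_option autoImplicit false

namespace Crest.Agent.R27.Ku

open NumberField MeasureTheory Finset
open scoped Classical Real

variable {ι κ : Type} [Fintype ι] [DecidableEq ι] [Fintype κ]

theorem cra_lat (A : Matrix ι ι ℝ) (y : ι → ℝ) (m : ι → ℤ) (i : ι) :
    lat (Matrix.diagonal y * A) m i = y i * lat A m i := by
  unfold lat
  rw [← Matrix.mulVec_mulVec, Matrix.mulVec_diagonal]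

/-- Core-a.  `summable_gauss` for `Matrix.diagonal y * A` -/
theorem gs_summable {A : Matrix ι ι ℝ} (hA : A.det ≠ 0) {l : ℝ} (hl : 0 < l) {y : ι → ℝ}
    (hy : ∀ i, 0 < y i) : Summable fun m : ι → ℤ =>
      if m = 0 then (0 : ℝ) else Real.exp (-(l * ∑ i, (y i * lat A m i) ^ 2)) := by
  have hd : (Matrix.diagonal y * A).det ≠ 0 := by
    rw [Matrix.det_mul, Matrix.det_diagonal]
    exact mul_ne_zero (Finset.prod_ne_zero_iff.2 fun i _ => (hy i).ne') hA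
  have h := summable_gauss hd hl
  simp only [cra_lat] at h
  refine Summable.of_nonneg_of_le (fun m => ?_) (fun m => ?_) h
  · split_ifs
    · exact le_rfl
    · exact (Real.exp_pos _).le
  · split_ifs
    · exact (Real.exp_pos _).le
    · exact le_rfl

/-- Core-a -/
theorem gs_nonneg (A : Matrix ι ι ℝ) (l : ℝ) (y : ι → ℝ) : 0 ≤ gs A l y := by
  unfold gs
  refine tsum_nonneg fun m => ?_
  split_ifs
  · exact le_rfl
  · exact (Real.exp_pos _).le

/-- Core-a -/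
theorem gs_anti {A : Matrix ι ι ℝ} (hA : A.det ≠ 0) {l : ℝ} (hl : 0 < l) {y y' : ι → ℝ}
    (hy : ∀ i, 0 < y i) (h : ∀ i, y i ≤ y' i) : gs A l y' ≤ gs A l y := by
  unfold gs
  refine Summable.tsum_le_tsum (fun m => ?_)
    (gs_summable hA hl fun i => lt_of_lt_of_le (hy i) (h i)) (gs_summable hA hl hy)
  split_ifs
  · exact le_rfl
  · refine Real.exp_le_exp.2 (neg_le_neg (mul_le_mul_of_nonneg_left ?_ hl.le))
    refine Finset.sum_le_sum fun i _ => ?_
    rw [mul_pow, mul_pow]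
    exact mul_le_mul_of_nonneg_right (pow_le_pow_left₀ (hy i).le (h i) 2) (sq_nonneg _)

/-- Core-a -/
theorem gs_scale {A : Matrix ι ι ℝ} (hA : A.det ≠ 0) {l : ℝ} (hl : 0 < l) {y : ι → ℝ}
    (hy : ∀ i, 0 < y i) {ρ r : ℝ} (hρ : ∀ m : ι → ℤ, m ≠ 0 → ρ ≤ ∑ i, (y i * lat A m i) ^ 2)
    (hr : 1 ≤ r) : gs A l (fun i => r * y i) ≤ gs A l y * Real.exp (-(l * ρ * (r ^ 2 - 1))) := by
  unfold gs
  rw [← tsum_mul_right]
  refine Summable.tsum_le_tsum (fun m => ?_)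
    (gs_summable hA hl fun i => mul_pos (by linarith) (hy i))
    ((gs_summable hA hl hy).mul_right _)
  split_ifs with hm
  · simp
  · rw [← Real.exp_add]
    refine Real.exp_le_exp.2 ?_
    have e : ∑ i, (r * y i * lat A m i) ^ 2 = r ^ 2 * ∑ i, (y i * lat A m i) ^ 2 := by
      rw [Finset.mul_sum]
      exact Finset.sum_congr rfl fun i _ => by ring
    rw [e]
    have h1 := hρ m hm
    have h2 : 0 ≤ r ^ 2 - 1 := by nlinarith
    have h3 := mul_le_mul_of_nonneg_left (mul_le_mul_of_nonneg_right h1 h2) hl.le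
    nlinarith

omit [DecidableEq ι] in
/-- Core-a -/
theorem yv_pos (l : κ → ι → ℝ) {t : ℝ} (ht : 0 < t) (c : κ → ℝ) (i : ι) : 0 < yv l t c i := by
  unfold yv
  exact mul_pos (Real.rpow_pos_of_pos ht _) (Real.exp_pos _)

omit [DecidableEq ι] in
/-- Core-a -/
theorem yv_mul (l : κ → ι → ℝ) {t u : ℝ} (ht : 0 ≤ t) (hu : 0 ≤ u) (c : κ → ℝ) (i : ι) :
    yv l (t * u) c i = t ^ (1 / (Fintype.card ι : ℝ)) * yv l u c i := by
  unfold yv
  rw [Real.mul_rpow ht hu, mul_assoc]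

omit [DecidableEq ι] in
/-- Core-a -/
theorem prod_yv {l : κ → ι → ℝ} (hι : 0 < Fintype.card ι) (hl : ∀ j, ∑ i, l j i = 0) {t : ℝ}
    (ht : 0 < t) (c : κ → ℝ) : ∏ i, yv l t c i = t := by
  unfold yv
  rw [Finset.prod_mul_distrib, Finset.prod_const, Finset.card_univ, ← Real.exp_sum, Finset.sum_comm]
  have h1 : ∑ j, ∑ i, c j * l j i = 0 := by
    refine Finset.sum_eq_zero fun j _ => ?_
    rw [← Finset.mul_sum, hl j, mul_zero]
  have h2 : (Fintype.card ι : ℝ) ≠ 0 := by exact_mod_cast hι.ne'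
  rw [h1, Real.exp_zero, mul_one, ← Real.rpow_natCast, ← Real.rpow_mul ht.le,
    one_div_mul_cancel h2, Real.rpow_one]

omit [DecidableEq ι] in
/-- Core-a.  e.g. `δ = exp (-∑ j, ∑ i, |l j i|)` -/
theorem yv_cube (l : κ → ι → ℝ) : ∃ δ : ℝ, 0 < δ ∧ ∀ c ∈ Set.Icc (0 : κ → ℝ) 1, ∀ i,
    δ ≤ yv l 1 c i ∧ δ ≤ (yv l 1 c i)⁻¹ := by
  refine ⟨Real.exp (-∑ j, ∑ i, |l j i|), Real.exp_pos _, fun c hc i => ?_⟩
  have h1 : |∑ j, c j * l j i| ≤ ∑ j, ∑ i, |l j i| := by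
    refine (Finset.abs_sum_le_sum_abs _ _).trans (Finset.sum_le_sum fun j _ => ?_)
    have h2 : |c j| ≤ 1 := abs_le.2 ⟨by linarith [show (0 : ℝ) ≤ c j from hc.1 j], hc.2 j⟩
    rw [abs_mul]
    refine (mul_le_of_le_one_left (abs_nonneg _) h2).trans ?_
    exact Finset.single_le_sum (f := fun i => |l j i|) (fun i _ => abs_nonneg _) (Finset.mem_univ i)
  unfold yv
  rw [Real.one_rpow, one_mul, ← Real.exp_neg (∑ j, c j * l j i)]
  have h3 := abs_le.1 h1
  exact ⟨Real.exp_le_exp.2 h3.1, Real.exp_le_exp.2 (neg_le_neg h3.2)⟩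

/-- Core-a -/
theorem Dat.detA (D : Dat ι κ) : D.A.det ≠ 0 := by
  intro h
  have := D.hdet
  rw [h, abs_zero] at this
  exact zero_ne_one this

/-- Core-a -/
theorem Dat.detB (D : Dat ι κ) : D.B.det ≠ 0 := by
  intro h
  have := congrArg Matrix.det D.hAB
  rw [Matrix.det_mul, h, mul_zero, Matrix.det_one] at this
  exact zero_ne_one this

theorem coreb_sum (D : Dat ι κ) {y : ι → ℝ} (hy : ∀ i, 0 < y i) :
    Summable fun m : ι → ℤ => Real.exp (-(π / 2 * ∑ i, (y i * lat D.A m i) ^ 2)) := by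
  refine (gs_summable D.detA (l := π / 2) (by positivity) hy).congr_cofinite ?_
  filter_upwards [Filter.eventually_cofinite_ne 0] with m hm
  rw [if_neg hm]

theorem coreb_le (D : Dat ι κ) (S : Finset ι) {ψ : (ι → ℤ) → ℂ} (hψ : ∀ m, ‖ψ m‖ ≤ 1) (y : ι → ℝ)
    (m : ι → ℤ) : ‖ψ m * ((fS S fun i => y i * lat D.A m i : ℝ) : ℂ)‖ ≤
      Real.exp (-(π / 2 * ∑ i, (y i * lat D.A m i) ^ 2)) := by
  rw [norm_mul, Complex.norm_real]
  exact (mul_le_of_le_one_left (norm_nonneg _) (hψ m)).trans (fS_le S _)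

/-- Core-b.  `fS_le`, `gs_summable` -/
theorem th_summable (D : Dat ι κ) (S : Finset ι) {ψ : (ι → ℤ) → ℂ} (hψ : ∀ m, ‖ψ m‖ ≤ 1) {t : ℝ}
    (ht : 0 < t) (c : κ → ℝ) : Summable fun m : ι → ℤ =>
      ψ m * ((fS S fun i => yv D.l t c i * lat D.A m i : ℝ) : ℂ) := by
  exact Summable.of_norm_bounded (coreb_sum D (yv_pos D.l ht c)) fun m => coreb_le D S hψ _ m

/-- Core-b.  Near a point `yv ≥ δ > 0`; `continuousOn_tsum` with majorant `exp (-π δ² / 2 ∑ (lat A m i)²)` -/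
theorem th_cont (D : Dat ι κ) (S : Finset ι) {ψ : (ι → ℤ) → ℂ} (hψ : ∀ m, ‖ψ m‖ ≤ 1) :
    ContinuousOn (fun p : ℝ × (κ → ℝ) => th D S ψ p.1 p.2) (Set.Ioi 0 ×ˢ Set.univ) := by
  have hc : ∀ i, Continuous fun p : ℝ × (κ → ℝ) => yv D.l p.1 p.2 i := fun i =>
    ((Real.continuous_rpow_const (by positivity)).comp continuous_fst).mul (by fun_prop)
  refine continuousOn_of_locally_continuousOn fun p hp => ?_
  have hy := yv_pos D.l (show 0 < p.1 from hp.1) p.2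
  have hy' : ∀ i, 0 < yv D.l p.1 p.2 i / 2 := fun i => half_pos (hy i)
  refine ⟨⋂ i, {q | yv D.l p.1 p.2 i / 2 < yv D.l q.1 q.2 i},
    isOpen_iInter_of_finite fun i => isOpen_lt continuous_const (hc i),
    Set.mem_iInter.2 fun i => half_lt_self (hy i), ?_⟩
  refine continuousOn_tsum (fun m => Continuous.continuousOn ?_) (coreb_sum D hy') fun m q hq => ?_
  · exact continuous_const.mul (Complex.continuous_ofReal.comp ((continuous_fS S).comp
      (continuous_pi fun i => (hc i).mul continuous_const)))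
  · refine (coreb_le D S hψ _ m).trans (Real.exp_le_exp.2 (neg_le_neg (mul_le_mul_of_nonneg_left
      (sum_le_sum fun i _ => ?_) (by positivity))))
    rw [mul_pow, mul_pow]
    exact mul_le_mul_of_nonneg_right (pow_le_pow_left₀ (hy' i).le (Set.mem_iInter.1 hq.2 i).le 2)
      (sq_nonneg _)

/-- Core-b.  `th_cont` and compactness of the cube (`continuousOn_integral_of_compact_support`-like lemmas, or
`continuous_parametric_integral_of_continuous` after the substitution `t = exp u`) -/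
theorem thA_cont (D : Dat ι κ) (S : Finset ι) {ψ : (ι → ℤ) → ℂ} (hψ : ∀ m, ‖ψ m‖ ≤ 1) :
    ContinuousOn (thA D S ψ) (Set.Ioi 0) := by
  have := (isOpen_Ioi (a := (0 : ℝ))).locallyCompactSpace
  rw [continuousOn_iff_continuous_domRestrict]
  refine continuous_parametric_integral_of_continuous
    (f := fun (t : Set.Ioi (0 : ℝ)) (c : κ → ℝ) => th D S ψ t c) ?_ isCompact_Icc
  exact (th_cont D S hψ).comp_continuous (f := fun p : Set.Ioi (0 : ℝ) × (κ → ℝ) => ((p.1 : ℝ), p.2))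
    (by fun_prop) fun p => ⟨p.1.2, trivial⟩

/-- Core-b.  `Summable.tsum_eq_add_tsum_ite` at `m = 0` -/
theorem th_sub_le (D : Dat ι κ) (S : Finset ι) {ψ : (ι → ℤ) → ℂ} (hψ : ∀ m, ‖ψ m‖ ≤ 1) {t : ℝ}
    (ht : 0 < t) (c : κ → ℝ) :
    ‖th D S ψ t c - ψ 0 * ((fS S 0 : ℝ) : ℂ)‖ ≤ gs D.A (π / 2) (yv D.l t c) := by
  have e : (fun i => yv D.l t c i * lat D.A 0 i) = 0 := by
    funext i
    simp [lat, Matrix.mulVec, dotProduct]
  rw [th, (th_summable D S hψ ht c).tsum_eq_add_tsum_ite 0, e, add_sub_cancel_left]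
  refine tsum_of_norm_bounded (gs_summable D.detA (by positivity) (yv_pos D.l ht c)).hasSum fun m => ?_
  split_ifs
  · rw [norm_zero]
  · exact coreb_le D S hψ _ m

theorem cc_pois (D : Dat ι κ) (S : Finset ι) {y : ι → ℝ} (hy : ∀ i, 0 < y i) {r : ℝ} (hr : 0 < r)
    (v : ι → ℝ) :
    ∑' m : ι → ℤ, ((fS S (fun i => y i * D.A.mulVec (fun j => r * ((m j : ℝ) + v j)) i) : ℝ) : ℂ) =
      (((r ^ Fintype.card ι * ∏ i, y i)⁻¹ : ℝ) : ℂ) * ∑' k : ι → ℤ, (-Complex.I) ^ S.card *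
        Complex.exp (2 * π * Complex.I * ((∑ i, (k i : ℝ) * v i : ℝ) : ℂ)) *
          ((fS S (fun i => r⁻¹ * ((y i)⁻¹ * lat D.B k i)) : ℝ) : ℂ) := by
  have hAB : (r • (Matrix.diagonal y * D.A)).transpose *
      (r⁻¹ • (Matrix.diagonal (fun i => (y i)⁻¹) * D.B)) = 1 := by
    rw [Matrix.transpose_smul, Matrix.smul_mul, Matrix.mul_smul, smul_smul, mul_inv_cancel₀ hr.ne',
      one_smul, Matrix.transpose_mul, Matrix.diagonal_transpose, Matrix.mul_assoc,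
      ← Matrix.mul_assoc (Matrix.diagonal y), Matrix.diagonal_mul_diagonal]
    have : (Matrix.diagonal fun i => y i * (y i)⁻¹) = (1 : Matrix ι ι ℝ) := by
      rw [← Matrix.diagonal_one]
      congr 1
      funext i
      exact mul_inv_cancel₀ (hy i).ne'
    rw [this, Matrix.one_mul, D.hAB]
  have hdet : |(r • (Matrix.diagonal y * D.A)).det| = r ^ Fintype.card ι * ∏ i, y i := by
    rw [Matrix.det_smul, Matrix.det_mul, Matrix.det_diagonal, abs_mul, abs_mul, D.hdet, mul_one,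
      abs_of_pos (pow_pos hr _), abs_of_pos (prod_pos fun i _ => hy i)]
  have h := gauss_pois hAB S v
  rw [hdet] at h
  convert h using 5 with m k
  · funext i
    have e : (fun j => r * ((m j : ℝ) + v j)) = r • ((fun j => (m j : ℝ)) + v) := rfl
    rw [e, Matrix.mulVec_smul, Matrix.smul_mulVec, ← Matrix.mulVec_mulVec, Pi.smul_apply,
      Pi.smul_apply, Matrix.mulVec_diagonal, smul_eq_mul, smul_eq_mul]
    ring
  · congr 2
    funext i
    simp only [lat]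
    rw [Matrix.smul_mulVec, ← Matrix.mulVec_mulVec, Pi.smul_apply, Matrix.mulVec_diagonal,
      smul_eq_mul]

theorem cc_split {M : ℕ} [NeZero M] {f : (ι → ℤ) → ℂ} (hf : Summable f) :
    ∑' m, f m = ∑ v : ι → Fin M, ∑' k : ι → ℤ, f (fun i => ((v i : ℕ) : ℤ) + (M : ℤ) * k i) := by
  let e : (ι → Fin M) × (ι → ℤ) ≃ (ι → ℤ) :=
    (Equiv.prodComm _ _).trans ((Equiv.arrowProdEquivProdArrow ι (fun _ => ℤ) fun _ => Fin M).symm.trans
      (Equiv.piCongrRight fun _ => (Int.divModEquiv M).symm))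
  have he : ∀ v k, e (v, k) = fun i => ((v i : ℕ) : ℤ) + (M : ℤ) * k i := by
    intro v k
    funext i
    show k i * (M : ℤ) + ((v i : ℕ) : ℤ) = _
    ring
  have hs : Summable fun p => f (e p) := e.summable_iff.2 hf
  rw [← e.tsum_eq, hs.tsum_prod, tsum_fintype]
  simp only [he]

theorem cc_tail (D : Dat ι κ) (S : Finset ι) {y : ι → ℝ} (hy : ∀ i, 0 < y i) {r : ℝ} (hr : 0 < r)
    (v : ι → ℝ) :
    ‖(∑' k : ι → ℤ, (-Complex.I) ^ S.card *
        Complex.exp (2 * π * Complex.I * ((∑ i, (k i : ℝ) * v i : ℝ) : ℂ)) *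
          ((fS S (fun i => r⁻¹ * ((y i)⁻¹ * lat D.B k i)) : ℝ) : ℂ)) -
      (-Complex.I) ^ S.card * ((fS S 0 : ℝ) : ℂ)‖ ≤ gs D.B (π / 2 / r ^ 2) fun i => (y i)⁻¹ := by
  set T : (ι → ℤ) → ℂ := fun k => (-Complex.I) ^ S.card *
        Complex.exp (2 * π * Complex.I * ((∑ i, (k i : ℝ) * v i : ℝ) : ℂ)) *
          ((fS S (fun i => r⁻¹ * ((y i)⁻¹ * lat D.B k i)) : ℝ) : ℂ) with hT
  have hl : 0 < π / 2 / r ^ 2 := by positivity
  have hs := gs_summable D.detB hl (y := fun i => (y i)⁻¹) fun i => inv_pos.2 (hy i)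
  have hb : ∀ k : ι → ℤ, ‖if k = 0 then 0 else T k‖ ≤ if k = 0 then (0 : ℝ) else
      Real.exp (-(π / 2 / r ^ 2 * ∑ i, ((y i)⁻¹ * lat D.B k i) ^ 2)) := by
    intro k
    split_ifs
    · simp
    · have e1 : ‖Complex.exp (2 * π * Complex.I * ((∑ i, (k i : ℝ) * v i : ℝ) : ℂ))‖ = 1 := by
        rw [← Complex.norm_exp_ofReal_mul_I (2 * π * ∑ i, (k i : ℝ) * v i)]
        congr 2
        push_cast
        ring
      rw [hT]
      simp only [norm_mul, norm_pow, norm_neg, Complex.norm_I, one_pow, one_mul, e1,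
        Complex.norm_real, Real.norm_eq_abs]
      refine (fS_le _ _).trans (le_of_eq ?_)
      congr 2
      rw [mul_sum, mul_sum]
      refine sum_congr rfl fun i _ => ?_
      field_simp
  have hs' : Summable fun k : ι → ℤ => if k = 0 then 0 else T k := hs.of_norm_bounded hb
  have hT0 : T 0 = (-Complex.I) ^ S.card * ((fS S 0 : ℝ) : ℂ) := by
    have : (fun i => r⁻¹ * ((y i)⁻¹ * lat D.B 0 i)) = 0 := by
      funext i
      simp [lat, Matrix.mulVec, dotProduct]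
    simp [hT, this]
  have hsT : Summable T := by
    refine (hs'.add (hasSum_ite_eq (0 : ι → ℤ) (T 0)).summable).congr fun k => ?_
    split_ifs with hk
    · rw [hk, zero_add]
    · rw [add_zero]
  rw [hsT.tsum_eq_add_tsum_ite 0, hT0, add_sub_cancel_left]
  exact tsum_of_norm_bounded hs.hasSum hb

theorem cc_one {A : Matrix ι ι ℝ} (hA : A.det ≠ 0) {y : ι → ℝ} (hy : ∀ i, 0 < y i) :
    ∑' m : ι → ℤ, ((fS ∅ (fun i => y i * lat A m i) : ℝ) : ℂ) = 1 + ((gs A π y : ℝ) : ℂ) := by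
  have hs := gs_summable hA Real.pi_pos hy
  have h := (hasSum_ite_eq (0 : ι → ℤ) (1 : ℝ)).add hs.hasSum
  rw [← Complex.ofReal_tsum, ← Complex.ofReal_one, ← Complex.ofReal_add, gs, ← h.tsum_eq]
  congr 2
  funext m
  split_ifs with hm
  · simp [hm, fS, lat, Matrix.mulVec, dotProduct]
  · simp [fS]

/-- Core-c.  Split `m = M k + v`, `v : ι → Fin M`; `gauss_pois` with `A' = M • diagonal y * A`,
`B' = M⁻¹ • diagonal y⁻¹ * B`, shift `v / M`, `|det A'| = M ^ card ι * t` (`prod_yv`);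
`g₀ = M ^ (-card ι) ∑_v ψ v (-I) ^ card S * fS S 0`; `fS_le` for `k ≠ 0`. -/
theorem th_pois (D : Dat ι κ) (S : Finset ι) {ψ : (ι → ℤ) → ℂ} (hψ : ∀ m, ‖ψ m‖ ≤ 1) {M : ℕ}
    (hM : 1 ≤ M) (hper : ∀ m k : ι → ℤ, ψ (m + (M : ℤ) • k) = ψ m) : ∃ g₀ : ℂ, ∀ t : ℝ, 0 < t →
      ∀ c : κ → ℝ, ‖(t : ℂ) * th D S ψ t c - g₀‖ ≤
        gs D.B (π / 2 / (M : ℝ) ^ 2) fun i => (yv D.l t c i)⁻¹ := by
  have : NeZero M := ⟨by omega⟩
  have hM0 : (0 : ℝ) < M := by exact_mod_cast hM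
  refine ⟨∑ v : ι → Fin M, ψ (fun i => ((v i : ℕ) : ℤ)) * (((((M : ℝ) ^ Fintype.card ι)⁻¹ : ℝ) : ℂ) *
    ((-Complex.I) ^ S.card * ((fS S 0 : ℝ) : ℂ))), fun t ht c => ?_⟩
  have hy := yv_pos D.l ht c
  have hMp : 0 < (M : ℝ) ^ Fintype.card ι := pow_pos hM0 _
  rw [th, cc_split (M := M) (th_summable D S hψ ht c), mul_sum, ← sum_sub_distrib]
  refine (norm_sum_le_of_le _ (n := fun _ => ((M : ℝ) ^ Fintype.card ι)⁻¹ *
    gs D.B (π / 2 / (M : ℝ) ^ 2) fun i => (yv D.l t c i)⁻¹) fun v _ => ?_).trans (le_of_eq ?_)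
  · have h1 := cc_pois D S hy hM0 fun i => ((v i : ℕ) : ℝ) / M
    have h2 := cc_tail D S hy hM0 fun i => ((v i : ℕ) : ℝ) / M
    rw [prod_yv D.hι D.hl ht] at h1
    have e : ∀ k : ι → ℤ, ψ (fun i => ((v i : ℕ) : ℤ) + (M : ℤ) * k i) *
        ((fS S fun i => yv D.l t c i * lat D.A (fun i => ((v i : ℕ) : ℤ) + (M : ℤ) * k i) i : ℝ) : ℂ) =
        ψ (fun i => ((v i : ℕ) : ℤ)) * ((fS S (fun i => yv D.l t c i *
          D.A.mulVec (fun j => (M : ℝ) * ((k j : ℝ) + ((v j : ℕ) : ℝ) / M)) i) : ℝ) : ℂ) := by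
      intro k
      rw [← hper (fun i => ((v i : ℕ) : ℤ)) k]
      congr 3
      funext i
      simp only [lat]
      congr 2
      funext j
      push_cast
      field_simp
      ring
    rw [tsum_congr e, tsum_mul_left, h1]
    set G := ∑' k : ι → ℤ, (-Complex.I) ^ S.card *
        Complex.exp (2 * π * Complex.I * ((∑ i, (k i : ℝ) * (((v i : ℕ) : ℝ) / M) : ℝ) : ℂ)) *
          ((fS S (fun i => (M : ℝ)⁻¹ * ((yv D.l t c i)⁻¹ * lat D.B k i)) : ℝ) : ℂ) with hG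
    set g := (-Complex.I) ^ S.card * ((fS S 0 : ℝ) : ℂ) with hg
    have e2 : (t : ℂ) * (ψ (fun i => ((v i : ℕ) : ℤ)) *
        (((((M : ℝ) ^ Fintype.card ι * t)⁻¹ : ℝ) : ℂ) * G)) -
        ψ (fun i => ((v i : ℕ) : ℤ)) * (((((M : ℝ) ^ Fintype.card ι)⁻¹ : ℝ) : ℂ) * g) =
        ψ (fun i => ((v i : ℕ) : ℤ)) * (((((M : ℝ) ^ Fintype.card ι)⁻¹ : ℝ) : ℂ) * (G - g)) := by
      have ht' : (t : ℂ) ≠ 0 := by exact_mod_cast ht.ne'
      push_cast
      field_simp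
    rw [e2, norm_mul, norm_mul, Complex.norm_real, Real.norm_eq_abs, abs_of_pos (inv_pos.2 hMp)]
    calc _ ≤ 1 * (((M : ℝ) ^ Fintype.card ι)⁻¹ * ‖G - g‖) :=
          mul_le_mul_of_nonneg_right (hψ _) (by positivity)
      _ ≤ _ := by rw [one_mul]; exact mul_le_mul_of_nonneg_left h2 (by positivity)
  · rw [sum_const, card_univ, Fintype.card_fun, Fintype.card_fin, nsmul_eq_mul, Nat.cast_pow,
      mul_inv_cancel_left₀ hMp.ne']

/-- Core-c.  The untwisted series and its inversion formula (`gauss_pois` with `v = 0`) -/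
theorem th_one (D : Dat ι κ) {t : ℝ} (ht : 0 < t) (c : κ → ℝ) :
    th D ∅ (fun _ => 1) t c = 1 + ((gs D.A π (yv D.l t c) : ℝ) : ℂ) ∧
      (t : ℂ) * th D ∅ (fun _ => 1) t c = 1 + ((gs D.B π fun i => (yv D.l t c i)⁻¹ : ℝ) : ℂ) := by
  have hy := yv_pos D.l ht c
  simp only [th, one_mul]
  refine ⟨cc_one D.detA hy, ?_⟩
  have h1 := cc_pois D ∅ hy one_pos 0
  rw [prod_yv D.hι D.hl ht] at h1
  simp only [Pi.zero_apply, add_zero, one_mul, mul_zero, sum_const_zero, card_empty, pow_zero,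
    Complex.ofReal_zero, Complex.exp_zero, inv_one, one_pow] at h1
  have ht' : (t : ℂ) ≠ 0 := by exact_mod_cast ht.ne'
  rw [← cc_one D.detB fun i => inv_pos.2 (hy i)]
  simp only [lat]
  simp only [lat] at h1
  rw [h1, Complex.ofReal_inv, mul_inv_cancel_left₀ ht']

end Crest.Agent.R27.Ku
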