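import Mathlib

/-!
# Row 27, block Ku (owner helper94): definitions.  DO NOT EDIT without telling helper94.

`StZFK` (zero-free half plane for `ζ_F`, `ω ∈ F`) implies `StKum`.  Plan: Gaussian Poisson summation on `ℤ^ι`,
Hecke's theta integral for a number field `K` (continuation of `(s-1) ∑ χ(N I) N I^(-s)`, uniform bound for
`χ = 1`), `ζ_F = ζ_{F₀} L(χ₃ ∘ N) exp(E)`, Borel–Carathéodory, Perron.
-/

set_option autoImplicit false

namespace Crest.Agent.R27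

open NumberField MeasureTheory Finset
open scoped Classical Real

/-- a zero-free half plane for the Dedekind zeta function of every number field containing a primitive cube
root of unity: `1 / ζ_F` continues holomorphically to `re s > θ` -/
def StZFK : Prop := ∃ θ : ℝ, θ < 1 ∧ ∀ (F : Type) [Field F] [NumberField F],
  (∃ ω : F, ω ^ 2 + ω + 1 = 0) → ∃ G : ℂ → ℂ, DifferentiableOn ℂ G {s | θ < s.re} ∧
    ∀ s : ℂ, 1 < s.re → G s * dedekindZeta F s = 1

namespace Ku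

noncomputable section

/-! ## Gaussians on `ι → ℝ` -/

section Gauss
variable {ι κ : Type} [Fintype ι] [Fintype κ]

/-- Fourier transform on `ι → ℝ` -/
def ft (f : (ι → ℝ) → ℂ) (ξ : ι → ℝ) : ℂ :=
  ∫ x : ι → ℝ, f x * Complex.exp (-(2 * π * Complex.I * ((∑ i, ξ i * x i : ℝ) : ℂ)))

/-- the Gaussian, times the coordinates in `S` -/
def fS (S : Finset ι) (x : ι → ℝ) : ℝ := (∏ i ∈ S, x i) * Real.exp (-(π * ∑ i, x i ^ 2))

/-- the lattice point `A m` -/
def lat (A : Matrix ι ι ℝ) (m : ι → ℤ) : ι → ℝ := A.mulVec fun i => (m i : ℝ)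

/-- Gaussian sum over the nonzero points of the lattice `diag(y) A ℤ^ι` -/
def gs (A : Matrix ι ι ℝ) (l : ℝ) (y : ι → ℝ) : ℝ :=
  ∑' m : ι → ℤ, if m = 0 then 0 else Real.exp (-(l * ∑ i, (y i * lat A m i) ^ 2))

/-- the point of the torus with product `t` and unit coordinates `c` -/
def yv (l : κ → ι → ℝ) (t : ℝ) (c : κ → ℝ) (i : ι) : ℝ :=
  t ^ (1 / (Fintype.card ι : ℝ)) * Real.exp (∑ j, c j * l j i)

/-- the test function integrated over the norm `t` hypersurface -/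
def phb (l : κ → ι → ℝ) (S : Finset ι) (t : ℝ) : ℝ := ∫ c : κ → ℝ, fS S (yv l t c)

end Gauss

/-- a unimodular lattice, its dual, and directions `l j` along which no vector becomes short -/
structure Dat (ι κ : Type) [Fintype ι] [DecidableEq ι] [Fintype κ] where
  A : Matrix ι ι ℝ
  B : Matrix ι ι ℝ
  l : κ → ι → ℝ
  ρ : ℝ
  ρ' : ℝ
  hι : 0 < Fintype.card ι
  hAB : A.transpose * B = 1
  hdet : |A.det| = 1
  hl : ∀ j, ∑ i, l j i = 0
  hρ : 0 < ρ
  hρ' : 0 < ρ'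
  hA : ∀ (c : κ → ℝ) (m : ι → ℤ), m ≠ 0 → ρ ≤ ∑ i, (yv l 1 c i * lat A m i) ^ 2
  hB : ∀ (c : κ → ℝ) (m : ι → ℤ), m ≠ 0 → ρ' ≤ ∑ i, ((yv l 1 c i)⁻¹ * lat B m i) ^ 2

section Theta
variable {ι κ : Type} [Fintype ι] [DecidableEq ι] [Fintype κ]

/-- the theta series -/
def th (D : Dat ι κ) (S : Finset ι) (ψ : (ι → ℤ) → ℂ) (t : ℝ) (c : κ → ℝ) : ℂ :=
  ∑' m : ι → ℤ, ψ m * ((fS S fun i => yv D.l t c i * lat D.A m i : ℝ) : ℂ)

/-- the theta series averaged over the unit cube -/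
def thA (D : Dat ι κ) (S : Finset ι) (ψ : (ι → ℤ) → ℂ) (t : ℝ) : ℂ :=
  ∫ c in Set.Icc (0 : κ → ℝ) 1, th D S ψ t c

end Theta

/-! ## Number fields -/

/-- real coordinate of a complex number: `hc z ^ 2 + hc (conj z) ^ 2 = 2 ‖z‖ ^ 2` -/
def hc (z : ℂ) : ℝ := z.re + z.im

section NF
variable (K : Type) [Field K] [NumberField K]

/-- number of ideals of norm `n` -/
def aK (n : ℕ) : ℕ := Nat.card {I : Ideal (𝓞 K) // Ideal.absNorm I = n}

/-- von Mangoldt function of an ideal: `log N P` if `I = P ^ k`, `k ≥ 1` -/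
def lamI (I : Ideal (𝓞 K)) : ℝ := if IsPrimePow I then Real.log (Ideal.absNorm I.radical) else 0

/-- von Mangoldt function of the field -/
def lamK (n : ℕ) : ℝ := ∑ᶠ I ∈ {I : Ideal (𝓞 K) | Ideal.absNorm I = n}, lamI K I

/-- logarithms of the fundamental units at the complex embeddings -/
def ellK (j : Fin (Units.rank K)) (φ : K →+* ℂ) : ℝ :=
  Real.log ‖φ ((Units.fundSystem K j : 𝓞 K) : K)‖

/-- the real embeddings if `e`, otherwise nothing -/
def Sg (e : Bool) : Finset (K →+* ℂ) :=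
  if e then univ.filter fun φ => ComplexEmbedding.IsReal φ else ∅

/-- nonzero principal ideals contained in `𝔟` -/
def PP (𝔟 : Ideal (𝓞 K)) : Type := {P : Ideal (𝓞 K) // P ≠ ⊥ ∧ P.IsPrincipal ∧ P ≤ 𝔟}

/-- `D` is the normalised lattice of the ideal `𝔟` with basis `b`, `V` its covolume -/
structure IsDat (𝔟 : Ideal (𝓞 K)) (b : Module.Basis (K →+* ℂ) ℤ 𝔟)
    (D : Dat (K →+* ℂ) (Fin (Units.rank K))) (V : ℝ) : Prop where
  hV : V = Ideal.absNorm 𝔟 * Real.sqrt |(discr K : ℝ)|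
  hA : ∀ φ i, D.A φ i = V ^ (-(1 / (Module.finrank ℚ K : ℝ))) * hc (φ (((b i : 𝔟) : 𝓞 K) : K))
  hl : D.l = ellK K
  hρ' : D.ρ' = Module.finrank ℚ K * |(discr K : ℝ)| ^ (-(1 / (Module.finrank ℚ K : ℝ)))

variable {K}

/-- the weight `χ (N α)` on coordinates -/
def psi {𝔟 : Ideal (𝓞 K)} (b : Module.Basis (K →+* ℂ) ℤ 𝔟) {M : ℕ} (χ : DirichletCharacter ℂ M)
    (m : (K →+* ℂ) → ℤ) : ℂ :=
  χ ((Algebra.norm ℤ ((∑ i, m i • b i : 𝔟) : 𝓞 K) : ℤ) : ZMod M)

end NF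

end

end Ku

end Crest.Agent.R27
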