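import Crest.Agent.R27.Ku.Core

/-! Row 27, block Ku (owner helper94): an ideal as a lattice in `(K →+* ℂ) → ℝ`. -/

set_option autoImplicit false

namespace Crest.Agent.R27.Ku

open NumberField MeasureTheory Finset
open scoped Classical Real

variable {K : Type} [Field K] [NumberField K]

/-- the sign of the norm if `e`, otherwise `1` -/
noncomputable def sg (e : Bool) (α : K) : ℝ :=
  if e then ((SignType.sign (Algebra.norm ℚ α) : SignType) : ℝ) else 1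

theorem ea_odd {g : (K →+* ℂ) → ℝ} (hg : ∀ φ, g (ComplexEmbedding.conjugate φ) = -g φ) :
    ∑ φ, g φ = 0 := by
  have h := Equiv.sum_comp (ComplexEmbedding.involutive_conjugate K).toPerm g
  simp only [Function.Involutive.coe_toPerm, hg, sum_neg_distrib] at h
  linarith

/-- Emb-a.  `trace_eq_sum_embeddings` (`RingHom.equivRatAlgHom`); the antisymmetric part cancels under the
involution `ComplexEmbedding.conjugate` (`Equiv.sum_comp` / `Function.Involutive.toPerm`) -/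
theorem sum_hc_mul (α β : K) :
    ∑ φ : K →+* ℂ, hc (φ α) * hc (starRingEnd ℂ (φ β)) = ((Algebra.trace ℚ K (α * β) : ℚ) : ℝ) := by
  have h := congrArg Complex.re (trace_eq_sum_embeddings (K := ℚ) (L := K) ℂ (x := α * β))
  rw [eq_ratCast, Complex.ratCast_re, ← Fintype.sum_equiv (RingHom.equivRatAlgHom K ℂ)
    (fun φ => φ (α * β)) (fun φ => φ (α * β)) fun _ => by simp [RingHom.equivRatAlgHom_apply],
    Complex.re_sum] at h
  have h0 := ea_odd (K := K) (g := fun φ => (φ α).im * (φ β).re - (φ α).re * (φ β).im) fun φ => by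
    simp only [ComplexEmbedding.conjugate_coe_eq, Complex.conj_re, Complex.conj_im]
    ring
  rw [h, ← add_zero (∑ φ : K →+* ℂ, (φ (α * β)).re), ← h0, ← sum_add_distrib]
  refine sum_congr rfl fun φ _ => ?_
  simp only [hc, map_mul, Complex.mul_re, Complex.conj_re, Complex.conj_im]
  ring

/-- Emb-a.  `hc z ^ 2 = ‖z‖ ^ 2 + 2 re z im z`, the last term cancels under conjugation -/
theorem sum_hc_sq {y : (K →+* ℂ) → ℝ} (hy : ∀ φ, y (ComplexEmbedding.conjugate φ) = y φ) (α : K) :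
    ∑ φ : K →+* ℂ, (y φ * hc (φ α)) ^ 2 = ∑ φ : K →+* ℂ, (y φ * ‖φ α‖) ^ 2 ∧
    ∑ φ : K →+* ℂ, (y φ * hc (starRingEnd ℂ (φ α))) ^ 2 = ∑ φ : K →+* ℂ, (y φ * ‖φ α‖) ^ 2 := by
  have h0 := ea_odd (K := K) (g := fun φ => y φ ^ 2 * (2 * (φ α).re * (φ α).im)) fun φ => by
    simp only [hy, ComplexEmbedding.conjugate_coe_eq, Complex.conj_re, Complex.conj_im]
    ring
  constructor
  · rw [← add_zero (∑ φ : K →+* ℂ, (y φ * ‖φ α‖) ^ 2), ← h0, ← sum_add_distrib]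
    refine sum_congr rfl fun φ _ => ?_
    simp only [hc, mul_pow, Complex.sq_norm, Complex.normSq_apply]
    ring
  · rw [← sub_zero (∑ φ : K →+* ℂ, (y φ * ‖φ α‖) ^ 2), ← h0, ← sum_sub_distrib]
    refine sum_congr rfl fun φ _ => ?_
    simp only [hc, mul_pow, Complex.sq_norm, Complex.normSq_apply, Complex.conj_re, Complex.conj_im]
    ring

/-- Emb-a.  `Algebra.norm_eq_prod_embeddings` -/
theorem prod_norm_emb (α : K) : ∏ φ : K →+* ℂ, ‖φ α‖ = |((Algebra.norm ℚ α : ℚ) : ℝ)| := by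
  have h := congrArg (‖·‖) (Algebra.norm_eq_prod_embeddings ℚ ℂ α)
  rw [norm_prod, ← Fintype.prod_equiv (RingHom.equivRatAlgHom K ℂ) (fun f => ‖f α‖)
    (fun φ => ‖φ α‖) fun _ => by simp [RingHom.equivRatAlgHom_apply], eq_ratCast,
    ← Complex.ofReal_ratCast, Complex.norm_real, Real.norm_eq_abs] at h
  exact h.symm

/-- Emb-a.  AM–GM (`Real.inner_le_nnorm_mul_nnorm`-free: `Real.geom_mean_le_arith_mean_weighted`),
`Embeddings.card` -/
theorem amgm {y : (K →+* ℂ) → ℝ} (hy : ∀ φ, 0 < y φ) (α : K) :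
    (Module.finrank ℚ K : ℝ) * ((∏ φ, y φ) * |((Algebra.norm ℚ α : ℚ) : ℝ)|) ^
      (2 / (Module.finrank ℚ K : ℝ)) ≤ ∑ φ : K →+* ℂ, (y φ * ‖φ α‖) ^ 2 := by
  have hn : (0 : ℝ) < Module.finrank ℚ K := by exact_mod_cast Module.finrank_pos
  have hz : ∀ φ : K →+* ℂ, 0 ≤ y φ * ‖φ α‖ := fun φ => mul_nonneg (hy φ).le (norm_nonneg _)
  have h := Real.geom_mean_le_arith_mean_weighted univ (fun _ : K →+* ℂ => 1 / (Module.finrank ℚ K : ℝ))
    (fun φ => (y φ * ‖φ α‖) ^ 2) (fun _ _ => by positivity)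
    (by rw [sum_const, card_univ, Embeddings.card, nsmul_eq_mul, mul_one_div_cancel hn.ne'])
    (fun _ _ => sq_nonneg _)
  rw [← mul_sum, one_div_mul_eq_div, le_div_iff₀' hn] at h
  rw [← prod_norm_emb, ← prod_mul_distrib, ← Real.finsetProd_rpow _ _ fun φ _ => hz φ]
  refine le_of_eq_of_le ?_ h
  congr 1
  refine prod_congr rfl fun φ _ => ?_
  rw [← Real.rpow_two, ← Real.rpow_mul (hz φ), mul_one_div]

/-- Emb-a -/
theorem yv_conj (t : ℝ) (c : Fin (Units.rank K) → ℝ) (φ : K →+* ℂ) :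
    yv (ellK K) t c (ComplexEmbedding.conjugate φ) = yv (ellK K) t c φ := by
  simp only [yv, ellK, ComplexEmbedding.conjugate_coe_eq, Complex.norm_conj]

/-- Emb-a.  units have norm `± 1` -/
theorem sum_ellK (j : Fin (Units.rank K)) : ∑ φ, ellK K j φ = 0 := by
  have h := prod_norm_emb (((Units.fundSystem K j : (𝓞 K)ˣ) : 𝓞 K) : K)
  rw [← Rat.cast_abs, Units.norm K (Units.fundSystem K j), Rat.cast_one] at h
  simp only [ellK]
  rw [← Real.log_prod, h, Real.log_one]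
  intro φ hφ h0
  rw [prod_eq_zero hφ h0] at h
  exact zero_ne_one h

omit [NumberField K] in
theorem embb_im {φ : K →+* ℂ} (h : ComplexEmbedding.IsReal φ) (α : K) : (φ α).im = 0 := by
  have h1 : starRingEnd ℂ (φ α) = φ α := by
    rw [← ComplexEmbedding.conjugate_coe_eq, ComplexEmbedding.isReal_iff.1 h]
  exact Complex.conj_eq_iff_im.1 h1

theorem embb_nonreal {α : K} (hα : α ≠ 0) :
    ∏ φ ∈ univ.filter (fun φ : K →+* ℂ => ¬ ComplexEmbedding.IsReal φ), φ α =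
      ((∏ φ ∈ univ.filter (fun φ : K →+* ℂ => ¬ ComplexEmbedding.IsReal φ), ‖φ α‖ : ℝ) : ℂ) := by
  have h0 : ∀ φ : K →+* ℂ, ((‖φ α‖ : ℝ) : ℂ) ≠ 0 := fun φ => by
    simpa using hα
  have h1 : ∏ φ ∈ univ.filter (fun φ : K →+* ℂ => ¬ ComplexEmbedding.IsReal φ),
      φ α / ((‖φ α‖ : ℝ) : ℂ) = 1 := by
    refine prod_involution (fun φ _ => ComplexEmbedding.conjugate φ) (fun φ _ => ?_)
      (fun φ hφ _ h => (mem_filter.1 hφ).2 (ComplexEmbedding.isReal_iff.2 h)) (fun φ hφ => ?_)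
      (fun φ _ => ComplexEmbedding.involutive_conjugate K φ)
    · rw [ComplexEmbedding.conjugate_coe_eq, Complex.norm_conj, div_mul_div_comm, Complex.mul_conj',
        ← sq, div_self (pow_ne_zero _ (h0 φ))]
    · exact mem_filter.2 ⟨mem_univ _, fun h =>
        (mem_filter.1 hφ).2 (ComplexEmbedding.isReal_conjugate_iff.1 h)⟩
  rw [prod_div_distrib, div_eq_one_iff_eq (prod_ne_zero_iff.2 fun φ _ => h0 φ)] at h1
  rw [h1, Complex.ofReal_prod]

theorem embb_norm {α : K} (hα : α ≠ 0) : ((Algebra.norm ℚ α : ℚ) : ℝ) =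
    (∏ φ ∈ univ.filter (fun φ : K →+* ℂ => ComplexEmbedding.IsReal φ), hc (φ α)) *
      ∏ φ ∈ univ.filter (fun φ : K →+* ℂ => ¬ ComplexEmbedding.IsReal φ), ‖φ α‖ := by
  have h1 : ((Algebra.norm ℚ α : ℚ) : ℂ) = ∏ φ : K →+* ℂ, φ α := by
    have := Algebra.norm_eq_prod_embeddings ℚ ℂ α
    rw [eq_ratCast] at this
    rw [this]
    exact (Fintype.prod_equiv (RingHom.equivRatAlgHom K ℂ) _ _ fun φ => rfl).symm
  apply Complex.ofReal_injective
  rw [Complex.ofReal_ratCast, h1, Complex.ofReal_mul, ← embb_nonreal hα,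
    ← prod_filter_mul_prod_filter_not univ (fun φ : K →+* ℂ => ComplexEmbedding.IsReal φ),
    Complex.ofReal_prod]
  congr 1
  refine prod_congr rfl fun φ hφ => ?_
  have := embb_im (mem_filter.1 hφ).2 α
  apply Complex.ext <;> simp [hc, this]

/-- Emb-b.  At a real embedding `hc (φ α) = re (φ α) = ± ‖φ α‖`; `N α = ∏_{φ real} φ α · ∏_{φ not real} φ α` and
the second product is a positive real (fibres of `InfinitePlace.mk` are pairs `φ, conj φ`); `sum_hc_sq`. -/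
theorem fS_sign (e : Bool) {y : (K →+* ℂ) → ℝ} (hy : ∀ φ, y (ComplexEmbedding.conjugate φ) = y φ)
    {α : K} (hα : α ≠ 0) :
    fS (Sg K e) (fun φ => y φ * hc (φ α)) = sg e α * fS (Sg K e) fun φ => y φ * ‖φ α‖ := by
  unfold fS
  rw [(sum_hc_sq hy α).1, ← mul_assoc]
  congr 1
  cases e
  · simp [Sg, sg]
  · simp only [Sg, sg, if_true]
    set S := univ.filter (fun φ : K →+* ℂ => ComplexEmbedding.IsReal φ) with hS
    have hb : 0 < ∏ φ ∈ univ.filter (fun φ : K →+* ℂ => ¬ ComplexEmbedding.IsReal φ), ‖φ α‖ :=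
      prod_pos fun φ _ => by simpa using hα
    have h1 : |∏ φ ∈ S, hc (φ α)| = ∏ φ ∈ S, ‖φ α‖ := by
      rw [abs_prod]
      refine prod_congr rfl fun φ hφ => ?_
      have := embb_im (mem_filter.1 hφ).2 α
      rw [hc, this, add_zero, Complex.abs_re_eq_norm.2 this]
    have h2 : SignType.sign (Algebra.norm ℚ α) = SignType.sign (∏ φ ∈ S, hc (φ α)) := by
      rw [← (Rat.cast_strictMono (K := ℝ)).sign_comp (f := Rat.castHom ℝ)]
      change SignType.sign ((Algebra.norm ℚ α : ℚ) : ℝ) = _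
      rw [embb_norm hα, sign_mul, sign_pos hb, mul_one]
    rw [prod_mul_distrib, prod_mul_distrib, h2, ← h1, mul_left_comm, sign_mul_abs]

/-- Emb-b.  `Ideal.selfBasis` / `Ideal.finrank_eq_finrank`, `Basis.reindex`, `Embeddings.card` -/
theorem exists_basis {𝔟 : Ideal (𝓞 K)} (h𝔟 : 𝔟 ≠ ⊥) : Nonempty (Module.Basis (K →+* ℂ) ℤ 𝔟) := by
  exact ⟨(Ideal.selfBasis (RingOfIntegers.basis K) 𝔟 h𝔟).reindex (equivReindex K).symm⟩

theorem embc_discr {ι : Type} [Fintype ι] [DecidableEq ι] (v : ι → 𝓞 K) :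
    Algebra.discr ℚ (fun i => (v i : K)) = (Algebra.discr ℤ v : ℤ) := by
  rw [Algebra.discr_def, Algebra.discr_def, Int.cast_det]
  congr 1
  ext i j
  simp only [Matrix.map_apply, Algebra.traceMatrix_apply, Algebra.traceForm_apply]
  rw [Algebra.coe_trace_int]
  rfl

/-- Emb-c.  Write `b` in terms of the reindexed `RingOfIntegers.basis` / `integralBasis`
(`Ideal.natAbs_det_basis_change`, `Algebra.discr_of_matrix_vecMul`, `coe_discr`, `Algebra.discr_reindex`) -/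
theorem discr_ideal {𝔟 : Ideal (𝓞 K)} (b : Module.Basis (K →+* ℂ) ℤ 𝔟) :
    Algebra.discr ℚ (fun i => (((b i : 𝔟) : 𝓞 K) : K)) = (Ideal.absNorm 𝔟 : ℚ) ^ 2 * discr K := by
  let c := (RingOfIntegers.basis K).reindex (equivReindex K).symm
  have h1 := Algebra.discr_of_matrix_vecMul c (c.toMatrix ((↑) ∘ b : _ → 𝓞 K))
  rw [Module.Basis.toMatrix_map_vecMul, discr_eq_discr K c, ← Module.Basis.det_apply, ← Int.natAbs_sq,
    Ideal.natAbs_det_basis_change] at h1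
  have h2 := embc_discr ((↑) ∘ b : _ → 𝓞 K)
  rw [h1] at h2
  exact h2.trans (by push_cast; rfl)

/-- Emb-c.  With `A φ i = hc (φ (b i))` and `A' φ i = A (conjugate φ) i`, `Aᵀ A'` is the trace matrix
(`sum_hc_mul`) and `|det A'| = |det A|` (`Matrix.det_permute`), so `det A ^ 2 = |discr|`. -/
theorem det_hc {𝔟 : Ideal (𝓞 K)} (b : Module.Basis (K →+* ℂ) ℤ 𝔟) :
    |(Matrix.of fun φ i : K →+* ℂ => hc (φ (((b i : 𝔟) : 𝓞 K) : K))).det| =
      Ideal.absNorm 𝔟 * Real.sqrt |(discr K : ℝ)| := by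
  set A := Matrix.of fun φ i : K →+* ℂ => hc (φ (((b i : 𝔟) : 𝓞 K) : K)) with hA
  have h1 : A.transpose * A.submatrix (ComplexEmbedding.involutive_conjugate K).toPerm id =
      (Algebra.traceMatrix ℚ fun i => (((b i : 𝔟) : 𝓞 K) : K)).map (Rat.cast : ℚ → ℝ) := by
    ext i j
    rw [Matrix.mul_apply, Matrix.map_apply, Algebra.traceMatrix_apply, Algebra.traceForm_apply,
      ← sum_hc_mul]
    rfl
  have h2 := congrArg (fun M => |Matrix.det M|) h1
  simp only [Matrix.det_mul, Matrix.det_transpose, Matrix.det_permute, abs_mul] at h2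
  rw [← Rat.cast_det, ← Algebra.discr_def, discr_ideal, ← Int.cast_abs, Int.abs_eq_natAbs,
    Int.units_natAbs] at h2
  push_cast at h2
  rw [one_mul, abs_mul, abs_sq] at h2
  rw [← Real.sqrt_mul_self (abs_nonneg A.det), h2, Real.sqrt_mul (sq_nonneg _),
    Real.sqrt_sq (Nat.cast_nonneg _)]

theorem embd_mat {ι : Type} [Fintype ι] [DecidableEq ι] (B : Module.Basis ι ℚ K) (u v : ι → K) :
    (Matrix.of fun i j => Algebra.trace ℚ K (u i * v j)) =
      (B.toMatrix u).transpose * Algebra.traceMatrix ℚ B * B.toMatrix v := by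
  ext i j
  rw [Matrix.of_apply]
  conv_lhs => rw [← B.sum_repr (u i), ← B.sum_repr (v j)]
  simp only [Matrix.mul_apply, Matrix.transpose_apply, Module.Basis.toMatrix_apply,
    Algebra.traceMatrix_apply, Algebra.traceForm_apply, Finset.sum_mul, Finset.mul_sum, map_sum,
    smul_mul_smul_comm, map_smul, smul_eq_mul]
  exact Finset.sum_congr rfl fun _ _ => Finset.sum_congr rfl fun _ _ => by ring

/-- Emb-d.  The trace dual basis.  `b` is a `ℚ`-basis of `K` (its discriminant is nonzero, `discr_ideal`, or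
`basisOfLinearIndependentOfCardEqFinrank`); `b' = (traceForm ℚ K).dualBasis`.  If `ξ = ∑ k i b' i ≠ 0` and `ω` is
an integral basis then `ξ ω j = ∑ i, Tr (ξ ω j b i) b' i` with integer coefficients (`ω j b i ∈ 𝔟`), a matrix
`c` with `det c ≠ 0`; `discr (ξ ω) = N(ξ)² discr K = det c ^ 2 discr b'` and `discr b' · discr b = 1`. -/
theorem exists_dual {𝔟 : Ideal (𝓞 K)} (h𝔟 : 𝔟 ≠ ⊥) (b : Module.Basis (K →+* ℂ) ℤ 𝔟) :
    ∃ b' : (K →+* ℂ) → K,
      (∀ i j, Algebra.trace ℚ K ((((b i : 𝔟) : 𝓞 K) : K) * b' j) = if i = j then 1 else 0) ∧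
      ∀ k : (K →+* ℂ) → ℤ, k ≠ 0 → (1 : ℝ) ≤
        Ideal.absNorm 𝔟 * |(discr K : ℝ)| * |((Algebra.norm ℚ (∑ i, (k i : K) * b' i) : ℚ) : ℝ)| := by
  have hN : (Ideal.absNorm 𝔟 : ℚ) ≠ 0 := Nat.cast_ne_zero.2 (Ideal.absNorm_eq_zero_iff.not.2 h𝔟)
  have hd : (discr K : ℚ) ≠ 0 := Int.cast_ne_zero.2 (discr_ne_zero K)
  have hβ := discr_ideal b
  have hli : LinearIndependent ℚ fun i => (((b i : 𝔟) : 𝓞 K) : K) := by
    by_contra h
    rw [Algebra.discr_zero_of_not_linearIndependent ℚ h] at hβ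
    exact mul_ne_zero (pow_ne_zero 2 hN) hd hβ.symm
  obtain ⟨B, hB⟩ : ∃ B : Module.Basis (K →+* ℂ) ℚ K, ⇑B = fun i => (((b i : 𝔟) : 𝓞 K) : K) :=
    ⟨basisOfLinearIndependentOfCardEqFinrank hli (Embeddings.card K ℂ),
      coe_basisOfLinearIndependentOfCardEqFinrank _ _⟩
  have hB' : ∀ i, (((b i : 𝔟) : 𝓞 K) : K) = B i := fun i => by rw [hB]
  rw [← hB] at hβ
  set B' := (Algebra.traceForm ℚ K).dualBasis (traceForm_nondegenerate ℚ K) B with hB'def
  have h1 : ∀ i j, Algebra.trace ℚ K (B i * B' j) = if i = j then 1 else 0 := fun i j => by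
    rw [mul_comm, ← Algebra.traceForm_apply]
    exact LinearMap.BilinForm.apply_dualBasis_left (traceForm_nondegenerate ℚ K) B j i
  refine ⟨B', fun i j => by rw [hB', h1], fun k hk => ?_⟩
  set ξ : K := ∑ i, (k i : K) * B' i with hξ
  have h2 : ∀ i, Algebra.trace ℚ K (B i * ξ) = k i := fun i => by
    rw [hξ, Finset.mul_sum, map_sum, Finset.sum_eq_single i]
    · rw [mul_left_comm, ← zsmul_eq_mul, map_zsmul, h1, if_pos rfl, zsmul_eq_mul, mul_one]
    · intro j _ hj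
      rw [mul_left_comm, ← zsmul_eq_mul, map_zsmul, h1, if_neg hj.symm, smul_zero]
    · simp
  have hξ0 : ξ ≠ 0 := fun h => hk (funext fun i => by
    have := h2 i
    rw [h, mul_zero, map_zero] at this
    exact_mod_cast this.symm)
  have h3 : ∀ x : 𝔟, ∃ z : ℤ, Algebra.trace ℚ K (((x : 𝓞 K) : K) * ξ) = z := fun x => by
    refine ⟨∑ i, b.repr x i * k i, ?_⟩
    have e : ((x : 𝓞 K) : K) = ∑ i, b.repr x i • B i := by
      have e := congrArg (fun y : 𝔟 => algebraMap (𝓞 K) K (y : 𝓞 K)) (b.sum_repr x)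
      simp only [Submodule.coe_sum, map_sum] at e
      simp only [← hB']
      exact e.symm
    rw [e, Finset.sum_mul, map_sum, Int.cast_sum]
    refine Finset.sum_congr rfl fun i _ => ?_
    rw [smul_mul_assoc, map_zsmul, h2, zsmul_eq_mul, Int.cast_mul]
  let e : Module.Free.ChooseBasisIndex ℤ (𝓞 K) ≃ (K →+* ℂ) := equivReindex K |>.symm
  set ω : (K →+* ℂ) → K := integralBasis K ∘ e.symm with hω
  have hω1 : Algebra.discr ℚ ω = discr K := by rw [hω, Algebra.discr_reindex, coe_discr]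
  have h4 : ∀ i j, ∃ z : ℤ, Algebra.trace ℚ K (ω i * (ξ * B j)) = z := fun i j => by
    obtain ⟨z, hz⟩ := h3 ⟨RingOfIntegers.basis K (e.symm i) * (b j : 𝓞 K), 𝔟.mul_mem_left _ (b j).2⟩
    refine ⟨z, hz ▸ congrArg _ ?_⟩
    rw [hω, Function.comp_apply, integralBasis_apply, ← hB']
    simp only [map_mul]
    ring
  choose T hT using h4
  have h5 : (((Matrix.of T).det : ℤ) : ℚ) = (B.toMatrix ω).det * ((Ideal.absNorm 𝔟 : ℚ) ^ 2 * discr K) *
      Algebra.norm ℚ ξ := by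
    have e1 : B.toMatrix (fun j => ξ * B j) = Algebra.leftMulMatrix B ξ := by
      ext i j
      rw [Module.Basis.toMatrix_apply, Algebra.leftMulMatrix_eq_repr_mul]
    have e2 := congrArg Matrix.det (embd_mat B ω fun j => ξ * B j)
    rw [Matrix.det_mul, Matrix.det_mul, Matrix.det_transpose, e1, ← Algebra.norm_eq_matrix_det,
      ← Algebra.discr_def, hβ] at e2
    rw [← e2, Int.cast_det]
    congr 1
    ext i j
    simp [hT]
  have h6 : ((B.toMatrix ω).det * Ideal.absNorm 𝔟) ^ 2 = 1 := by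
    have e1 := Algebra.discr_of_matrix_vecMul B (B.toMatrix ω)
    rw [Module.Basis.toMatrix_map_vecMul, hω1, hβ] at e1
    apply mul_right_cancel₀ hd
    linear_combination -e1
  have h7 : (((Matrix.of T).det : ℤ) : ℚ) ^ 2 =
      (Ideal.absNorm 𝔟 * discr K * Algebra.norm ℚ ξ : ℚ) ^ 2 := by
    rw [h5]
    linear_combination (Ideal.absNorm 𝔟 * discr K * Algebra.norm ℚ ξ : ℚ) ^ 2 * h6
  have h8 : (Matrix.of T).det ≠ 0 := fun h => by
    rw [h, Int.cast_zero, zero_pow two_ne_zero] at h7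
    exact pow_ne_zero 2 (mul_ne_zero (mul_ne_zero hN hd) (Algebra.norm_ne_zero_iff.2 hξ0)) h7.symm
  have h9 : (1 : ℚ) ≤ |(Ideal.absNorm 𝔟 * discr K * Algebra.norm ℚ ξ : ℚ)| := by
    rw [← (sq_eq_sq_iff_abs_eq_abs _ _).1 h7]
    exact_mod_cast Int.one_le_abs h8
  rw [abs_mul, abs_mul, Nat.abs_cast] at h9
  exact_mod_cast h9

omit [NumberField K] in
theorem embe_hc {ι : Type} [Fintype ι] (ψ : K →+* ℂ) (β : ι → K) (m : ι → ℤ) :
    ∑ i, hc (ψ (β i)) * (m i : ℝ) = hc (ψ (∑ i, (m i : K) * β i)) := by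
  simp only [hc, map_sum, map_mul, map_intCast, Complex.re_sum, Complex.im_sum, Complex.mul_re,
    Complex.mul_im, Complex.intCast_re, Complex.intCast_im, ← Finset.sum_add_distrib]
  exact Finset.sum_congr rfl fun i _ => by ring

omit [NumberField K] in
theorem embe_coe {ι : Type} [Fintype ι] {𝔟 : Ideal (𝓞 K)} (b : ι → 𝔟) (m : ι → ℤ) :
    (((∑ i, m i • b i : 𝔟) : 𝓞 K) : K) = ∑ i, (m i : K) * (((b i : 𝔟) : 𝓞 K) : K) := by
  simp [zsmul_eq_mul]

theorem embe_lat {A : Matrix (K →+* ℂ) (K →+* ℂ) ℝ} {a : ℝ} {β : (K →+* ℂ) → K} {φ : K →+* ℂ}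
    (ψ : K →+* ℂ) (h : ∀ i, A φ i = a * hc (ψ (β i))) (m : (K →+* ℂ) → ℤ) :
    lat A m φ = a * hc (ψ (∑ i, (m i : K) * β i)) := by
  rw [← embe_hc, Finset.mul_sum]
  change ∑ i, A φ i * (m i : ℝ) = _
  exact Finset.sum_congr rfl fun i _ => by rw [h i, mul_assoc]

theorem embe_d : (0 : ℝ) < |(discr K : ℝ)| := abs_pos.2 (by exact_mod_cast discr_ne_zero K)

theorem embe_V {𝔟 : Ideal (𝓞 K)} (h𝔟 : 𝔟 ≠ ⊥) :
    (0 : ℝ) < Ideal.absNorm 𝔟 * Real.sqrt |(discr K : ℝ)| :=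
  mul_pos (Nat.cast_pos.2 (Nat.pos_of_ne_zero fun h => h𝔟 (Ideal.absNorm_eq_zero_iff.1 h)))
    (Real.sqrt_pos.2 embe_d)

theorem embe_norm {α : 𝓞 K} (hα : α ≠ 0) : (1 : ℝ) ≤ |((Algebra.norm ℚ (α : K) : ℚ) : ℝ)| := by
  rw [← Algebra.coe_norm_int]
  have h : Algebra.norm ℤ α ≠ 0 := Algebra.norm_ne_zero_iff.2 hα
  have := Int.one_le_abs h
  exact_mod_cast this

/-- Emb-e.  `A φ i = V^(-1/n) hc (φ (b i))`, `B φ j = V^(1/n) hc (conj (φ (b' j)))`, `ρ = n V^(-2/n)`;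
`sum_hc_mul`, `det_hc`, `sum_hc_sq`, `amgm`, `prod_yv`; `hc` is additive and `ℝ`-homogeneous;
a nonzero algebraic integer has `|N α| ≥ 1`. -/
theorem exists_dat {𝔟 : Ideal (𝓞 K)} (h𝔟 : 𝔟 ≠ ⊥) :
    ∃ (b : Module.Basis (K →+* ℂ) ℤ 𝔟) (D : Dat (K →+* ℂ) (Fin (Units.rank K))) (V : ℝ),
      IsDat K 𝔟 b D V := by
  obtain ⟨b⟩ := exists_basis h𝔟
  obtain ⟨b', hb1, hb2⟩ := exists_dual h𝔟 b
  have hV := embe_V h𝔟
  have hd : (0 : ℝ) < |(discr K : ℝ)| := embe_d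
  have hdet := det_hc b
  set V : ℝ := Ideal.absNorm 𝔟 * Real.sqrt |(discr K : ℝ)| with hVe
  have hcard : Fintype.card (K →+* ℂ) = Module.finrank ℚ K := Embeddings.card K ℂ
  have hn0 : 0 < Module.finrank ℚ K := Module.finrank_pos
  have hn : (0 : ℝ) < Module.finrank ℚ K := Nat.cast_pos.2 hn0
  set a : ℝ := V ^ (-(1 / (Module.finrank ℚ K : ℝ))) with ha
  set a' : ℝ := V ^ (1 / (Module.finrank ℚ K : ℝ)) with ha'
  have ha0 : 0 < a := Real.rpow_pos_of_pos hV _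
  have haa : a * a' = 1 := by
    rw [ha, ha', ← Real.rpow_add hV, neg_add_cancel, Real.rpow_zero]
  have hy1 : ∀ c, ∏ φ, yv (ellK K) 1 c φ = 1 := fun c => prod_yv (hcard ▸ hn0) sum_ellK one_pos c
  refine ⟨b,
    { A := Matrix.of fun φ i => a * hc (φ (((b i : 𝔟) : 𝓞 K) : K))
      B := Matrix.of fun φ j => a' * hc (starRingEnd ℂ (φ (b' j)))
      l := ellK K
      ρ := a ^ 2 * Module.finrank ℚ K
      ρ' := Module.finrank ℚ K * |(discr K : ℝ)| ^ (-(1 / (Module.finrank ℚ K : ℝ)))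
      hι := hcard ▸ hn0
      hAB := ?_
      hdet := ?_
      hl := sum_ellK
      hρ := by positivity
      hρ' := by positivity
      hA := ?_
      hB := ?_ }, V, ⟨rfl, fun _ _ => rfl, rfl, rfl⟩⟩
  · ext i j
    rw [Matrix.mul_apply, Matrix.one_apply]
    simp only [Matrix.transpose_apply, Matrix.of_apply]
    have e : ∀ φ : K →+* ℂ, a * hc (φ (((b i : 𝔟) : 𝓞 K) : K)) * (a' * hc (starRingEnd ℂ (φ (b' j)))) =
        hc (φ (((b i : 𝔟) : 𝓞 K) : K)) * hc (starRingEnd ℂ (φ (b' j))) := fun φ => by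
      rw [mul_mul_mul_comm, haa, one_mul]
    rw [Finset.sum_congr rfl fun φ _ => e φ, sum_hc_mul, hb1]
    split_ifs <;> simp
  · have e : (Matrix.of fun φ i : K →+* ℂ => a * hc (φ (((b i : 𝔟) : 𝓞 K) : K))) =
        a • Matrix.of fun φ i : K →+* ℂ => hc (φ (((b i : 𝔟) : 𝓞 K) : K)) := rfl
    rw [e, Matrix.det_smul, abs_mul, hdet, abs_of_pos (pow_pos ha0 _), hcard, ha,
      ← Real.rpow_natCast, ← Real.rpow_mul hV.le, neg_mul, one_div, inv_mul_cancel₀ hn.ne',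
      Real.rpow_neg_one, inv_mul_cancel₀ hV.ne']
  · intro c m hm
    have hα : ((∑ i, m i • b i : 𝔟) : 𝓞 K) ≠ 0 := by
      intro h0
      have h1 : (∑ i, m i • b i : 𝔟) = 0 := Subtype.ext h0
      exact hm (funext (Fintype.linearIndependent_iff.1 b.linearIndependent m h1))
    have h1 := embe_norm hα
    rw [embe_coe] at h1
    have e : ∀ φ : K →+* ℂ, (yv (ellK K) 1 c φ *
        lat (Matrix.of fun φ i => a * hc (φ (((b i : 𝔟) : 𝓞 K) : K))) m φ) ^ 2 =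
        a ^ 2 * (yv (ellK K) 1 c φ * hc (φ (∑ i, (m i : K) * (((b i : 𝔟) : 𝓞 K) : K)))) ^ 2 := fun φ => by
      rw [embe_lat (a := a) (β := fun i => (((b i : 𝔟) : 𝓞 K) : K)) φ (fun _ => rfl)]; ring
    rw [Finset.sum_congr rfl fun φ _ => e φ, ← Finset.mul_sum, (sum_hc_sq (yv_conj 1 c) _).1]
    refine mul_le_mul_of_nonneg_left (le_trans ?_ (amgm (yv_pos _ one_pos c) _)) (sq_nonneg a)
    rw [hy1, one_mul]
    exact le_mul_of_one_le_right hn.le (Real.one_le_rpow h1 (by positivity))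
  · intro c m hm
    have h1 := hb2 m hm
    have e : ∀ φ : K →+* ℂ, ((yv (ellK K) 1 c φ)⁻¹ *
        lat (Matrix.of fun φ j => a' * hc (starRingEnd ℂ (φ (b' j)))) m φ) ^ 2 =
        a' ^ 2 * ((yv (ellK K) 1 c φ)⁻¹ * hc (starRingEnd ℂ (φ (∑ i, (m i : K) * b' i)))) ^ 2 := fun φ => by
      rw [embe_lat (a := a') (β := b') ((starRingEnd ℂ).comp φ) (fun _ => rfl), RingHom.comp_apply]; ring
    rw [Finset.sum_congr rfl fun φ _ => e φ, ← Finset.mul_sum,
      (sum_hc_sq (y := fun φ => (yv (ellK K) 1 c φ)⁻¹) (fun φ => by rw [yv_conj]) _).2]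
    refine le_trans ?_ (mul_le_mul_of_nonneg_left
      (amgm (y := fun φ => (yv (ellK K) 1 c φ)⁻¹) (fun φ => inv_pos.2 (yv_pos _ one_pos c φ)) _)
      (sq_nonneg a'))
    rw [Finset.prod_inv_distrib, hy1, inv_one, one_mul, mul_left_comm]
    refine mul_le_mul_of_nonneg_left ?_ hn.le
    generalize hN : |((Algebra.norm ℚ (∑ i, (m i : K) * b' i) : ℚ) : ℝ)| = N at h1
    have hN0 : 0 ≤ N := hN ▸ abs_nonneg _
    have e2 : a' ^ 2 * N ^ (2 / (Module.finrank ℚ K : ℝ)) =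
        ((V * N) ^ 2) ^ (1 / (Module.finrank ℚ K : ℝ)) := by
      rw [← Real.rpow_natCast (V * N), ← Real.rpow_mul (by positivity), Real.mul_rpow hV.le hN0, ha',
        ← Real.rpow_natCast, ← Real.rpow_mul hV.le]
      congr 2 <;> push_cast <;> ring
    rw [e2, Real.rpow_neg hd.le, ← Real.inv_rpow hd.le]
    refine Real.rpow_le_rpow (by positivity) ?_ (by positivity)
    rw [inv_eq_one_div, div_le_iff₀ hd]
    calc (1 : ℝ) ≤ (Ideal.absNorm 𝔟 * |(discr K : ℝ)| * N) ^ 2 := one_le_pow₀ h1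
      _ = _ := by
        rw [hVe, mul_pow, mul_pow, mul_pow, mul_pow, Real.sq_sqrt hd.le]; ring

/-- Emb-e.  the lattice point of `α = ∑ m i • b i` -/
theorem IsDat.lat_eq {𝔟 : Ideal (𝓞 K)} (h𝔟 : 𝔟 ≠ ⊥) {b : Module.Basis (K →+* ℂ) ℤ 𝔟}
    {D : Dat (K →+* ℂ) (Fin (Units.rank K))} {V : ℝ} (h : IsDat K 𝔟 b D V) {t : ℝ} (ht : 0 < t)
    (c : Fin (Units.rank K) → ℝ) (m : (K →+* ℂ) → ℤ) (φ : K →+* ℂ) :
    0 < V ∧ yv D.l t c φ * lat D.A m φ =
      yv (ellK K) (t / V) c φ * hc (φ (((∑ i, m i • b i : 𝔟) : 𝓞 K) : K)) := by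
  have hV : 0 < V := h.hV ▸ embe_V h𝔟
  refine ⟨hV, ?_⟩
  have e : yv (ellK K) t c φ = V ^ (1 / (Module.finrank ℚ K : ℝ)) * yv (ellK K) (t / V) c φ := by
    rw [← Embeddings.card K ℂ, ← yv_mul _ hV.le (by positivity), mul_div_cancel₀ _ hV.ne']
  rw [h.hl, embe_lat φ (h.hA φ), embe_coe, e, mul_mul_mul_comm, ← Real.rpow_add hV, add_neg_cancel,
    Real.rpow_zero, one_mul]

/-- Emb-b.  `N (α + M β) ≡ N α (mod M)`: `Algebra.norm_eq_matrix_det`, `RingHom.map_det` to `ZMod M` -/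
theorem psi_per {𝔟 : Ideal (𝓞 K)} (b : Module.Basis (K →+* ℂ) ℤ 𝔟) {M : ℕ}
    (χ : DirichletCharacter ℂ M) (m k : (K →+* ℂ) → ℤ) : psi b χ (m + (M : ℤ) • k) = psi b χ m := by
  unfold psi
  congr 1
  have h1 : ((∑ i, (m + (M : ℤ) • k) i • b i : 𝔟) : 𝓞 K) =
      ((∑ i, m i • b i : 𝔟) : 𝓞 K) + (M : ℤ) • ((∑ i, k i • b i : 𝔟) : 𝓞 K) := by
    rw [← Submodule.coe_smul_of_tower, ← Submodule.coe_add, smul_sum, ← sum_add_distrib]
    congr 1
    refine sum_congr rfl fun i _ => ?_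
    rw [Pi.add_apply, Pi.smul_apply, add_smul, smul_assoc]
  rw [h1]
  generalize ((∑ i, m i • b i : 𝔟) : 𝓞 K) = α
  generalize ((∑ i, k i • b i : 𝔟) : 𝓞 K) = β
  rw [Algebra.norm_eq_matrix_det (RingOfIntegers.basis K),
    Algebra.norm_eq_matrix_det (RingOfIntegers.basis K), map_add, map_smul]
  change Int.castRingHom (ZMod M) _ = Int.castRingHom (ZMod M) _
  rw [RingHom.map_det, RingHom.map_det]
  congr 1
  ext i j
  simp only [RingHom.mapMatrix_apply, Matrix.map_apply, Matrix.add_apply, Matrix.smul_apply, smul_eq_mul,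
    eq_intCast]
  simp

/-- Emb-b.  `χ (N α) sgn (N α)^e = χ (|N α|)` (`Ideal.absNorm_span_singleton`, `Algebra.coe_norm_int`) -/
theorem psi_sg {𝔟 : Ideal (𝓞 K)} (b : Module.Basis (K →+* ℂ) ℤ 𝔟) {M : ℕ}
    (χ : DirichletCharacter ℂ M) {e : Bool} (he : χ (-1) = if e then -1 else 1)
    {m : (K →+* ℂ) → ℤ} (hm : m ≠ 0) :
    psi b χ m * ((sg e (((∑ i, m i • b i : 𝔟) : 𝓞 K) : K) : ℝ) : ℂ) =
      χ ((Ideal.absNorm (Ideal.span {((∑ i, m i • b i : 𝔟) : 𝓞 K)}) : ℕ) : ZMod M) := by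
  unfold psi
  set α : 𝓞 K := ((∑ i, m i • b i : 𝔟) : 𝓞 K) with hα
  have hα0 : α ≠ 0 := by
    intro h
    have h1 : (∑ i, m i • b i : 𝔟) = 0 := Subtype.ext h
    exact hm (funext fun i => Fintype.linearIndependent_iff.1 b.linearIndependent m h1 i)
  have hN : Algebra.norm ℤ α ≠ 0 := Algebra.norm_ne_zero_iff.2 hα0
  rw [Ideal.absNorm_span_singleton, sg, ← Algebra.coe_norm_int]
  set n := Algebra.norm ℤ α with hn
  rcases lt_or_gt_of_ne hN with h | h
  · have h1 : ((n.natAbs : ℕ) : ZMod M) = -1 * (n : ZMod M) := by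
      rw [← Int.cast_natCast, Int.natCast_natAbs, abs_of_neg h]; simp
    have h2 : SignType.sign (n : ℚ) = -1 := sign_neg (by exact_mod_cast h)
    rw [h1, map_mul, he, h2]
    cases e <;> simp
  · have h1 : ((n.natAbs : ℕ) : ZMod M) = (n : ZMod M) := by
      rw [← Int.cast_natCast, Int.natCast_natAbs, abs_of_pos h]
    have h2 : SignType.sign (n : ℚ) = 1 := sign_pos (by exact_mod_cast h)
    rw [h1, h2]
    cases e <;> simp

end Crest.Agent.R27.Ku
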