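import Crest.Agent.R27.Ku.Field
import Crest.Agent.R27.Ku.Cls

/-! Row 27, block Ku (owner helper94): the zero-free half plane descends to fields of odd degree. -/

set_option autoImplicit false

namespace Crest.Agent.R27.Ku

open NumberField MeasureTheory Finset
open scoped Classical Real nonZeroDivisors ArithmeticFunction.vonMangoldt

theorem faca_sum {σ : ℝ} (hσ : 1 / 2 < σ) :
    Summable fun n : ℕ => if IsPrimePow n ∧ ¬ n.Prime then (n : ℝ) ^ (-σ) else 0 := by
  have hr0 : (0 : ℝ) ≤ 2 ^ (-σ) := by positivity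
  have hr : (2 : ℝ) ^ (-σ) < 1 := Real.rpow_lt_one_of_one_lt_of_neg (by norm_num) (by linarith)
  have hH : Summable fun x : ℕ × ℕ => (x.1 : ℝ) ^ (-(2 * σ)) * ((2 : ℝ) ^ (-σ)) ^ x.2 :=
    Summable.mul_of_nonneg (f := fun m : ℕ => (m : ℝ) ^ (-(2 * σ))) (g := fun k : ℕ => ((2 : ℝ) ^ (-σ)) ^ k)
      (Real.summable_nat_rpow.2 (by linarith)) (summable_geometric_of_lt_one hr0 hr)
      (fun _ => by positivity) (fun _ => by positivity)
  have hex : ∀ n : {n : ℕ | IsPrimePow n ∧ ¬ n.Prime}, ∃ x : ℕ × ℕ, 2 ≤ x.1 ∧ (n : ℕ) = x.1 ^ (x.2 + 2) := by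
    rintro ⟨n, h1, h2⟩
    obtain ⟨p, k, hp, hk, rfl⟩ := (isPrimePow_nat_iff n).1 h1
    have hk1 : k ≠ 1 := fun h => h2 (by rwa [h, pow_one])
    exact ⟨(p, k - 2), hp.two_le, by rw [show k - 2 + 2 = k by omega]⟩
  choose ι h2 hι using hex
  have hinj : Function.Injective ι := fun a b h => Subtype.ext (by rw [hι a, hι b, h])
  have hS : Summable fun n : {n : ℕ | IsPrimePow n ∧ ¬ n.Prime} => ((n : ℕ) : ℝ) ^ (-σ) := by
    refine Summable.of_nonneg_of_le (fun _ => by positivity) (fun n => ?_) (hH.comp_injective hinj)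
    have hp : (2 : ℝ) ≤ (ι n).1 := by exact_mod_cast h2 n
    have hp0 : (0 : ℝ) < (ι n).1 := by linarith
    rw [Function.comp_apply, hι n, Nat.cast_pow, ← Real.rpow_pow_comm hp0.le, pow_add, mul_comm,
      ← Real.rpow_natCast _ 2, ← Real.rpow_mul hp0.le, show -σ * ((2 : ℕ) : ℝ) = -(2 * σ) by push_cast; ring]
    exact mul_le_mul_of_nonneg_left (pow_le_pow_left₀ (by positivity)
      (Real.rpow_le_rpow_of_nonpos (by norm_num) hp (by linarith)) _) (by positivity)
  refine ((summable_subtype_iff_indicator (f := fun n : ℕ => (n : ℝ) ^ (-σ))).1 hS).congr fun n => ?_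
  rw [Set.indicator_apply]
  rfl

/-- Fac-a.  `‖c n / log n‖ ≤ B` vanishes unless `n` divides `M` or `n = p ^ k` with `k ≥ 2`;
`∑_{m ≥ 2, k ≥ 2} m^(-k σ)` converges for `σ > 1/2`; `LSeries_differentiableOn`,
`LSeries.abscissaOfAbsConv_le_of_forall_lt_LSeriesSummable` -/
theorem exc_hol {c : ℕ → ℂ} {B : ℝ} (hc : ∀ n, ‖c n‖ ≤ B * Λ n) {M : ℕ} (hM : M ≠ 0)
    (h0 : ∀ p : ℕ, p.Prime → ¬ p ∣ M → c p = 0) :
    DifferentiableOn ℂ (LSeries fun n => c n / ((Real.log n : ℝ) : ℂ)) {s | 1 / 2 < s.re} := by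
  have hB : 0 ≤ B := by
    have h := (norm_nonneg _).trans (hc 2)
    rw [ArithmeticFunction.vonMangoldt_apply_prime Nat.prime_two] at h
    exact nonneg_of_mul_nonneg_left h (Real.log_pos (by norm_num))
  have hab : LSeries.abscissaOfAbsConv (fun n => c n / ((Real.log n : ℝ) : ℂ)) ≤ ((1 / 2 : ℝ) : EReal) := by
    refine LSeries.abscissaOfAbsConv_le_of_forall_lt_LSeriesSummable fun y hy => ?_
    have h1 : Summable fun n : ℕ => if n ∈ M.divisors then
        ‖LSeries.term (fun n => c n / ((Real.log n : ℝ) : ℂ)) y n‖ else 0 :=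
      summable_of_ne_finset_zero (s := M.divisors) fun n hn => if_neg hn
    refine Summable.of_norm_bounded (h1.add ((faca_sum hy).mul_left B)) fun n => ?_
    have hg : 0 ≤ B * if IsPrimePow n ∧ ¬ n.Prime then (n : ℝ) ^ (-y) else 0 :=
      mul_nonneg hB (by split_ifs <;> positivity)
    by_cases hn : n ∈ M.divisors
    · rw [if_pos hn]
      linarith
    rw [if_neg hn, zero_add]
    by_cases hz : c n = 0
    · refine le_trans (le_of_eq ?_) hg
      rw [LSeries.norm_term_eq, hz]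
      simp
    have hpp : IsPrimePow n := by
      by_contra h
      have := hc n
      rw [ArithmeticFunction.vonMangoldt_eq_zero_iff.2 h, mul_zero] at this
      exact hz (norm_le_zero_iff.1 this)
    have hnp : ¬ n.Prime := fun h => hz (h0 n h fun hd => hn (Nat.mem_divisors.2 ⟨hd, hM⟩))
    have hn1 : (1 : ℝ) < n := by exact_mod_cast hpp.one_lt
    have hl := Real.log_pos hn1
    rw [if_pos ⟨hpp, hnp⟩, LSeries.norm_term_eq, if_neg hpp.ne_zero, Complex.ofReal_re,
      Real.rpow_neg (by linarith), ← div_eq_mul_inv, norm_div, Complex.norm_real, Real.norm_eq_abs, abs_of_pos hl]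
    refine div_le_div_of_nonneg_right ((div_le_iff₀ hl).2 ((hc n).trans ?_)) (by positivity)
    exact mul_le_mul_of_nonneg_left ArithmeticFunction.vonMangoldt_le_log hB
  refine (LSeries_differentiableOn _).mono fun s hs => ?_
  exact hab.trans_lt (EReal.coe_lt_coe_iff.2 hs)

/-- Fac-a.  `ζ_F = ζ_K · L(χ₃ ∘ N) · exp E`: `exists_F`, `roots_cube`, `zeta_exp`, `twist_exp`, `lamK_prime`,
`exc_hol` for `c n = lamK F n - lamK K n - lamK K n χ n` and the modulus `3 M`; `LSeries_sub` -/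
theorem zeta_factor (K : Type) [Field K] [NumberField K] (hK : Odd (Module.finrank ℚ K)) :
    ∃ (F : Type) (_ : Field F) (_ : NumberField F), (∃ ω : F, ω ^ 2 + ω + 1 = 0) ∧
      ∃ (χ : DirichletCharacter ℂ 3) (E : ℂ → ℂ), DifferentiableOn ℂ E {s | 1 / 2 < s.re} ∧
        ∀ s : ℂ, 1 < s.re → dedekindZeta F s = LSeries (fun n => (aK K n : ℂ)) s *
          LSeries (fun n => (aK K n : ℂ) * χ n) s * Complex.exp (E s) := by
  obtain ⟨F, _, _, hω, M, hM, hF⟩ := exists_F K hK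
  obtain ⟨χ, hχ⟩ := roots_cube
  have hχn : ∀ n : ℕ, ‖(lamK K n : ℂ) * χ n‖ ≤ Module.finrank ℚ K * Λ n := fun n => by
    rw [norm_mul]
    exact (mul_le_of_le_one_right (norm_nonneg _) (χ.norm_le_one _)).trans (expb_norm K n)
  refine ⟨F, inferInstance, inferInstance, hω, χ,
    LSeries fun n => ((lamK F n : ℂ) - (lamK K n : ℂ) - (lamK K n : ℂ) * χ n) / ((Real.log n : ℝ) : ℂ),
    exc_hol (B := Module.finrank ℚ F + Module.finrank ℚ K + Module.finrank ℚ K) (fun n => ?_)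
      (M := 3 * M) (by omega) fun p hp hpM => ?_, fun s hs => ?_⟩
  · refine (norm_sub_le _ _).trans ((add_le_add (norm_sub_le _ _) le_rfl).trans ?_)
    have h1 := expb_norm F n
    have h2 := expb_norm K n
    have h3 := hχn n
    linarith
  · have h1 := hF p hp fun h => hpM (h.mul_left 3)
    have h2 := hχ p hp fun h => hpM (h ▸ dvd_mul_right 3 M)
    rw [lamK_prime F hp, lamK_prime K hp, h1]
    push_cast
    rw [h2]
    ring
  · have e : (fun n : ℕ => ((lamK F n : ℂ) - (lamK K n : ℂ) - (lamK K n : ℂ) * χ n) / ((Real.log n : ℝ) : ℂ)) =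
        (fun n : ℕ => (lamK F n : ℂ) / ((Real.log n : ℝ) : ℂ)) - (fun n : ℕ => (lamK K n : ℂ) / ((Real.log n : ℝ) : ℂ)) -
          fun n : ℕ => (lamK K n : ℂ) * χ n / ((Real.log n : ℝ) : ℂ) := by
      funext n
      simp only [Pi.sub_apply, sub_div]
    have s1 := (summable_of_le_vM (expb_norm F) hs).2
    have s2 := (summable_of_le_vM (expb_norm K) hs).2
    have s3 := (summable_of_le_vM hχn hs).2
    rw [e, LSeries_sub (s1.sub s2) s3, LSeries_sub s1 s2, zeta_eq, (zeta_exp F hs).1, (zeta_exp K hs).1,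
      twist_exp K χ hs, ← Complex.exp_add, ← Complex.exp_add]
    congr 1
    ring

theorem fb_one (K : Type) [Field K] [NumberField K] {Z : ℂ → ℂ} (hZ : DifferentiableOn ℂ Z {s | 0 < s.re})
    (hZe : ∀ s : ℂ, 1 < s.re → Z s = (s - 1) * LSeries (fun n => (aK K n : ℂ)) s) : Z 1 ≠ 0 := by
  have hc : ContinuousAt Z ((1 : ℝ) : ℂ) :=
    (hZ.differentiableAt ((isOpen_lt continuous_const Complex.continuous_re).mem_nhds (by simp))).continuousAt
  have h1 : Filter.Tendsto (fun t : ℝ => Z t) (nhdsWithin 1 (Set.Ioi 1)) (nhds (Z ((1 : ℝ) : ℂ))) :=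
    (hc.tendsto.comp (Complex.continuous_ofReal.tendsto 1)).mono_left nhdsWithin_le_nhds
  have h2 := tendsto_sub_one_mul_dedekindZeta_nhdsGT K
  have h3 : (fun t : ℝ => Z t) =ᶠ[nhdsWithin 1 (Set.Ioi 1)] fun t : ℝ => ((t : ℂ) - 1) * dedekindZeta K t := by
    filter_upwards [self_mem_nhdsWithin] with t ht
    rw [hZe t (by simpa using ht), zeta_eq]
  have := tendsto_nhds_unique (h1.congr' h3) h2
  rw [Complex.ofReal_one] at this
  rw [this]
  exact Complex.ofReal_ne_zero.2 (dedekindZeta_residue_ne_zero K)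

/-- Fac-b.  `θ = max θ₀ (1/2)`.  With `Z'` from `hecke_cont`, `G Z Z' exp E = (s - 1)²` on `re s > 1`, hence on
`re s > θ` (identity theorem on the convex half plane); at `s = 1` use continuity of `Z` and
`tendsto_sub_one_mul_dedekindZeta_nhdsGT`, `dedekindZeta_residue_ne_zero`. -/
theorem zero_free (h : StZFK) : ∃ θ : ℝ, 1 / 2 ≤ θ ∧ θ < 1 ∧ ∀ (K : Type) [Field K] [NumberField K],
    Odd (Module.finrank ℚ K) → ∀ Z : ℂ → ℂ, DifferentiableOn ℂ Z {s | 0 < s.re} →
      (∀ s : ℂ, 1 < s.re → Z s = (s - 1) * LSeries (fun n => (aK K n : ℂ)) s) →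
      ∀ s : ℂ, θ < s.re → Z s ≠ 0 := by
  obtain ⟨θ₀, hθ₀, h⟩ := h
  refine ⟨max θ₀ (1 / 2), le_max_right _ _, max_lt hθ₀ (by norm_num), fun K _ _ hK Z hZ hZe s hs hs0 => ?_⟩
  obtain ⟨F, _, _, hω, χ, E, hE, hfac⟩ := zeta_factor K hK
  obtain ⟨G, hG, hGe⟩ := h F hω
  obtain ⟨Z', hZ', hZe'⟩ := hecke_cont K (by norm_num : 1 ≤ 3) χ
  have hU : IsOpen {s : ℂ | max θ₀ (1 / 2) < s.re} := isOpen_lt continuous_const Complex.continuous_re
  have s1 : {s : ℂ | max θ₀ (1 / 2) < s.re} ⊆ {s | θ₀ < s.re} := fun z hz =>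
    show θ₀ < z.re from (le_max_left _ _).trans_lt hz
  have s2 : {s : ℂ | max θ₀ (1 / 2) < s.re} ⊆ {s | 1 / 2 < s.re} := fun z hz =>
    show 1 / 2 < z.re from (le_max_right _ _).trans_lt hz
  have s3 : {s : ℂ | max θ₀ (1 / 2) < s.re} ⊆ {s | 0 < s.re} := fun z hz =>
    show 0 < z.re from (by norm_num : (0 : ℝ) < 1 / 2).trans (s2 hz)
  have hf : AnalyticOnNhd ℂ (fun z => G z * Z z * Z' z * Complex.exp (E z))
      {s : ℂ | max θ₀ (1 / 2) < s.re} :=
    ((((hG.mono s1).mul (hZ.mono s3)).mul (hZ'.mono s3)).mul (hE.mono s2).cexp).analyticOnNhd hU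
  have hg : AnalyticOnNhd ℂ (fun z : ℂ => (z - 1) ^ 2) {s : ℂ | max θ₀ (1 / 2) < s.re} :=
    fun z _ => by fun_prop
  have h2 : (2 : ℂ) ∈ {s : ℂ | max θ₀ (1 / 2) < s.re} := by
    change _ < (2 : ℂ).re
    rw [Complex.re_ofNat]
    exact max_lt (by linarith) (by norm_num)
  have hev : (fun z => G z * Z z * Z' z * Complex.exp (E z)) =ᶠ[nhds 2] fun z : ℂ => (z - 1) ^ 2 := by
    have : {s : ℂ | 1 < s.re} ∈ nhds (2 : ℂ) :=
      (isOpen_lt continuous_const Complex.continuous_re).mem_nhds (by simp)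
    filter_upwards [this] with z hz
    have h1 := hGe z hz
    rw [hfac z hz] at h1
    rw [hZe z hz, hZe' z hz]
    linear_combination (z - 1) ^ 2 * h1
  have key := hf.eqOn_of_preconnected_of_eventuallyEq hg (convex_halfSpace_re_gt _).isPreconnected h2 hev hs
  simp only [hs0, mul_zero, zero_mul] at key
  obtain rfl : s = 1 := sub_eq_zero.1 (pow_eq_zero_iff two_ne_zero |>.1 key.symm)
  exact fb_one K hZ hZe hs0

end Crest.Agent.R27.Ku
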