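import Crest.Agent.R27.Ku.Hom
import Crest.Agent.R27.Ku.Arith

/-! Row 27, block Ku (owner helper94): the fields `ℚ(a^(1/q))` and `K(ω)`. -/

set_option autoImplicit false

namespace Crest.Agent.R27.Ku

open NumberField MeasureTheory Finset
open scoped Classical Real nonZeroDivisors ArithmeticFunction.vonMangoldt

open Polynomial in
/-- `card_ext` for the integral closure in an extension with an integral power basis -/
theorem rel_card {R K L S k : Type} [CommRing R] [IsDomain R] [IsIntegrallyClosed R] [Field K] [Algebra R K]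
    [IsFractionRing R K] [Field L] [Algebra K L] [Algebra R L] [IsScalarTower R K L] [FiniteDimensional K L]
    [Algebra.IsSeparable K L] [CommRing S] [Algebra R S] [Algebra S L] [IsScalarTower R S L]
    [IsIntegralClosure S R L] [Field k] (pb : PowerBasis K L) (g : R[X]) (hg : g.Monic)
    (hmin : minpoly K pb.gen = g.map (algebraMap R K)) {δ : R}
    (hδ : algebraMap R K δ = Algebra.discr K pb.basis) (φ : R →+* k) (hφ : φ δ ≠ 0) :
    Nat.card {ψ : S →+* k // ψ.comp (algebraMap R S) = φ} =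
      Nat.card {y : k // (g.map φ).eval y = 0} := by
  have h0 : aeval pb.gen g = 0 := by
    rw [← aeval_map_algebraMap K, ← hmin, minpoly.aeval]
  have hint : IsIntegral R pb.gen := ⟨g, hg, h0⟩
  have hinj := IsIntegralClosure.algebraMap_injective S R L
  have hx : algebraMap S L (IsIntegralClosure.mk' S pb.gen hint) = pb.gen :=
    IsIntegralClosure.algebraMap_mk' S _ hint
  have hae : ∀ P : R[X], algebraMap S L (aeval (IsIntegralClosure.mk' S pb.gen hint) P) = aeval pb.gen P :=
    fun P => by rw [← aeval_algebraMap_apply, hx]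
  have : Module.IsTorsionFree R L := .trans_faithfulSMul R K L
  have hgm : minpoly R pb.gen = g := by
    apply map_injective (algebraMap R K) (IsFractionRing.injective R K)
    rw [← hmin, minpoly.isIntegrallyClosed_eq_field_fractions' K hint]
  refine card_ext (IsIntegralClosure.mk' S pb.gen hint) g δ (fun z => ?_) (fun P => ?_) φ hφ
  · have hz : IsIntegral R (algebraMap S L z) := IsIntegralClosure.isIntegral_iff.2 ⟨z, rfl⟩
    have h1 := Algebra.discr_mul_isIntegral_mem_adjoin K hint hz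
    rw [Algebra.adjoin_singleton_eq_range_aeval] at h1
    obtain ⟨P, hP⟩ := h1
    refine ⟨P, hinj ?_⟩
    rw [hae, map_mul, ← IsScalarTower.algebraMap_apply, IsScalarTower.algebraMap_apply R K L, hδ,
      ← Algebra.smul_def]
    exact hP.symm
  · rw [← hgm, ← minpoly.isIntegrallyClosed_dvd_iff hint, ← hae, map_eq_zero_iff _ hinj]

open Polynomial in
/-- Field-a.  Power basis with an integral generator: `δ = discr` (`Algebra.discr_mul_isIntegral_mem_adjoin`,
`Algebra.adjoin_singleton_eq_range_aeval`, `minpoly.isIntegrallyClosed_dvd_iff`, `PowerBasis`), `card_ext`,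
`aK_prime`, uniqueness of `ℤ →+* ZMod p`;  `discr pb = (index)² discr K` (`Algebra.discr_of_matrix_vecMul` with the
integer matrix of `gen ^ i` in `integralBasis`). -/
theorem aK_of_powerBasis {K : Type} [Field K] [NumberField K] (pb : PowerBasis ℚ K) (g : ℤ[X])
    (hg : g.Monic) (hmin : minpoly ℚ pb.gen = g.map (Int.castRingHom ℚ)) {δ : ℤ}
    (hδ : (δ : ℚ) = Algebra.discr ℚ pb.basis) :
    |discr K| ≤ |δ| ∧ ∀ p : ℕ, p.Prime → ¬ (p : ℤ) ∣ δ →
      aK K p = Nat.card {y : ZMod p // (g.map (Int.castRingHom (ZMod p))).eval y = 0} := by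
  have h0 : aeval pb.gen g = 0 := by
    rw [← aeval_map_algebraMap ℚ, algebraMap_int_eq, ← hmin, minpoly.aeval]
  have hint : IsIntegral ℤ pb.gen := ⟨g, hg, h0⟩
  constructor
  · let e := (integralBasis K).indexEquiv pb.basis
    let b := (integralBasis K).reindex e
    let P : Matrix (Fin pb.dim) (Fin pb.dim) ℤ := fun i j =>
      (RingOfIntegers.basis K).repr ⟨pb.gen ^ (j : ℕ), hint.pow _⟩ (e.symm i)
    have hP : b.toMatrix pb.basis = (Int.castRingHom ℚ).mapMatrix P := by
      ext i j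
      rw [Module.Basis.toMatrix_apply, Module.Basis.repr_reindex_apply, pb.coe_basis]
      exact integralBasis_repr_apply K ⟨pb.gen ^ (j : ℕ), hint.pow _⟩ (e.symm i)
    have h1 := Algebra.discr_of_matrix_vecMul b (b.toMatrix pb.basis)
    rw [Module.Basis.toMatrix_map_vecMul, ← hδ, hP, ← RingHom.map_det, Module.Basis.coe_reindex,
      Algebra.discr_reindex, ← coe_discr] at h1
    have h2 : δ = P.det ^ 2 * discr K := by
      rw [eq_intCast] at h1
      exact_mod_cast h1
    have h3 : δ ≠ 0 := by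
      have := Algebra.discr_not_zero_of_basis ℚ pb.basis
      rw [← hδ] at this
      exact_mod_cast this
    exact Int.le_of_dvd (abs_pos.2 h3) ((abs_dvd_abs _ _).2 (h2 ▸ dvd_mul_left _ _))
  · intro p hp hpδ
    have := Fact.mk hp
    rw [aK_prime _ hp, ← rel_card (S := 𝓞 K) pb g hg hmin hδ (Int.castRingHom (ZMod p))
      (by rwa [eq_intCast, Ne, ZMod.intCast_zmod_eq_zero_iff_dvd])]
    exact Nat.card_congr (Equiv.subtypeUnivEquiv fun ψ => Subsingleton.elim _ _).symm

/-- Field-b.  `K = AdjoinRoot (X ^ q - C (a : ℚ))` (`X_pow_sub_C_irreducible_of_prime`: a rational `q`-th root of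
`a` is an integer `b` with `|b| ≥ 2`), `AdjoinRoot.powerBasis`, `Algebra.discr_powerBasis_eq_norm`,
`N (q α^(q-1)) = q^q N(α)^(q-1)`, `N α = ± a` (`PowerBasis.norm_gen_eq_coeff_zero_minpoly`), `aK_of_powerBasis` -/
theorem exists_F0 {a : ℤ} (ha : 2 ≤ |a|) {q : ℕ} (hq : q.Prime) (haq : |a| < 2 ^ q) :
    ∃ (K : Type) (_ : Field K) (_ : NumberField K), Module.finrank ℚ K = q ∧
      |discr K| ≤ (q : ℤ) ^ q * |a| ^ q ∧ ∀ p : ℕ, p.Prime → ¬ (p : ℤ) ∣ q * a →
        aK K p = Nat.card {y : ZMod p // y ^ q = (a : ZMod p)} := by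
  have hirr : Irreducible (Polynomial.X ^ q - Polynomial.C (a : ℚ)) := by
    refine X_pow_sub_C_irreducible_of_prime hq fun b hb => ?_
    have hbi : IsIntegral ℤ b := IsIntegral.of_pow hq.pos (hb ▸ isIntegral_algebraMap (R := ℤ) (x := a))
    obtain ⟨c, rfl⟩ := IsIntegrallyClosed.isIntegral_iff.1 hbi
    have hc : c ^ q = a := by
      rw [eq_intCast] at hb
      exact_mod_cast hb
    rw [← hc, abs_pow] at ha haq
    rcases le_or_gt 2 |c| with h | h
    · exact absurd (pow_le_pow_left₀ (by norm_num) h q) (not_le.2 haq)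
    · have := pow_le_one₀ (n := q) (abs_nonneg c) (by omega)
      omega
  have : Fact (Irreducible (Polynomial.X ^ q - Polynomial.C (a : ℚ))) := ⟨hirr⟩
  set f : Polynomial ℚ := Polynomial.X ^ q - Polynomial.C (a : ℚ) with hf
  have hm : f.Monic := Polynomial.monic_X_pow_sub_C _ hq.ne_zero
  have hdeg : f.natDegree = q := Polynomial.natDegree_X_pow_sub_C
  let pb : PowerBasis ℚ (AdjoinRoot f) := AdjoinRoot.powerBasis hm.ne_zero
  have hmin : minpoly ℚ pb.gen = f := AdjoinRoot.minpoly_powerBasis_gen_of_monic hm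
  have hdim : pb.dim = q := by rw [← pb.natDegree_minpoly, hmin, hdeg]
  have hrk : Module.finrank ℚ (AdjoinRoot f) = q := by rw [pb.finrank, hdim]
  have hN : Algebra.norm ℚ pb.gen = (-1) ^ q * (-a) := by
    rw [Algebra.PowerBasis.norm_gen_eq_coeff_zero_minpoly, hmin, hdim]
    simp [hf, Polynomial.coeff_X_pow, hq.ne_zero.symm]
  have hdisc : (((-1) ^ (q * (q - 1) / 2) * (q ^ q * ((-1) ^ q * (-a)) ^ (q - 1)) : ℤ) : ℚ) =
      Algebra.discr ℚ pb.basis := by
    rw [Algebra.discr_powerBasis_eq_norm, hmin, hrk]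
    have : Polynomial.aeval pb.gen (Polynomial.derivative f) =
        algebraMap ℚ (AdjoinRoot f) q * pb.gen ^ (q - 1) := by
      simp only [hf, map_sub, Polynomial.derivative_X_pow, Polynomial.derivative_C, map_mul, map_pow,
        Polynomial.aeval_X, sub_zero, Polynomial.aeval_C]
    rw [this, map_mul, map_pow, Algebra.norm_algebraMap, hrk, hN]
    push_cast
    ring
  obtain ⟨h1, h2⟩ := aK_of_powerBasis pb (Polynomial.X ^ q - Polynomial.C a)
    (Polynomial.monic_X_pow_sub_C _ hq.ne_zero) (by rw [hmin, hf]; simp) hdisc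
  refine ⟨AdjoinRoot f, inferInstance, inferInstance, hrk, h1.trans ?_, fun p hp hpa => ?_⟩
  · simp only [abs_mul, abs_pow, abs_neg, abs_one, one_pow, one_mul, Nat.abs_cast]
    exact mul_le_mul_of_nonneg_left (pow_le_pow_right₀ (by omega) (Nat.sub_le _ _)) (by positivity)
  · have hp' : Prime (p : ℤ) := Nat.prime_iff_prime_int.1 hp
    rw [h2 p hp fun h => hpa ?_]
    · simp [sub_eq_zero]
    · rw [← dvd_abs] at h
      simp only [abs_mul, abs_pow, abs_neg, abs_one, one_pow, one_mul, Nat.abs_cast] at h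
      rcases hp'.dvd_or_dvd h with h | h
      · exact (hp'.dvd_of_dvd_pow h).mul_right _
      · exact ((dvd_abs _ _).1 (hp'.dvd_of_dvd_pow h)).mul_left _

open Polynomial in
theorem fc_irred (K : Type) [Field K] [NumberField K] (hK : Odd (Module.finrank ℚ K)) :
    Irreducible (X ^ 2 + X + 1 : K[X]) := by
  have hd : ∀ (k : Type) [Field k], (X ^ 2 + X + 1 : k[X]).natDegree = 2 := fun k _ => by compute_degree!
  have hm : ∀ (k : Type) [Field k], (X ^ 2 + X + 1 : k[X]).Monic := fun k _ => by monicity!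
  have key : ∀ (k : Type) [Field k], (∀ y : k, y ^ 2 + y + 1 ≠ 0) → Irreducible (X ^ 2 + X + 1 : k[X]) :=
    fun k _ h => by
      rw [irreducible_iff_roots_eq_zero_of_degree_le_three (by rw [hd]) (by rw [hd]; norm_num),
        Multiset.eq_zero_iff_forall_notMem]
      intro y hy
      rw [mem_roots (hm k).ne_zero] at hy
      exact h y (by simpa using hy)
  refine key K fun y hy => ?_
  have hQ := key ℚ fun r hr => by nlinarith [sq_nonneg (2 * r + 1)]
  have h1 : X ^ 2 + X + 1 = minpoly ℚ y := minpoly.eq_of_irreducible_of_monic hQ (by simpa using hy) (hm ℚ)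
  have h2 := minpoly.degree_dvd (Algebra.IsIntegral.isIntegral (R := ℚ) y)
  rw [← h1, hd] at h2
  exact (Nat.not_even_iff_odd.2 hK) (even_iff_two_dvd.2 h2)

/-- Field-c.  `F = AdjoinRoot (X ^ 2 + X + 1 : K[X])`, irreducible since a root in `K` would generate a subfield of
degree `2`; `card_ext` over `R = 𝓞 K`, `S = 𝓞 F`, `x = ω`, `g = X ^ 2 + X + 1`, `δ = -3` (the discriminant of `1, ω`;
any `δ` dividing a nonzero integer `M` will do); `aK_prime`, count `𝓞 F →+* ZMod p` along the restriction to `𝓞 K`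
(`Equiv.sigmaFiberEquiv`, `Nat.card_sigma`). -/
theorem exists_F (K : Type) [Field K] [NumberField K] (hK : Odd (Module.finrank ℚ K)) :
    ∃ (F : Type) (_ : Field F) (_ : NumberField F), (∃ ω : F, ω ^ 2 + ω + 1 = 0) ∧ ∃ M : ℕ, M ≠ 0 ∧
      ∀ p : ℕ, p.Prime → ¬ p ∣ M → aK F p = aK K p * Nat.card {y : ZMod p // y ^ 2 + y + 1 = 0} := by
  have : Fact (Irreducible (Polynomial.X ^ 2 + Polynomial.X + 1 : Polynomial K)) := ⟨fc_irred K hK⟩
  set f : Polynomial K := Polynomial.X ^ 2 + Polynomial.X + 1 with hf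
  have hm : f.Monic := by rw [hf]; monicity!
  have hdeg : f.natDegree = 2 := by rw [hf]; compute_degree!
  let pb : PowerBasis K (AdjoinRoot f) := AdjoinRoot.powerBasis hm.ne_zero
  have : FiniteDimensional K (AdjoinRoot f) := pb.finite
  have : NumberField (AdjoinRoot f) := NumberField.of_module_finite K _
  have hgen : pb.gen = AdjoinRoot.root f := rfl
  have hmin : minpoly K pb.gen = f := AdjoinRoot.minpoly_powerBasis_gen_of_monic hm
  have hω : pb.gen ^ 2 + pb.gen + 1 = 0 := by
    have := minpoly.aeval K pb.gen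
    rw [hmin] at this
    simpa only [hf, map_add, map_pow, Polynomial.aeval_X, map_one] using this
  have hrk : Module.finrank K (AdjoinRoot f) = 2 := by rw [pb.finrank, ← pb.natDegree_minpoly, hmin, hdeg]
  have hdisc : Algebra.discr K pb.basis ^ 2 = 9 := by
    rw [Algebra.discr_powerBasis_eq_norm, mul_pow, ← pow_mul, mul_comm _ 2, pow_mul, neg_one_sq, one_pow, one_mul,
      ← map_pow, hmin]
    have : Polynomial.aeval pb.gen (Polynomial.derivative f) ^ 2 = algebraMap K (AdjoinRoot f) (-3) := by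
      simp only [hf, map_add, Polynomial.derivative_X_pow, Polynomial.derivative_X, Polynomial.derivative_one,
        map_mul, map_pow, Polynomial.aeval_X, map_one, map_zero, map_neg, map_natCast, map_ofNat]
      push_cast
      linear_combination 4 * hω
    rw [this, Algebra.norm_algebraMap, hrk]
    norm_num
  obtain ⟨δ, hδ, hδ2⟩ : ∃ δ : 𝓞 K, algebraMap (𝓞 K) K δ = Algebra.discr K pb.basis ∧ δ ^ 2 = 9 := by
    rcases sq_eq_sq_iff_eq_or_eq_neg.1 (show Algebra.discr K pb.basis ^ 2 = 3 ^ 2 by rw [hdisc]; norm_num) with h | h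
    · exact ⟨3, by rw [h, map_ofNat], by norm_num⟩
    · exact ⟨-3, by rw [h, map_neg, map_ofNat], by norm_num⟩
  refine ⟨AdjoinRoot f, inferInstance, inferInstance, ⟨pb.gen, hω⟩, 3, by norm_num, fun p hp hp3 => ?_⟩
  have := Fact.mk hp
  have hφ : ∀ φ : 𝓞 K →+* ZMod p, φ δ ≠ 0 := fun φ h0 => by
    have h9 : ((9 : ℕ) : ZMod p) = 0 := by
      have := congrArg φ hδ2
      rw [map_pow, h0, map_ofNat] at this
      rw [Nat.cast_ofNat, ← this]
      norm_num
    rw [ZMod.natCast_eq_zero_iff] at h9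
    exact hp3 (hp.dvd_of_dvd_pow (show p ∣ 3 ^ 2 from h9))
  have hfib : ∀ φ : 𝓞 K →+* ZMod p, Nat.card {ψ : 𝓞 (AdjoinRoot f) →+* ZMod p //
      ψ.comp (algebraMap (𝓞 K) (𝓞 (AdjoinRoot f))) = φ} = Nat.card {y : ZMod p // y ^ 2 + y + 1 = 0} := fun φ => by
    rw [rel_card pb (Polynomial.X ^ 2 + Polynomial.X + 1) (by monicity!) (by rw [hmin, hf]; simp) hδ φ (hφ φ)]
    simp
  have hfin : ∀ (L : Type) [Field L] [NumberField L], Finite (𝓞 L →+* ZMod p) := fun L _ _ =>
    Finite.of_injective (fun ψ : 𝓞 L →+* ZMod p => fun i => ψ (RingOfIntegers.basis L i)) fun ψ ψ' h => by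
      have : ψ.toIntAlgHom.toLinearMap = ψ'.toIntAlgHom.toLinearMap :=
        (RingOfIntegers.basis L).ext fun i => congrFun h i
      exact RingHom.ext fun x => LinearMap.congr_fun this x
  have := hfin K
  have := hfin (AdjoinRoot f)
  have := Fintype.ofFinite (𝓞 K →+* ZMod p)
  rw [aK_prime _ hp, aK_prime _ hp, ← Nat.card_congr (Equiv.sigmaFiberEquiv
    fun ψ : 𝓞 (AdjoinRoot f) →+* ZMod p => ψ.comp (algebraMap (𝓞 K) (𝓞 (AdjoinRoot f)))), Nat.card_sigma]
  simp only [hfib, sum_const, card_univ, smul_eq_mul, Nat.card_eq_fintype_card (α := 𝓞 K →+* ZMod p)]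

end Crest.Agent.R27.Ku
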