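import Crest.Agent.R27.Ku.Pois

/-! Row 27, block Ku (owner helper94): Poisson summation for Gaussians on a lattice. -/

set_option autoImplicit false

namespace Crest.Agent.R27.Ku

open NumberField MeasureTheory Finset
open scoped Classical Real

variable {ι : Type} [Fintype ι]

/-- Gauss-a.  `|t| ≤ 1 + π t² / 2 ≤ exp (π t² / 2)` -/
theorem fS_le (S : Finset ι) (x : ι → ℝ) : |fS S x| ≤ Real.exp (-(π / 2 * ∑ i, x i ^ 2)) := by
  have h1 : |∏ i ∈ S, x i| ≤ Real.exp (π / 2 * ∑ i, x i ^ 2) := by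
    rw [abs_prod]
    refine (prod_le_prod (g := fun i => Real.exp (π / 2 * x i ^ 2)) (fun _ _ => abs_nonneg _)
      fun i _ => le_trans ?_ (Real.add_one_le_exp _)).trans ?_
    · nlinarith [sq_nonneg (|x i| - 1), sq_abs (x i), Real.pi_gt_three, sq_nonneg (x i)]
    · rw [← Real.exp_sum, ← mul_sum]
      gcongr
      exact subset_univ S
  rw [fS, abs_mul, Real.abs_exp]
  refine (mul_le_mul_of_nonneg_right h1 (Real.exp_pos _).le).trans_eq ?_
  rw [← Real.exp_add]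
  congr 1
  ring

/-- Gauss-a -/
theorem continuous_fS (S : Finset ι) : Continuous (fS S) := by
  unfold fS
  fun_prop

theorem gaa_zero (ξ : ℝ) : ∫ t : ℝ, Complex.exp (-π * (t : ℂ) ^ 2 + -(2 * π * Complex.I * ξ) * t + 0) =
    Complex.exp (-(π * (ξ : ℂ) ^ 2)) := by
  have h0 : (π : ℂ) ≠ 0 := Complex.ofReal_ne_zero.2 Real.pi_ne_zero
  rw [integral_cexp_quadratic (by simpa using Real.pi_pos), neg_neg, div_self h0, Complex.one_cpow, one_mul]
  congr 1
  field_simp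
  linear_combination (4 * π * (ξ : ℂ) ^ 2) * Complex.I_sq

theorem gaa_one (ξ : ℝ) :
    ∫ t : ℝ, (t : ℂ) * Complex.exp (-π * (t : ℂ) ^ 2 + -(2 * π * Complex.I * ξ) * t + 0) =
      -Complex.I * ξ * Complex.exp (-(π * (ξ : ℂ) ^ 2)) := by
  have h0 : (π : ℂ) ≠ 0 := Complex.ofReal_ne_zero.2 Real.pi_ne_zero
  have h1 := integrable_cexp_quadratic (b := π) (by simpa using Real.pi_pos) (-(2 * π * Complex.I * ξ)) 0
  have h2 : Integrable fun t : ℝ =>
      (t : ℂ) * Complex.exp (-π * (t : ℂ) ^ 2 + -(2 * π * Complex.I * ξ) * t + 0) := by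
    refine (integrable_mul_cexp_neg_mul_sq (b := π) (by simpa using Real.pi_pos)).mono
      (Continuous.aestronglyMeasurable (by fun_prop)) (Filter.Eventually.of_forall fun t => le_of_eq ?_)
    simp [Complex.norm_exp]
  have h3 := integral_eq_zero_of_hasDerivAt_of_integrable (fun t : ℝ => (((((hasDerivAt_pow 2 (t : ℂ)).const_mul
    (-π : ℂ)).add ((hasDerivAt_id' (t : ℂ)).const_mul (-(2 * π * Complex.I * ξ)))).add_const 0).cexp).comp_ofReal)
    (((h2.const_mul (-2 * π)).add (h1.const_mul (-(2 * π * Complex.I * ξ)))).congr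
      (Filter.Eventually.of_forall fun t => by simp; ring)) h1
  have h4 := integral_add (h2.const_mul (-2 * π)) (h1.const_mul (-(2 * π * Complex.I * ξ)))
  rw [integral_const_mul, integral_const_mul, gaa_zero,
    (integral_congr_ae (Filter.Eventually.of_forall fun t => by simp; ring)).trans h3] at h4
  exact mul_left_cancel₀ (mul_ne_zero two_ne_zero h0) (by linear_combination h4)

/-- Gauss-a.  One variable: `∫ exp (-π t²) e(-ξ t) = exp (-π ξ²)` (`fourierIntegral_gaussian`,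
`integral_cexp_quadratic`) and `∫ t exp (-π t²) e(-ξ t) = -i ξ exp (-π ξ²)` (the integral of the derivative of
`exp (-π t² - 2 π i ξ t)` vanishes, `integral_eq_zero_of_hasDerivAt_of_integrable`); then
`integral_fintype_prod_volume_eq_prod`. -/
theorem ft_fS (S : Finset ι) (ξ : ι → ℝ) :
    ft (fun x => ((fS S x : ℝ) : ℂ)) ξ = (-Complex.I) ^ S.card * ((fS S ξ : ℝ) : ℂ) := by
  have h1 : ∀ x : ι → ℝ, ((fS S x : ℝ) : ℂ) * Complex.exp (-(2 * π * Complex.I * ((∑ i, ξ i * x i : ℝ) : ℂ))) =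
      ∏ i, (if i ∈ S then (x i : ℂ) else 1) *
        Complex.exp (-π * (x i : ℂ) ^ 2 + -(2 * π * Complex.I * ξ i) * x i + 0) := fun x => by
    rw [prod_mul_distrib, prod_ite_mem, univ_inter, ← Complex.exp_sum, fS]
    push_cast
    rw [mul_assoc, ← Complex.exp_add, mul_sum, mul_sum, ← sum_neg_distrib, ← sum_neg_distrib,
      ← sum_add_distrib]
    congr 2
    exact sum_congr rfl fun i _ => by ring
  have h2 : ∀ i, ∫ t : ℝ, (if i ∈ S then (t : ℂ) else 1) *
      Complex.exp (-π * (t : ℂ) ^ 2 + -(2 * π * Complex.I * ξ i) * t + 0) =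
        (if i ∈ S then -Complex.I * ξ i else 1) * Complex.exp (-(π * (ξ i : ℂ) ^ 2)) := fun i => by
    split_ifs
    · exact gaa_one _
    · simp only [one_mul, gaa_zero]
  simp only [ft, h1]
  rw [integral_fintype_prod_volume_eq_prod fun i (t : ℝ) => (if i ∈ S then (t : ℂ) else 1) *
    Complex.exp (-π * (t : ℂ) ^ 2 + -(2 * π * Complex.I * ξ i) * t + 0)]
  simp only [h2]
  rw [prod_mul_distrib, prod_ite_mem, univ_inter, ← Complex.exp_sum, fS, prod_mul_distrib, prod_const,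
    sum_neg_distrib, ← mul_sum, mul_assoc]
  push_cast
  rfl

variable [DecidableEq ι]

theorem gb_det {A B : Matrix ι ι ℝ} (hAB : A.transpose * B = 1) : A.det ≠ 0 ∧ B.det ≠ 0 := by
  have h := congrArg Matrix.det hAB
  rw [Matrix.det_mul, Matrix.det_transpose, Matrix.det_one] at h
  exact ⟨left_ne_zero_of_mul_eq_one h, right_ne_zero_of_mul_eq_one h⟩

theorem gb_inv {A : Matrix ι ι ℝ} (hA : A.det ≠ 0) (w : ι → ℝ) : A⁻¹.mulVec (A.mulVec w) = w := by
  rw [Matrix.mulVec_mulVec, Matrix.nonsing_inv_mul _ (isUnit_iff_ne_zero.2 hA), Matrix.one_mulVec]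

theorem gb_cont (A : Matrix ι ι ℝ) : Continuous fun x : ι → ℝ => A.mulVec x :=
  LinearMap.continuous_on_pi (Matrix.toLin' A)

theorem gb_int {A : Matrix ι ι ℝ} (hA : A.det ≠ 0) (G : (ι → ℝ) → ℂ) :
    ∫ x : ι → ℝ, G (A.mulVec x) = ((|A.det|⁻¹ : ℝ) : ℂ) * ∫ y : ι → ℝ, G y := by
  have hm : MeasurableEmbedding (Matrix.toLin' A) :=
    (LinearMap.continuous_on_pi (Matrix.toLin' A)).measurableEmbedding fun x y hxy => by
      have h := congrArg A⁻¹.mulVec hxy
      rwa [Matrix.toLin'_apply, Matrix.toLin'_apply, gb_inv hA, gb_inv hA] at h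
  have h := hm.integral_map (μ := volume) G
  rw [Real.map_matrix_volume_pi_eq_smul_volume_pi hA, integral_smul_measure,
    ENNReal.toReal_ofReal (abs_nonneg _), abs_inv, Complex.real_smul] at h
  exact h.symm

/-- Gauss-b.  Linear change of variables (`Real.map_matrix_volume_pi_eq_smul_volume_pi`,
`integral_add_right_eq_self`); `x = Bᵀ x' - v`, `ξ · Bᵀ x' = (B ξ) · x'`. -/
theorem ft_lin {A B : Matrix ι ι ℝ} (hAB : A.transpose * B = 1) (g : (ι → ℝ) → ℂ) (v ξ : ι → ℝ) :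
    ft (fun x => g (A.mulVec (x + v))) ξ = ((|A.det|⁻¹ : ℝ) : ℂ) *
      Complex.exp (2 * π * Complex.I * ((∑ i, ξ i * v i : ℝ) : ℂ)) * ft g (B.mulVec ξ) := by
  have hdot : ∀ x : ι → ℝ, ∑ i, B.mulVec ξ i * A.mulVec x i = ∑ i, ξ i * x i := by
    intro x
    have h1 : A.mulVec x ⬝ᵥ B.mulVec ξ = x ⬝ᵥ ξ := by
      rw [← Matrix.vecMul_transpose, ← Matrix.dotProduct_mulVec, Matrix.mulVec_mulVec, hAB,
        Matrix.one_mulVec]
    rw [dotProduct_comm, dotProduct_comm x] at h1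
    exact h1
  have h1 := gb_int (gb_det hAB).1 fun y =>
    g y * Complex.exp (-(2 * π * Complex.I * ((∑ i, B.mulVec ξ i * y i : ℝ) : ℂ)))
  have h2 := integral_add_right_eq_self (μ := (volume : Measure (ι → ℝ))) (fun x =>
    g (A.mulVec x) * Complex.exp (-(2 * π * Complex.I * ((∑ i, ξ i * x i : ℝ) : ℂ)))) v
  simp only [hdot] at h1
  unfold ft
  rw [mul_right_comm (((|A.det|⁻¹ : ℝ)) : ℂ), ← h1, ← h2, ← integral_mul_const]
  congr 1
  ext x
  rw [mul_assoc (g _), ← Complex.exp_add]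
  congr 2
  simp only [Pi.add_apply, mul_add, sum_add_distrib]
  push_cast
  ring

/-- Gauss-b.  `‖x‖ ≤ c ‖A x‖` (the inverse is a continuous linear map), `‖z‖² ≤ ∑ z i ^ 2` -/
theorem gauss_decay {A : Matrix ι ι ℝ} (hA : A.det ≠ 0) {l : ℝ} (hl : 0 < l) (v : ι → ℝ) (b : ℝ) :
    ∃ C : ℝ, ∀ x : ι → ℝ,
      Real.exp (-(l * ∑ i, A.mulVec (x + v) i ^ 2)) ≤ C * (1 + ‖x‖) ^ (-b) := by
  set L := LinearMap.toContinuousLinearMap (Matrix.toLin' A⁻¹) with hL
  refine ⟨Real.exp (|b| * ‖v‖ + (|b| * ‖L‖) ^ 2 / (4 * l)), fun x => ?_⟩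
  set z := A.mulVec (x + v) with hz
  set S := ∑ i, z i ^ 2 with hS
  have hS0 : 0 ≤ S := sum_nonneg fun i _ => sq_nonneg _
  have h1 : ‖z‖ ≤ √S := (pi_norm_le_iff_of_nonneg (Real.sqrt_nonneg _)).2 fun i =>
    Real.abs_le_sqrt (single_le_sum (f := fun i => z i ^ 2) (fun i _ => sq_nonneg _) (mem_univ i))
  have h2 : ‖x + v‖ ≤ ‖L‖ * ‖z‖ := by
    have h := L.le_opNorm z
    rwa [show L z = x + v from gb_inv hA (x + v)] at h
  have h3 : ‖x‖ ≤ ‖L‖ * √S + ‖v‖ := by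
    have h4 : ‖x‖ ≤ ‖x + v‖ + ‖v‖ := by simpa using norm_sub_le (x + v) v
    have h5 := mul_le_mul_of_nonneg_left h1 (norm_nonneg L)
    linarith
  have hx := norm_nonneg x
  have h6 : Real.log (1 + ‖x‖) ≤ ‖x‖ := by
    have := Real.log_le_sub_one_of_pos (by linarith : 0 < 1 + ‖x‖)
    linarith
  have h7 : 0 ≤ Real.log (1 + ‖x‖) := Real.log_nonneg (by linarith)
  have h8 : b * Real.log (1 + ‖x‖) ≤ |b| * (‖L‖ * √S + ‖v‖) :=
    (mul_le_mul_of_nonneg_right (le_abs_self b) h7).trans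
      (mul_le_mul_of_nonneg_left (h6.trans h3) (abs_nonneg b))
  have h9 : |b| * ‖L‖ * √S ≤ (|b| * ‖L‖) ^ 2 / (4 * l) + l * S := by
    have e : l * S = l * √S ^ 2 := by rw [Real.sq_sqrt hS0]
    rw [e, ← sub_nonneg]
    have e2 : (|b| * ‖L‖) ^ 2 / (4 * l) + l * √S ^ 2 - |b| * ‖L‖ * √S =
        (|b| * ‖L‖ - 2 * l * √S) ^ 2 / (4 * l) := by
      field_simp
      ring
    rw [e2]
    positivity
  rw [Real.rpow_def_of_pos (by linarith), ← Real.exp_add, Real.exp_le_exp]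
  linarith

/-- Gauss-b.  `gauss_decay`, `summable_decay` -/
theorem summable_gauss {A : Matrix ι ι ℝ} (hA : A.det ≠ 0) {l : ℝ} (hl : 0 < l) :
    Summable fun m : ι → ℤ => Real.exp (-(l * ∑ i, lat A m i ^ 2)) := by
  obtain ⟨C, hC⟩ := gauss_decay hA hl 0 ((Fintype.card ι : ℝ) + 1)
  refine Summable.of_nonneg_of_le (fun m => (Real.exp_pos _).le) (fun m => ?_)
    ((summable_decay (ι := ι) (lt_add_one _)).mul_left C)
  have h := hC fun i => (m i : ℝ)
  rwa [add_zero] at h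

/-- Gauss-b.  `pois_pi` for `x ↦ fS S (A (x + v))`, `fS_le`, `gauss_decay`, `ft_lin`, `ft_fS` -/
theorem gauss_pois {A B : Matrix ι ι ℝ} (hAB : A.transpose * B = 1) (S : Finset ι) (v : ι → ℝ) :
    ∑' m : ι → ℤ, ((fS S (A.mulVec ((fun i => (m i : ℝ)) + v)) : ℝ) : ℂ) =
      ((|A.det|⁻¹ : ℝ) : ℂ) * ∑' k : ι → ℤ, (-Complex.I) ^ S.card *
        Complex.exp (2 * π * Complex.I * ((∑ i, (k i : ℝ) * v i : ℝ) : ℂ)) *
          ((fS S (lat B k) : ℝ) : ℂ) := by
  obtain ⟨hA, hB⟩ := gb_det hAB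
  have hπ : 0 < π / 2 := by positivity
  obtain ⟨C, hC⟩ := gauss_decay hA hπ v ((Fintype.card ι : ℝ) + 1)
  have hft : ∀ k : ι → ℤ, ft (fun x => ((fS S (A.mulVec (x + v)) : ℝ) : ℂ)) (fun i => (k i : ℝ)) =
      ((|A.det|⁻¹ : ℝ) : ℂ) * ((-Complex.I) ^ S.card *
        Complex.exp (2 * π * Complex.I * ((∑ i, (k i : ℝ) * v i : ℝ) : ℂ)) *
          ((fS S (lat B k) : ℝ) : ℂ)) := by
    intro k
    rw [ft_lin hAB (fun x => ((fS S x : ℝ) : ℂ)), ft_fS, lat]
    ring
  have hcont : Continuous fun x : ι → ℝ => ((fS S (A.mulVec (x + v)) : ℝ) : ℂ) :=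
    Complex.continuous_ofReal.comp ((continuous_fS S).comp
      ((gb_cont A).comp (continuous_id.add continuous_const)))
  refine (pois_pi hcont (C := C) (lt_add_one _) (fun x => ?_) ?_).trans
    ((tsum_congr hft).trans tsum_mul_left)
  · rw [Complex.norm_real, Real.norm_eq_abs]
    exact (fS_le S _).trans (hC x)
  · refine Summable.of_norm_bounded ((summable_gauss hB hπ).mul_left |A.det|⁻¹) fun k => ?_
    have he : ‖Complex.exp (2 * π * Complex.I * ((∑ i, (k i : ℝ) * v i : ℝ) : ℂ))‖ = 1 := by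
      rw [show 2 * π * Complex.I * ((∑ i, (k i : ℝ) * v i : ℝ) : ℂ) =
        ((2 * π * ∑ i, (k i : ℝ) * v i : ℝ) : ℂ) * Complex.I by push_cast; ring,
        Complex.norm_exp_ofReal_mul_I]
    rw [hft, norm_mul, norm_mul, norm_mul, he, norm_pow, norm_neg, Complex.norm_I, one_pow, one_mul,
      one_mul, Complex.norm_real, Complex.norm_real, Real.norm_of_nonneg (by positivity),
      Real.norm_eq_abs]
    exact mul_le_mul_of_nonneg_left (fS_le S _) (by positivity)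

end Crest.Agent.R27.Ku
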