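import Crest.Agent.R27.Ku.Defs

/-! Row 27, block Ku (owner helper94): ring homomorphisms to a field and roots of polynomials. -/

set_option autoImplicit false

namespace Crest.Agent.R27.Ku

open NumberField MeasureTheory Finset
open scoped Classical Real nonZeroDivisors ArithmeticFunction.vonMangoldt

open Polynomial in
/-- Hom-a.  `ψ ↦ ψ x`.  Given a root `y`, put `ψ z = (P.map φ).eval y / φ δ` for any `P` with `δ z = P(x)`;
`(P.map φ).eval y` depends only on `P(x)` by `h2`. -/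
theorem card_ext {R S k : Type} [CommRing R] [CommRing S] [Algebra R S] [Field k] (x : S) (g : R[X])
    (δ : R) (h1 : ∀ z : S, ∃ P : R[X], algebraMap R S δ * z = aeval x P)
    (h2 : ∀ P : R[X], aeval x P = 0 ↔ g ∣ P) (φ : R →+* k) (hφ : φ δ ≠ 0) :
    Nat.card {ψ : S →+* k // ψ.comp (algebraMap R S) = φ} =
      Nat.card {y : k // (g.map φ).eval y = 0} := by
  have hev : ∀ (ψ : S →+* k), ψ.comp (algebraMap R S) = φ → ∀ P : R[X],
      ψ (aeval x P) = P.eval₂ φ (ψ x) := fun ψ hψ P => by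
    rw [aeval_def, hom_eval₂, hψ]
  refine Nat.card_eq_of_bijective (fun ψ => ⟨ψ.1 x, ?_⟩) ⟨fun ψ ψ' h => ?_, fun y => ?_⟩
  · rw [eval_map, ← hev ψ.1 ψ.2, (h2 g).2 dvd_rfl, map_zero]
  · refine Subtype.ext (RingHom.ext fun z => mul_left_cancel₀ hφ ?_)
    obtain ⟨P, hP⟩ := h1 z
    have e : ∀ χ : S →+* k, χ.comp (algebraMap R S) = φ → φ δ * χ z = P.eval₂ φ (χ x) := fun χ hχ => by
      rw [← hev χ hχ, ← hP, map_mul, ← hχ, RingHom.comp_apply]
    rw [e _ ψ.2, e _ ψ'.2, show ψ.1 x = ψ'.1 x from congrArg Subtype.val h]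
  · obtain ⟨y, hy⟩ := y
    have key : ∀ P Q : R[X], aeval x P = aeval x Q → P.eval₂ φ y = Q.eval₂ φ y := fun P Q h => by
      obtain ⟨T, hT⟩ := (h2 (P - Q)).1 (by rw [map_sub, h, sub_self])
      rw [← sub_eq_zero, ← eval₂_sub, hT, eval₂_mul, ← eval_map, hy, zero_mul]
    choose p hp using h1
    have hc : ∀ (z : S) (P : R[X]), algebraMap R S δ * z = aeval x P →
        (p z).eval₂ φ y / φ δ = P.eval₂ φ y / φ δ := fun z P h => by
      rw [key _ _ ((hp z).symm.trans h)]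
    have ha : ∀ r : R, (p (algebraMap R S r)).eval₂ φ y / φ δ = φ r := fun r => by
      rw [hc _ (C (δ * r)) (by rw [aeval_C, map_mul]), eval₂_C, map_mul, mul_div_cancel_left₀ _ hφ]
    let ψ : S →+* k :=
      { toFun := fun z => (p z).eval₂ φ y / φ δ
        map_one' := by simpa using ha 1
        map_zero' := by simpa using ha 0
        map_add' := fun z w => by
          rw [hc _ (p z + p w) (by rw [mul_add, hp, hp, map_add]), eval₂_add, add_div]
        map_mul' := fun z w => by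
          have := key (C δ * p (z * w)) (p z * p w) (by
            rw [map_mul, map_mul, aeval_C, ← hp, ← hp, ← hp]; ring)
          rw [eval₂_mul, eval₂_mul, eval₂_C] at this
          field_simp
          linear_combination this }
    refine ⟨⟨ψ, RingHom.ext ha⟩, Subtype.ext ?_⟩
    change (p x).eval₂ φ y / φ δ = y
    rw [hc _ (C δ * X) (by rw [map_mul, aeval_C, aeval_X]), eval₂_mul, eval₂_C, eval₂_X,
      mul_div_cancel_left₀ _ hφ]

theorem hb_card {p : ℕ} [Fact p.Prime] : Nat.card (ZMod p)ˣ = p - 1 := by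
  rw [Nat.card_eq_fintype_card, ZMod.card_units]

/-- Hom-b.  `y ↦ y ^ q` is a bijection of the group `(ZMod p)ˣ` of order `p - 1` (`powCoprime`) -/
theorem roots_pow_one {p q : ℕ} (hp : p.Prime) (hq : q.Prime) (h : ¬ q ∣ p - 1) (a : ZMod p) :
    1 ≤ Nat.card {y : ZMod p // y ^ q = a} := by
  have _ := Fact.mk hp
  have : Nonempty {y : ZMod p // y ^ q = a} := by
    by_cases ha : a = 0
    · exact ⟨0, by rw [ha, zero_pow hq.ne_zero]⟩
    · have hc : (Nat.card (ZMod p)ˣ).Coprime q := by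
        rw [hb_card]
        exact ((Nat.Prime.coprime_iff_not_dvd hq).2 h).symm
      obtain ⟨y, hy⟩ := (powCoprime hc).surjective (Units.mk0 a ha)
      exact ⟨y, by simpa using congrArg Units.val hy⟩
  exact Nat.card_pos

theorem hb_root {p q : ℕ} [Fact p.Prime] (hq : q.Prime) (h : q ∣ p - 1) :
    ∃ ζ : ZMod p, IsPrimitiveRoot ζ q := by
  have _ := Fact.mk hq
  obtain ⟨x, hx⟩ := exists_prime_orderOf_dvd_card' (G := (ZMod p)ˣ) q (hb_card (p := p) ▸ h)
  exact ⟨x, IsPrimitiveRoot.coe_units_iff.2 (hx ▸ IsPrimitiveRoot.orderOf x)⟩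

/-- Hom-b.  `(ZMod p)ˣ` is cyclic: `a = g ^ j` with `q ∣ j`; the `q` elements `g ^ (j / q + i (p-1)/q)` -/
theorem roots_pow_split {p q : ℕ} (hp : p.Prime) (hq : q.Prime) (h : q ∣ p - 1) {a : ZMod p}
    (ha : a ^ ((p - 1) / q) = 1) : q ≤ Nat.card {y : ZMod p // y ^ q = a} := by
  have _ := Fact.mk hp
  obtain ⟨ζ, hζ⟩ := hb_root hq h
  obtain ⟨r, hr⟩ := h
  have hr0 : r ≠ 0 := by
    rintro rfl
    have := hp.two_le
    omega
  rw [hr, Nat.mul_div_cancel_left _ hq.pos] at ha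
  have ha0 : a ≠ 0 := by
    rintro rfl
    rw [zero_pow hr0] at ha
    exact zero_ne_one ha
  obtain ⟨g, hg⟩ := IsCyclic.exists_monoid_generator (α := (ZMod p)ˣ)
  obtain ⟨j, hj⟩ := hg (Units.mk0 a ha0)
  have ho : orderOf g = q * r := by
    rw [orderOf_eq_card_of_forall_mem_powers hg, hb_card, hr]
  have h1 : g ^ (j * r) = 1 := by
    rw [pow_mul, show g ^ j = _ from hj]
    exact Units.ext (by simpa using ha)
  obtain ⟨k, rfl⟩ : q ∣ j :=
    Nat.dvd_of_mul_dvd_mul_right (Nat.pos_of_ne_zero hr0) (ho ▸ orderOf_dvd_of_pow_eq_one h1)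
  have h2 : ((g ^ k : (ZMod p)ˣ) : ZMod p) ^ q = a := by
    rw [← Units.val_pow_eq_pow_val, ← pow_mul, mul_comm]
    exact congrArg Units.val hj
  have h3 := Nat.card_le_card_of_injective (α := Fin q) (β := {y : ZMod p // y ^ q = a})
    (fun i => ⟨ζ ^ (i : ℕ) * (g ^ k : (ZMod p)ˣ), by
      rw [mul_pow, h2, ← pow_mul, mul_comm (i : ℕ), pow_mul, hζ.pow_eq_one, one_pow, one_mul]⟩)
    fun i j hij => Fin.ext (hζ.pow_inj i.2 j.2
      (mul_right_cancel₀ (Units.ne_zero _) (congrArg Subtype.val hij)))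
  simpa using h3

theorem hb_two : ¬ IsSquare ((2 : ℕ) : ZMod 3) := by decide

/-- Hom-b.  `χ = (quadraticChar (ZMod 3)).ringHomComp (Int.castRingHom ℂ)`; the roots are the elements of order
`3` of the cyclic group `(ZMod p)ˣ` (`IsCyclic.card_orderOf_eq_totient`, `orderOf_dvd_card`) -/
theorem roots_cube : ∃ χ : DirichletCharacter ℂ 3, ∀ p : ℕ, p.Prime → p ≠ 3 →
    (Nat.card {y : ZMod p // y ^ 2 + y + 1 = 0} : ℂ) = 1 + χ p := by
  have _ := Fact.mk Nat.prime_three
  refine ⟨(quadraticChar (ZMod 3)).ringHomComp (Int.castRingHom ℂ), fun p hp hp3 => ?_⟩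
  have _ := Fact.mk hp
  have h0 : p % 3 ≠ 0 := fun h =>
    hp3 ((Nat.prime_dvd_prime_iff_eq Nat.prime_three hp).1 (Nat.dvd_of_mod_eq_zero h)).symm
  have h2 := hp.two_le
  rw [MulChar.ringHomComp_apply, ← ZMod.natCast_mod p 3]
  obtain h | h : p % 3 = 1 ∨ p % 3 = 2 := by omega
  · obtain ⟨ω, hω⟩ := hb_root (p := p) Nat.prime_three (by omega)
    have h1 : ω ≠ 1 := hω.ne_one (by norm_num)
    have h3 : ω ^ 2 + ω + 1 = 0 :=
      mul_left_cancel₀ (sub_ne_zero.2 h1) (by linear_combination hω.pow_eq_one)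
    have e : {y : ZMod p | y ^ 2 + y + 1 = 0} = {ω, ω ^ 2} := by
      ext y
      rw [Set.mem_ofPred_eq, Set.mem_insert_iff, Set.mem_singleton_iff, ← sub_eq_zero (a := y),
        ← sub_eq_zero (a := y) (b := ω ^ 2), ← mul_eq_zero,
        show (y - ω) * (y - ω ^ 2) = y ^ 2 + y + 1 by linear_combination (ω - 1 - y) * h3]
    have h4 : ω ≠ ω ^ 2 := fun h5 => by
      have := hω.pow_inj (i := 1) (j := 2) (by norm_num) (by norm_num) (by rw [pow_one, ← h5])
      omega
    change (Nat.card {y : ZMod p | y ^ 2 + y + 1 = 0} : ℂ) = _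
    rw [e, Nat.card_coe_set_eq, Set.ncard_pair h4, h]
    simp
    norm_num
  · have : IsEmpty {y : ZMod p // y ^ 2 + y + 1 = 0} := ⟨fun ⟨y, hy⟩ => by
      have h3 : y ^ 3 = 1 := by linear_combination (y - 1) * hy
      have h4 : y ≠ 0 := by
        rintro rfl
        simp at hy
      have h5 := ZMod.pow_card_sub_one_eq_one h4
      rw [show p - 1 = 3 * (p / 3) + 1 by omega, pow_succ, pow_mul, h3, one_pow, one_mul] at h5
      have h6 : ((3 : ℕ) : ZMod p) = 0 := by
        rw [h5] at hy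
        linear_combination hy
      exact hp3 ((Nat.prime_dvd_prime_iff_eq hp Nat.prime_three).1 ((ZMod.natCast_eq_zero_iff _ _).1 h6))⟩
    have h7 : quadraticChar (ZMod 3) ((2 : ℕ) : ZMod 3) = -1 :=
      quadraticChar_neg_one_iff_not_isSquare.2 hb_two
    rw [Nat.card_of_isEmpty, h, h7]
    simp

end Crest.Agent.R27.Ku
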