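import Crest.Agent.R27.Ku.Defs

/-! Row 27, block Ku (owner helper94): Poisson summation on `ℤ^ι`. -/

set_option autoImplicit false

namespace Crest.Agent.R27.Ku

open NumberField MeasureTheory Finset
open scoped Classical Real

variable {ι : Type} [Fintype ι]

/-- Pois-a.  `ZLattice.summable_norm_rpow` for `span ℤ (range (Pi.basisFun ℝ ι))`, or compare with a product of
one-dimensional series `(1 + |m i|) ^ (-b / card ι)` (`‖m‖ ≥ |m i|`; the case `card ι = 0` is a finite sum). -/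
theorem summable_decay {b : ℝ} (hb : (Fintype.card ι : ℝ) < b) :
    Summable fun m : ι → ℤ => (1 + ‖fun i => (m i : ℝ)‖) ^ (-b) := by
  have hb0 : 0 < b := lt_of_le_of_lt (Nat.cast_nonneg _) hb
  set L : Submodule ℤ (ι → ℝ) := Submodule.span ℤ (Set.range (Pi.basisFun ℝ ι)) with hL
  have hr : Module.finrank ℤ L = Fintype.card ι := by
    rw [ZLattice.rank ℝ L, Module.finrank_fintype_fun_eq_card]
  have hs := ZLattice.summable_norm_rpow L (-b) (by rw [hr]; linarith)
  have hmem : ∀ m : ι → ℤ, (fun i => (m i : ℝ)) ∈ L := fun m =>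
    ((Pi.basisFun ℝ ι).mem_span_iff_repr_mem ℤ _).2 fun i => ⟨m i, by simp⟩
  have hinj : Function.Injective fun m : ι → ℤ => (⟨_, hmem m⟩ : L) := by
    intro m m' h
    funext i
    have h2 : (m i : ℝ) = m' i := congrFun (congrArg Subtype.val h) i
    exact_mod_cast h2
  have hs2 : Summable fun m : ι → ℤ => ‖fun i => (m i : ℝ)‖ ^ (-b) := by
    refine (hs.comp_injective hinj).congr fun m => ?_
    simp only [Function.comp_apply, Submodule.coe_norm]
  refine Summable.of_norm_bounded_eventually hs2 ?_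
  filter_upwards [Filter.eventually_cofinite_ne (0 : ι → ℤ)] with m h0
  have hne : (fun i => (m i : ℝ)) ≠ 0 := by
    intro h
    apply h0
    funext i
    have h2 : (m i : ℝ) = 0 := congrFun h i
    exact_mod_cast h2
  have hpos : 0 < ‖fun i => (m i : ℝ)‖ := norm_pos_iff.2 hne
  rw [Real.norm_of_nonneg (by positivity)]
  exact Real.rpow_le_rpow_of_nonpos hpos (by linarith) (by linarith)

theorem Poisa_cont {f : (ι → ℝ) → ℂ} (hf : Continuous f) {C b : ℝ}
    (hb : (Fintype.card ι : ℝ) < b) (hd : ∀ x, ‖f x‖ ≤ C * (1 + ‖x‖) ^ (-b)) :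
    Continuous fun x : ι → ℝ => ∑' m : ι → ℤ, f (x + fun i => (m i : ℝ)) := by
  have hb0 : 0 < b := lt_of_le_of_lt (Nat.cast_nonneg _) hb
  have hC : 0 ≤ C := by
    have h := (norm_nonneg _).trans (hd 0)
    simpa using h
  refine continuous_iff_continuousAt.2 fun x₀ => ?_
  set R := ‖x₀‖ + 1 with hR
  have hR0 : 0 < R := by positivity
  have hon : ContinuousOn (fun x : ι → ℝ => ∑' m : ι → ℤ, f (x + fun i => (m i : ℝ)))
      (Metric.ball 0 R) := by
    refine continuousOn_tsum (fun m => (hf.comp (continuous_id.add continuous_const)).continuousOn)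
      ((summable_decay hb).mul_left (C * (1 + R) ^ b)) fun m x hx => ?_
    have hx' : ‖x‖ < R := mem_ball_zero_iff.1 hx
    set v : ι → ℝ := fun i => (m i : ℝ) with hv
    have h1 : ‖v‖ ≤ ‖x + v‖ + ‖x‖ := by
      simpa using norm_sub_le (x + v) x
    have h2 : (1 + ‖v‖) / (1 + R) ≤ 1 + ‖x + v‖ := by
      rw [div_le_iff₀ (by positivity)]
      nlinarith [norm_nonneg (x + v), norm_nonneg x]
    have h3 : (1 + ‖x + v‖) ^ (-b) ≤ ((1 + ‖v‖) / (1 + R)) ^ (-b) :=
      Real.rpow_le_rpow_of_nonpos (by positivity) h2 (by linarith)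
    rw [Real.div_rpow (by positivity) (by positivity), Real.rpow_neg (by positivity : 0 ≤ 1 + R),
      div_inv_eq_mul] at h3
    refine (hd _).trans ?_
    rw [mul_assoc, mul_comm ((1 + R) ^ b)]
    exact mul_le_mul_of_nonneg_left h3 hC
  exact hon.continuousAt (Metric.isOpen_ball.mem_nhds (mem_ball_zero_iff.2 (by linarith)))

/-- Pois-a.  The periodisation is continuous (`continuousOn_tsum` on balls,
`1 + ‖m‖ ≤ (1 + R) (1 + ‖x + m‖)` for `‖x‖ ≤ R`) and descends to the torus (`IsOpenQuotientMap.piMap`,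
`QuotientAddGroup.isOpenQuotientMap_mk`; define `F z` by a section of the quotient map). -/
theorem exists_torus {f : (ι → ℝ) → ℂ} (hf : Continuous f) {C b : ℝ} (hb : (Fintype.card ι : ℝ) < b)
    (hd : ∀ x, ‖f x‖ ≤ C * (1 + ‖x‖) ^ (-b)) : ∃ F : C(UnitAddTorus ι, ℂ),
      ∀ x : ι → ℝ, F (fun i => ((x i : ℝ) : UnitAddCircle)) = ∑' m : ι → ℤ, f (x + fun i => (m i : ℝ)) := by
  set P : (ι → ℝ) → ℂ := fun x => ∑' m : ι → ℤ, f (x + fun i => (m i : ℝ)) with hP
  have hPc : Continuous P := Poisa_cont hf hb hd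
  have hq : IsOpenQuotientMap
      (Pi.map fun (_ : ι) => (QuotientAddGroup.mk : ℝ → UnitAddCircle)) :=
    IsOpenQuotientMap.piMap fun _ => QuotientAddGroup.isOpenQuotientMap_mk
  have hper : ∀ x y : ι → ℝ, (∀ i, ((x i : ℝ) : UnitAddCircle) = (y i : ℝ)) → P x = P y := by
    intro x y h
    have h1 : ∀ i, ∃ n : ℤ, y i = x i + n := by
      intro i
      have h2 := QuotientAddGroup.eq.1 (h i)
      obtain ⟨n, hn⟩ := AddSubgroup.mem_zmultiples_iff.1 h2
      refine ⟨n, ?_⟩
      rw [zsmul_eq_mul, mul_one] at hn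
      linarith
    choose n hn using h1
    simp only [hP]
    rw [← (Equiv.addLeft n).tsum_eq]
    refine tsum_congr fun m => congrArg f ?_
    funext i
    simp [hn i, add_assoc]
  set s := Function.surjInv hq.surjective with hs
  have hF : ∀ x : ι → ℝ, P (s (fun i => ((x i : ℝ) : UnitAddCircle))) = P x := fun x =>
    hper _ _ fun i => congrFun (Function.surjInv_eq hq.surjective
      (fun i => ((x i : ℝ) : UnitAddCircle))) i
  refine ⟨⟨fun z => P (s z), ?_⟩, hF⟩
  rw [← hq.continuous_comp_iff]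
  exact hPc.congr fun x => (hF x).symm

theorem poisb_shift {E : Type} [NormedAddCommGroup E] [NormedSpace ℝ E] (h : (ι → ℝ) → E)
    (m : ι → ℤ) :
    ∫ x in Set.univ.pi fun i : ι => Set.Ioc (m i : ℝ) (m i + 1), h x =
      ∫ x in Set.univ.pi fun _ : ι => Set.Ioc (0 : ℝ) 1, h (x + fun i => (m i : ℝ)) := by
  rw [← (measurePreserving_add_right volume fun i => (m i : ℝ)).setIntegral_preimage_emb
    (measurableEmbedding_addRight _)]
  congr 2
  ext x
  simp only [Set.mem_preimage, Set.mem_pi, Set.mem_univ, true_imp_iff, Set.mem_Ioc, Pi.add_apply]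
  refine forall_congr' fun i => ?_
  constructor <;> rintro ⟨h1, h2⟩ <;> constructor <;> linarith

theorem poisb_hasSum {E : Type} [NormedAddCommGroup E] [NormedSpace ℝ E] {h : (ι → ℝ) → E}
    (hh : Integrable h) :
    HasSum (fun m : ι → ℤ =>
      ∫ x in Set.univ.pi fun _ : ι => Set.Ioc (0 : ℝ) 1, h (x + fun i => (m i : ℝ))) (∫ x, h x) := by
  have hU : (⋃ m : ι → ℤ, Set.univ.pi fun i : ι => Set.Ioc (m i : ℝ) (m i + 1)) = Set.univ := by
    refine Set.eq_univ_of_forall fun x => Set.mem_iUnion.2 ⟨fun i => ⌈x i⌉ - 1, fun i _ => ?_⟩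
    have h1 := Int.le_ceil (x i)
    have h2 := Int.ceil_lt_add_one (x i)
    simp only [Set.mem_Ioc, Int.cast_sub, Int.cast_one]
    constructor <;> linarith
  have := hasSum_integral_iUnion (μ := volume) (f := h)
    (s := fun m : ι → ℤ => Set.univ.pi fun i : ι => Set.Ioc (m i : ℝ) (m i + 1))
    (fun m => MeasurableSet.univ_pi fun i => measurableSet_Ioc)
    (fun m m' hne => by
      refine Set.disjoint_left.2 fun x hx hx' => hne (funext fun i => ?_)
      have h1 := hx i (Set.mem_univ i)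
      have h2 := hx' i (Set.mem_univ i)
      have h3 : (m i : ℝ) < m' i + 1 := h1.1.trans_le h2.2
      have h4 : (m' i : ℝ) < m i + 1 := h2.1.trans_le h1.2
      have h5 : m i < m' i + 1 := by exact_mod_cast h3
      have h6 : m' i < m i + 1 := by exact_mod_cast h4
      omega)
    hh.integrableOn
  rw [hU, Measure.restrict_univ] at this
  simpa only [poisb_shift] using this

theorem poisb_unfold {g : (ι → ℝ) → ℂ} (hg : Integrable g) :
    ∫ x in Set.univ.pi fun _ : ι => Set.Ioc (0 : ℝ) 1, ∑' m : ι → ℤ, g (x + fun i => (m i : ℝ)) =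
      ∫ x, g x := by
  rw [← integral_tsum_of_summable_integral_norm
    (fun m : ι → ℤ => (hg.comp_add_right fun i => (m i : ℝ)).integrableOn)
    (poisb_hasSum hg.norm).summable]
  exact (poisb_hasSum hg).tsum_eq

/-- Pois-b.  Unfolding: `f` is integrable (`integrable_one_add_norm`); `ZSpan.isAddFundamentalDomain` for
`Pi.basisFun` (`ZSpan.fundamentalDomain_pi_basisFun`, `Ico` and `Ioc` boxes agree a.e.),
`IsAddFundamentalDomain.integral_eq_tsum''`, `integral_tsum`; `exp (2 π i k·m) = 1`. -/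
theorem per_coeff {f : (ι → ℝ) → ℂ} (hf : Continuous f) {C b : ℝ} (hb : (Fintype.card ι : ℝ) < b)
    (hd : ∀ x, ‖f x‖ ≤ C * (1 + ‖x‖) ^ (-b)) (k : ι → ℤ) :
    ∫ x in Set.univ.pi fun _ : ι => Set.Ioc (0 : ℝ) 1, (∑' m : ι → ℤ, f (x + fun i => (m i : ℝ))) *
        Complex.exp (-(2 * π * Complex.I * ((∑ i, (k i : ℝ) * x i : ℝ) : ℂ))) =
      ft f fun i => (k i : ℝ) := by
  have hnorm : ∀ x : ι → ℝ,
      ‖Complex.exp (-(2 * π * Complex.I * ((∑ i, (k i : ℝ) * x i : ℝ) : ℂ)))‖ = 1 := fun x => by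
    rw [show -(2 * π * Complex.I * ((∑ i, (k i : ℝ) * x i : ℝ) : ℂ)) =
      ((-(2 * π * ∑ i, (k i : ℝ) * x i) : ℝ) : ℂ) * Complex.I by push_cast; ring]
    exact Complex.norm_exp_ofReal_mul_I _
  have hg : Integrable fun x : ι → ℝ =>
      f x * Complex.exp (-(2 * π * Complex.I * ((∑ i, (k i : ℝ) * x i : ℝ) : ℂ))) := by
    have h1 : Integrable fun x : ι → ℝ => C * (1 + ‖x‖) ^ (-b) :=
      (integrable_one_add_norm (by simpa using hb)).const_mul C
    refine h1.mono' (Continuous.aestronglyMeasurable (by fun_prop))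
      (Filter.Eventually.of_forall fun x => ?_)
    rw [norm_mul, hnorm, mul_one]
    exact hd x
  rw [ft, ← poisb_unfold hg]
  refine integral_congr_ae (Filter.Eventually.of_forall fun x => ?_)
  simp only
  rw [← tsum_mul_right]
  refine tsum_congr fun m => ?_
  congr 1
  have e : -(2 * π * Complex.I * ((∑ i, (k i : ℝ) * (x + fun i => (m i : ℝ)) i : ℝ) : ℂ)) =
      -(2 * π * Complex.I * ((∑ i, (k i : ℝ) * x i : ℝ) : ℂ)) +
        ((-∑ i, k i * m i : ℤ) : ℂ) * (2 * π * Complex.I) := by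
    simp only [Pi.add_apply, mul_add, sum_add_distrib]
    push_cast
    ring
  rw [e, Complex.exp_add, Complex.exp_int_mul_two_pi_mul_I, mul_one]

/-- Pois-b.  Poisson summation on `ℤ^ι` (`UnitAddTorus.mFourierCoeff_eq_integral`,
`UnitAddTorus.hasSum_mFourier_series_apply_of_summable` at `0`). -/
theorem pois_pi {f : (ι → ℝ) → ℂ} (hf : Continuous f) {C b : ℝ} (hb : (Fintype.card ι : ℝ) < b)
    (hd : ∀ x, ‖f x‖ ≤ C * (1 + ‖x‖) ^ (-b))
    (hs : Summable fun k : ι → ℤ => ft f fun i => (k i : ℝ)) :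
    ∑' m : ι → ℤ, f (fun i => (m i : ℝ)) = ∑' k : ι → ℤ, ft f fun i => (k i : ℝ) := by
  obtain ⟨F, hF⟩ := exists_torus hf hb hd
  have hc : ∀ k : ι → ℤ, UnitAddTorus.mFourierCoeff F k = ft f fun i => (k i : ℝ) := fun k => by
    rw [UnitAddTorus.mFourierCoeff_eq_integral F k 0, ← per_coeff hf hb hd k]
    have hs : {x : ι → ℝ | ∀ i, x i ∈ Set.Ioc ((0 : ι → ℝ) i) ((0 : ι → ℝ) i + 1)} =
        Set.univ.pi fun _ : ι => Set.Ioc (0 : ℝ) 1 := by
      ext x; simp
    rw [hs]
    refine integral_congr_ae (Filter.Eventually.of_forall fun x => ?_)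
    simp only
    rw [hF, smul_eq_mul, mul_comm]
    congr 1
    simp only [UnitAddTorus.mFourier, ContinuousMap.coe_mk, fourier_coe_apply, Pi.neg_apply]
    rw [← Complex.exp_sum]
    congr 1
    push_cast
    rw [mul_sum, ← sum_neg_distrib]
    exact sum_congr rfl fun i _ => by ring
  have h1 := UnitAddTorus.hasSum_mFourier_series_apply_of_summable (f := F)
    (by rw [funext hc]; exact hs) (fun i => (((0 : ι → ℝ) i : ℝ) : UnitAddCircle))
  rw [hF] at h1
  simp only [zero_add, hc] at h1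
  rw [← h1.tsum_eq]
  refine tsum_congr fun k => ?_
  simp [UnitAddTorus.mFourier]

end Crest.Agent.R27.Ku
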