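import Crest.Agent.R27.Ku.Unit
import Crest.Agent.R27.Ku.Avg
import Crest.Agent.R27.Ku.Arith

/-! Row 27, block Ku (owner helper94): unfolding the theta integral. -/

set_option autoImplicit false

namespace Crest.Agent.R27.Ku

open NumberField MeasureTheory Finset
open scoped Classical Real nonZeroDivisors ArithmeticFunction.vonMangoldt

theorem unfa_sum {ι κ : Type} [Fintype ι] [DecidableEq ι] [Fintype κ] (D : Dat ι κ) (S : Finset ι)
    {t : ℝ} (ht : 0 < t) : Summable fun m : ι → ℤ =>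
      ∫ c in Set.Icc (0 : κ → ℝ) 1, |fS S fun i => yv D.l t c i * lat D.A m i| := by
  obtain ⟨δ, hδ, h⟩ := yv_cube D.l
  have hp : 0 < t ^ (1 / (Fintype.card ι : ℝ)) := Real.rpow_pos_of_pos ht _
  have hs := coreb_sum D (y := fun _ => t ^ (1 / (Fintype.card ι : ℝ)) * δ) fun _ => mul_pos hp hδ
  refine Summable.of_nonneg_of_le (fun m => integral_nonneg fun c => abs_nonneg _) (fun m => ?_) hs
  have h1 := norm_setIntegral_le_of_norm_le_const (μ := volume) (s := Set.Icc (0 : κ → ℝ) 1)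
    (f := fun c => |fS S fun i => yv D.l t c i * lat D.A m i|)
    (C := Real.exp (-(π / 2 * ∑ i, (t ^ (1 / (Fintype.card ι : ℝ)) * δ * lat D.A m i) ^ 2)))
    isCompact_Icc.measure_lt_top fun c hc => ?_
  · rw [avg_vol, mul_one] at h1
    exact (le_abs_self _).trans h1
  · rw [Real.norm_eq_abs, abs_abs]
    refine (fS_le S _).trans (Real.exp_le_exp.2 (neg_le_neg (mul_le_mul_of_nonneg_left
      (sum_le_sum fun i _ => ?_) (by positivity))))
    rw [mul_pow _ (lat D.A m i), mul_pow _ (lat D.A m i)]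
    refine mul_le_mul_of_nonneg_right (pow_le_pow_left₀ (mul_pos hp hδ).le ?_ 2) (sq_nonneg _)
    rw [avg_yv D.l ht c]
    exact mul_le_mul_of_nonneg_left (h c hc i).1 hp.le

theorem unfa_cont {ι κ : Type} [Fintype ι] [Fintype κ] (l : κ → ι → ℝ) (S : Finset ι) (t : ℝ) (x : ι → ℝ) :
    Continuous fun c : κ → ℝ => fS S fun i => yv l t c i * x i := by
  refine (continuous_fS _).comp (continuous_pi fun φ => ?_)
  unfold yv
  fun_prop

/-- Unf-a.  On the cube `yv D.l t c ≥ t^(1/n) δ` (`yv_cube`, `yv_mul`), so the terms are bounded uniformly by a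
summable sequence (`fS_le`, `gs_summable`); `hasSum_integral_of_summable_integral_norm`; the cube has volume `1`. -/
theorem hasSum_cube {ι κ : Type} [Fintype ι] [DecidableEq ι] [Fintype κ] (D : Dat ι κ) (S : Finset ι)
    {ψ : (ι → ℤ) → ℂ} (hψ : ∀ m, ‖ψ m‖ ≤ 1) {t : ℝ} (ht : 0 < t) :
    HasSum (fun m : {m : ι → ℤ // m ≠ 0} => ψ m.1 *
        ((∫ c in Set.Icc (0 : κ → ℝ) 1, fS S fun i => yv D.l t c i * lat D.A m.1 i : ℝ) : ℂ))
      (thA D S ψ t - ψ 0 * ((fS S 0 : ℝ) : ℂ)) ∧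
    Summable fun m : {m : ι → ℤ // m ≠ 0} =>
      ∫ c in Set.Icc (0 : κ → ℝ) 1, |fS S fun i => yv D.l t c i * lat D.A m.1 i| := by
  have hs := unfa_sum D S ht
  refine ⟨?_, hs.subtype _⟩
  have hc : ∀ m : ι → ℤ, Continuous fun c : κ → ℝ =>
      ψ m * ((fS S fun i => yv D.l t c i * lat D.A m i : ℝ) : ℂ) := fun m =>
    continuous_const.mul (Complex.continuous_ofReal.comp (unfa_cont D.l S t _))
  have h1 := hasSum_integral_of_summable_integral_norm (μ := volume.restrict (Set.Icc (0 : κ → ℝ) 1))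
    (F := fun (m : ι → ℤ) (c : κ → ℝ) => ψ m * ((fS S fun i => yv D.l t c i * lat D.A m i : ℝ) : ℂ))
    (fun m => (hc m).continuousOn.integrableOn_Icc) (by
      refine Summable.of_nonneg_of_le (fun m => integral_nonneg fun c => norm_nonneg _) (fun m => ?_) hs
      refine integral_mono ((hc m).norm.continuousOn.integrableOn_Icc)
        ((unfa_cont D.l S t _).abs.continuousOn.integrableOn_Icc) fun c => ?_
      simp only [norm_mul, Complex.norm_real, Real.norm_eq_abs]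
      exact mul_le_of_le_one_left (abs_nonneg _) (hψ m))
  simp only [integral_const_mul, integral_complex_ofReal] at h1
  have h2 := hasSum_ite_sub_hasSum h1 0
  have h0 : (∫ c in Set.Icc (0 : κ → ℝ) 1, fS S fun i => yv D.l t c i * lat D.A 0 i) = fS S 0 := by
    have : ∀ c : κ → ℝ, (fun i => yv D.l t c i * lat D.A 0 i) = 0 := fun c => by
      funext i
      simp [lat, Matrix.mulVec, dotProduct]
    simp only [this]
    rw [setIntegral_const, avg_vol, one_smul]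
  rw [h0] at h2
  have h3 := (hasSum_subtype_iff_of_support_subset (s := {m : ι → ℤ | m ≠ 0}) (fun m hm => by
    intro h
    simp [h] at hm)).2 h2
  refine h3.congr_fun fun m => ?_
  have hm : m.1 ≠ 0 := m.2
  simp [hm]

/-- Unf-a -/
theorem phb_nonneg {ι κ : Type} [Fintype ι] [Fintype κ] (l : κ → ι → ℝ) (S : Finset ι) {t : ℝ}
    (ht : 0 < t) : 0 ≤ phb l S t :=
  integral_nonneg fun c => mul_nonneg (prod_nonneg fun i _ => (yv_pos l ht c i).le) (Real.exp_pos _).le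

variable {K : Type} [Field K] [NumberField K]

theorem unfb_nonneg {ι : Type} [Fintype ι] (S : Finset ι) {x : ι → ℝ} (hx : ∀ i, 0 ≤ x i) : 0 ≤ fS S x :=
  mul_nonneg (prod_nonneg fun i _ => hx i) (Real.exp_pos _).le

theorem unfb_sg (e : Bool) {α : K} (hα : α ≠ 0) : |sg e α| = 1 := by
  unfold sg
  split_ifs
  · have h : Algebra.norm ℚ α ≠ 0 := Algebra.norm_ne_zero_iff.2 hα
    rcases lt_or_gt_of_ne h with h' | h'
    · simp [sign_neg h']
    · simp [sign_pos h']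
  · simp

theorem unfb_cont (e : Bool) (u : ℝ) (β : K) :
    Continuous fun c : Fin (Units.rank K) → ℝ => fS (Sg K e) fun φ => yv (ellK K) u c φ * ‖φ β‖ := by
  refine (continuous_fS _).comp (continuous_pi fun φ => ?_)
  unfold yv
  fun_prop

theorem unfb_int (e : Bool) {u : ℝ} (hu : 0 < u) {β : 𝓞 K} (hβ : β ≠ 0) :
    ∫ c : Fin (Units.rank K) → ℝ, fS (Sg K e) (fun φ => yv (ellK K) u c φ * ‖φ (β : K)‖) =
      phb (ellK K) (Sg K e) (u * Ideal.absNorm (Ideal.span {β})) := by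
  obtain ⟨c₀, hc⟩ := exists_shift (α := (β : K)) (by exact_mod_cast hβ)
  have e1 : ((Ideal.absNorm (Ideal.span {β}) : ℕ) : ℝ) = |((Algebra.norm ℚ (β : K) : ℚ) : ℝ)| := by
    rw [Ideal.absNorm_span_singleton, ← Algebra.coe_norm_int]
    simp
  rw [e1, phb, ← integral_add_right_eq_self (fun c => fS (Sg K e)
    (yv (ellK K) (u * |((Algebra.norm ℚ (β : K) : ℚ) : ℝ)|) c)) c₀]
  refine integral_congr_ae (Filter.Eventually.of_forall fun c => ?_)
  simp only [hc u hu c]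

/-- Unf-b.  Reindex `hasSum_cube` by `exists_param`.  By `IsDat.lat_eq`, `fS_sign`, `yv_unit` the term of
`α = g P ζ ε^k` is `η P ∫_cube Φ_P (c + k)` with `Φ_P c = fS (yv (t/V) c * ‖φ (g P)‖) ≥ 0` (`|sg| = 1`); `cube_sum`
(summability from the second part of `hasSum_cube`), `exists_shift` and translation invariance give
`∫ Φ_P = phb (t / V * N P)`; `HasSum.prod_fiberwise`. -/
theorem unfold {𝔟 : Ideal (𝓞 K)} (h𝔟 : 𝔟 ≠ ⊥) {b : Module.Basis (K →+* ℂ) ℤ 𝔟}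
    {D : Dat (K →+* ℂ) (Fin (Units.rank K))} {V : ℝ} (h : IsDat K 𝔟 b D V) (e : Bool)
    {ψ : ((K →+* ℂ) → ℤ) → ℂ} (hψ : ∀ m, ‖ψ m‖ ≤ 1) {η : Ideal (𝓞 K) → ℂ}
    (hη : ∀ m : (K →+* ℂ) → ℤ, m ≠ 0 → ψ m * ((sg e (((∑ i, m i • b i : 𝔟) : 𝓞 K) : K) : ℝ) : ℂ) =
      η (Ideal.span {((∑ i, m i • b i : 𝔟) : 𝓞 K)})) {t : ℝ} (ht : 0 < t) :
    HasSum (fun P : PP K 𝔟 => (Units.torsionOrder K : ℂ) * η P.1 *
        ((phb (ellK K) (Sg K e) (t / V * Ideal.absNorm P.1) : ℝ) : ℂ))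
      (thA D (Sg K e) ψ t - ψ 0 * ((fS (Sg K e) 0 : ℝ) : ℂ)) := by
  obtain ⟨g, E, hg, hE⟩ := exists_param b
  obtain ⟨h1, h2⟩ := hasSum_cube D (Sg K e) hψ ht
  have hV : 0 < V := (h.lat_eq h𝔟 ht 0 0 (Classical.arbitrary _)).1
  have hu : 0 < t / V := div_pos ht hV
  have hg0 : ∀ P, g P ≠ 0 := fun P h0 => P.2.1 (by rw [← hg P, h0, Ideal.span_singleton_eq_bot])
  set Φ : PP K 𝔟 → (Fin (Units.rank K) → ℝ) → ℝ := fun P c =>
    fS (Sg K e) fun φ => yv (ellK K) (t / V) c φ * ‖φ (g P : K)‖ with hΦ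
  have hΦ0 : ∀ P c, 0 ≤ Φ P c := fun P c =>
    unfb_nonneg _ fun φ => mul_nonneg (yv_pos _ hu c φ).le (norm_nonneg _)
  set r : PP K 𝔟 × Units.torsion K × (Fin (Units.rank K) → ℤ) → ℝ := fun x =>
    ∫ c in Set.Icc (0 : Fin (Units.rank K) → ℝ) 1, Φ x.1 (c + fun j => (x.2.2 j : ℝ)) with hr
  have hα : ∀ x, (((∑ i, (E x).1 i • b i : 𝔟) : 𝓞 K) : K) ≠ 0 := fun x => by
    rw [hE x]
    exact_mod_cast mul_ne_zero (hg0 _) (Units.ne_zero _)
  have hterm : ∀ x c, (fS (Sg K e) fun i => yv D.l t c i * lat D.A (E x).1 i) =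
      sg e (((∑ i, (E x).1 i • b i : 𝔟) : 𝓞 K) : K) * Φ x.1 (c + fun j => (x.2.2 j : ℝ)) := fun x c => by
    simp only [fun φ => (h.lat_eq h𝔟 ht c (E x).1 φ).2]
    rw [fS_sign e (yv_conj _ c) (hα x)]
    congr 2
    funext φ
    rw [← yv_unit x.2.1 x.2.2, hE x, RingOfIntegers.coe_eq_algebraMap, map_mul, map_mul, norm_mul]
    ring
  have hspan : ∀ x, Ideal.span {((∑ i, (E x).1 i • b i : 𝔟) : 𝓞 K)} = x.1.1 := fun x => by
    rw [hE x, Ideal.span_singleton_mul_right_unit (Units.isUnit _), hg]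
  have k1 : HasSum (fun x => η x.1.1 * ((r x : ℝ) : ℂ)) (thA D (Sg K e) ψ t - ψ 0 * ((fS (Sg K e) 0 : ℝ) : ℂ)) := by
    refine (E.hasSum_iff.2 h1).congr_fun fun x => ?_
    simp only [Function.comp, hterm, integral_const_mul, hr]
    rw [← hspan x, ← hη _ (E x).2]
    push_cast
    ring
  have k2 : Summable r := by
    refine (E.summable_iff.2 h2).congr fun x => ?_
    simp only [Function.comp, hterm, abs_mul, unfb_sg e (hα x), one_mul, abs_of_nonneg (hΦ0 _ _), hr]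
  refine k1.prod_fiberwise fun P => ?_
  have k3 : Summable fun y => r (P, y) := k2.prod_factor P
  have k4 := cube_sum (unfb_cont e (t / V) (g P : K)) (hΦ0 P) (k3.prod_factor 1)
  have k5 : HasSum (fun y => r (P, y))
      (Units.torsionOrder K * phb (ellK K) (Sg K e) (t / V * Ideal.absNorm P.1)) := by
    have k6 := k3.hasSum
    rw [k3.tsum_prod] at k6
    simp only [hr, hΦ, k4.tsum_eq, tsum_const, unfb_int e hu (hg0 P), hg, nsmul_eq_mul] at k6
    exact k6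
  have k7 := (Complex.hasSum_ofReal.2 k5).mul_left (η P.1)
  rw [Complex.ofReal_mul, Complex.ofReal_natCast, ← mul_assoc, mul_comm (η P.1)] at k7
  exact k7

theorem unfc_norm (f : ℝ → ℂ) (s : ℂ) :
    ((∫ t in Set.Ioi (0 : ℝ), ‖(t : ℂ) ^ (s - 1) • f t‖ : ℝ) : ℂ) = mellin (fun t => ((‖f t‖ : ℝ) : ℂ)) s.re := by
  rw [mellin, ← integral_complex_ofReal]
  refine setIntegral_congr_fun measurableSet_Ioi fun t ht => ?_
  have ht' : (0 : ℝ) < t := ht
  simp only [smul_eq_mul, norm_mul, Complex.norm_cpow_eq_rpow_re_of_pos ht', Complex.ofReal_mul,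
    Complex.ofReal_cpow ht'.le, Complex.sub_re, Complex.one_re, Complex.ofReal_sub, Complex.ofReal_one]

theorem unfc_gen {ι : Type} [Countable ι] {φ : ℝ → ℂ} {s : ℂ} (hs : MellinConvergent φ s) {a : ι → ℝ}
    (ha : ∀ i, 0 < a i) {c : ι → ℂ} (hsum : Summable fun i => ‖c i‖ * a i ^ (-s.re)) {F : ℝ → ℂ}
    (hF : ∀ t, 0 < t → HasSum (fun i => c i * φ (a i * t)) (F t)) :
    HasSum (fun i => c i * ((a i : ℂ) ^ (-s) * mellin φ s)) (mellin F s) := by
  have h1 : ∀ i, Integrable (fun t : ℝ => (t : ℂ) ^ (s - 1) • (c i • φ (a i * t)))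
      (volume.restrict (Set.Ioi 0)) := fun i =>
    ((MellinConvergent.comp_mul_left (ha i)).2 hs).const_smul (c i)
  have h2 : ∀ i, ∫ t in Set.Ioi (0 : ℝ), ‖(t : ℂ) ^ (s - 1) • (c i • φ (a i * t))‖ =
      ‖c i‖ * a i ^ (-s.re) * ∫ t in Set.Ioi (0 : ℝ), ‖(t : ℂ) ^ (s - 1) • φ t‖ := fun i => by
    apply Complex.ofReal_injective
    rw [unfc_norm, Complex.ofReal_mul, unfc_norm, Complex.ofReal_mul, Complex.ofReal_cpow (ha i).le,
      Complex.ofReal_neg, mul_assoc, ← smul_eq_mul ((a i : ℂ) ^ _),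
      ← mellin_comp_mul_left (fun t => ((‖φ t‖ : ℝ) : ℂ)) _ (ha i), ← smul_eq_mul, ← mellin_const_smul]
    simp only [smul_eq_mul, norm_mul, Complex.ofReal_mul]
  have h3 := hasSum_integral_of_summable_integral_norm h1 (by simp only [h2]; exact hsum.mul_right _)
  have h4 : ∫ t in Set.Ioi (0 : ℝ), ∑' i, (t : ℂ) ^ (s - 1) • (c i • φ (a i * t)) = mellin F s := by
    refine setIntegral_congr_fun measurableSet_Ioi fun t ht => ?_
    exact ((hF t ht).const_smul ((t : ℂ) ^ (s - 1))).tsum_eq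
  rw [h4] at h3
  refine h3.congr_fun fun i => ?_
  rw [← smul_eq_mul, ← smul_eq_mul ((a i : ℂ) ^ _), ← mellin_comp_mul_left φ s (ha i), ← mellin_const_smul]
  rfl

theorem unfc_countable (𝔟 : Ideal (𝓞 K)) : Countable (PP K 𝔟) := by
  have : Countable (𝓞 K) := Finsupp.Countable.of_moduleFinite (R := ℤ)
  have h : ∀ P : PP K 𝔟, ∃ g : 𝓞 K, P.1 = Ideal.span {g} := fun P => P.2.2.1.principal
  choose g hg using h
  exact Function.Injective.countable (f := g) fun P Q hPQ => Subtype.ext (by rw [hg P, hg Q, hPQ])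

/-- Unf-c.  `unfold`, `hasSum_integral_of_summable_integral_norm` (`PP` is countable), `mellin_comp_mul_left`,
`MellinConvergent.comp_mul_left`, `phb_nonneg` with `hG` at the real point `re s`, `summable_ideal` -/
theorem mel_unfold {𝔟 : Ideal (𝓞 K)} (h𝔟 : 𝔟 ≠ ⊥) {b : Module.Basis (K →+* ℂ) ℤ 𝔟}
    {D : Dat (K →+* ℂ) (Fin (Units.rank K))} {V : ℝ} (h : IsDat K 𝔟 b D V) (e : Bool)
    {ψ : ((K →+* ℂ) → ℤ) → ℂ} (hψ : ∀ m, ‖ψ m‖ ≤ 1) {η : Ideal (𝓞 K) → ℂ} (hη1 : ∀ I, ‖η I‖ ≤ 1)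
    (hη : ∀ m : (K →+* ℂ) → ℤ, m ≠ 0 → ψ m * ((sg e (((∑ i, m i • b i : 𝔟) : 𝓞 K) : K) : ℝ) : ℂ) =
      η (Ideal.span {((∑ i, m i • b i : 𝔟) : 𝓞 K)})) {G : ℂ → ℂ}
    (hG : ∀ s : ℂ, 0 < s.re → MellinConvergent (fun t => ((phb (ellK K) (Sg K e) t : ℝ) : ℂ)) s ∧
      mellin (fun t => ((phb (ellK K) (Sg K e) t : ℝ) : ℂ)) s = G s) {s : ℂ} (hs : 1 < s.re) :
    mellin (fun t => thA D (Sg K e) ψ t - ψ 0 * ((fS (Sg K e) 0 : ℝ) : ℂ)) s =
      (Units.torsionOrder K : ℂ) * (V : ℂ) ^ s * G s *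
        ∑' P : PP K 𝔟, η P.1 * (Ideal.absNorm P.1 : ℂ) ^ (-s) := by
  have := unfc_countable 𝔟
  have hV : 0 < V := (h.lat_eq h𝔟 one_pos 0 0 (Classical.arbitrary _)).1
  obtain ⟨hG1, hG2⟩ := hG s (one_pos.trans hs)
  have hN : ∀ P : PP K 𝔟, (0 : ℝ) < Ideal.absNorm P.1 := fun P =>
    Nat.cast_pos.2 (Nat.pos_of_ne_zero fun h0 => P.2.1 (Ideal.absNorm_eq_zero_iff.1 h0))
  have hS : Summable fun P : PP K 𝔟 => (Ideal.absNorm P.1 : ℝ) ^ (-s.re) := by
    have hi : Function.Injective fun P : PP K 𝔟 =>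
        (⟨P.1, mem_nonZeroDivisors_of_ne_zero P.2.1⟩ : (Ideal (𝓞 K))⁰) :=
      fun P Q hPQ => Subtype.ext (Subtype.mk.inj hPQ)
    have := (summable_ideal K hs).comp_injective hi
    simpa only [Function.comp_def] using this
  have h1 := unfc_gen hG1 (a := fun P : PP K 𝔟 => V⁻¹ * Ideal.absNorm P.1)
    (fun P => mul_pos (inv_pos.2 hV) (hN P)) (c := fun P => (Units.torsionOrder K : ℂ) * η P.1)
    (F := fun t => thA D (Sg K e) ψ t - ψ 0 * ((fS (Sg K e) 0 : ℝ) : ℂ)) ?_ ?_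
  · rw [← h1.tsum_eq, hG2, ← tsum_mul_left]
    refine tsum_congr fun P => ?_
    rw [Complex.ofReal_mul, Complex.mul_cpow_ofReal_nonneg (inv_pos.2 hV).le (hN P).le, Complex.ofReal_inv,
      Complex.inv_cpow _ _ (by rw [Complex.arg_ofReal_of_nonneg hV.le]; exact Real.pi_pos.ne),
      Complex.cpow_neg (V : ℂ), inv_inv, Complex.ofReal_natCast]
    ring
  · refine Summable.of_nonneg_of_le
      (fun P => mul_nonneg (norm_nonneg _) (Real.rpow_nonneg (mul_pos (inv_pos.2 hV) (hN P)).le _)) (fun P => ?_)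
      (hS.mul_left (Units.torsionOrder K * V⁻¹ ^ (-s.re)))
    rw [Real.mul_rpow (inv_pos.2 hV).le (hN P).le, norm_mul, Complex.norm_natCast, mul_assoc, mul_assoc]
    refine mul_le_mul_of_nonneg_left (mul_le_of_le_one_left ?_ (hη1 _)) (Nat.cast_nonneg _)
    exact mul_nonneg (Real.rpow_nonneg (inv_pos.2 hV).le _) (Real.rpow_nonneg (hN P).le _)
  · intro t ht
    refine (unfold h𝔟 h e hψ hη ht).congr_fun fun P => ?_
    rw [show V⁻¹ * (Ideal.absNorm P.1 : ℝ) * t = t / V * Ideal.absNorm P.1 by ring]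

end Crest.Agent.R27.Ku
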