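import Crest.Agent.R27.Ku.Emb

/-! Row 27, block Ku (owner helper94): units. -/

set_option autoImplicit false

namespace Crest.Agent.R27.Ku

open NumberField MeasureTheory Finset
open scoped Classical Real

variable (K : Type) [Field K] [NumberField K]

/-- logarithmic coordinates: a norm coordinate and the unit coordinates -/
noncomputable def logT : (ℝ × (Fin (Units.rank K) → ℝ)) →ₗ[ℝ] (InfinitePlace K → ℝ) where
  toFun p := fun w => p.1 + ∑ j, p.2 j * Real.log (w ((Units.fundSystem K j : 𝓞 K) : K))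
  map_add' p q := by
    funext w
    simp [add_mul, Finset.sum_add_distrib]
    ring
  map_smul' a p := by
    funext w
    simp [mul_add, Finset.mul_sum, mul_assoc]

theorem ua_linInd : LinearIndependent ℝ
    (fun j : Fin (Units.rank K) => Units.logEmbedding K (Additive.ofMul (Units.fundSystem K j))) := by
  have h := ((Units.basisUnitLattice K).ofZLatticeBasis ℝ (Units.unitLattice K)).linearIndependent
  have e : (fun j : Fin (Units.rank K) => Units.logEmbedding K (Additive.ofMul (Units.fundSystem K j))) =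
      ⇑((Units.basisUnitLattice K).ofZLatticeBasis ℝ (Units.unitLattice K)) := by
    funext j
    rw [Units.logEmbedding_fundSystem, Module.Basis.ofZLatticeBasis_apply]
  rw [e]
  exact h

/-- Unit-a.  Injective: `∑ w, mult w * ·` kills the unit part, then linear independence of
`logEmbedding (fundSystem j)` (`basisUnitLattice`, `logEmbedding_fundSystem`, `Basis.ofZLatticeBasis`; or
`mixedEmbedding.fundamentalCone.linearIndependent_completeFamily`); equal dimensions. -/
theorem logT_bij : Function.Bijective (logT K) := by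
  have hinj : Function.Injective (logT K) := by
    rw [injective_iff_map_eq_zero]
    rintro ⟨a, c⟩ h
    have hw : ∀ w : InfinitePlace K,
        a + ∑ j, c j * Real.log (w ((Units.fundSystem K j : 𝓞 K) : K)) = 0 := fun w => congrFun h w
    have h1 : ∑ w : InfinitePlace K, (w.mult : ℝ) *
        (a + ∑ j, c j * Real.log (w ((Units.fundSystem K j : 𝓞 K) : K))) = 0 := by
      simp [hw]
    have h2 : ∑ w : InfinitePlace K, (w.mult : ℝ) *
        (∑ j, c j * Real.log (w ((Units.fundSystem K j : 𝓞 K) : K))) = 0 := by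
      simp_rw [Finset.mul_sum]
      rw [Finset.sum_comm]
      refine Finset.sum_eq_zero fun j _ => ?_
      have := Units.sum_mult_mul_log (Units.fundSystem K j)
      calc ∑ w : InfinitePlace K, (w.mult : ℝ) *
            (c j * Real.log (w ((Units.fundSystem K j : 𝓞 K) : K)))
          = c j * ∑ w : InfinitePlace K, (w.mult : ℝ) *
            Real.log (w ((Units.fundSystem K j : 𝓞 K) : K)) := by
            rw [Finset.mul_sum]; exact Finset.sum_congr rfl fun w _ => by ring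
        _ = 0 := by
            have h3 : ∑ w : InfinitePlace K, (w.mult : ℝ) *
              Real.log (w ((Units.fundSystem K j : 𝓞 K) : K)) = 0 := this
            rw [h3, mul_zero]
    have ha : a = 0 := by
      simp_rw [mul_add, Finset.sum_add_distrib] at h1
      rw [h2, add_zero, ← Finset.sum_mul] at h1
      have hpos : (0 : ℝ) < ∑ w : InfinitePlace K, (w.mult : ℝ) :=
        Finset.sum_pos (fun w _ => by exact_mod_cast InfinitePlace.mult_pos) Finset.univ_nonempty
      exact (mul_eq_zero.1 h1).resolve_left hpos.ne'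
    have hc : c = 0 := by
      have hli := Fintype.linearIndependent_iff.1 (ua_linInd K) c ?_
      · funext j; exact hli j
      · funext w
        have := hw w.1
        rw [ha, zero_add] at this
        simp only [Finset.sum_apply, Pi.smul_apply, smul_eq_mul, Pi.zero_apply,
          Units.dirichletUnitTheorem.logEmbedding_component]
        calc ∑ j, c j * ((w.1.mult : ℝ) * Real.log (w.1 ((Units.fundSystem K j : 𝓞 K) : K)))
            = (w.1.mult : ℝ) * ∑ j, c j * Real.log (w.1 ((Units.fundSystem K j : 𝓞 K) : K)) := by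
              rw [Finset.mul_sum]; exact Finset.sum_congr rfl fun j _ => by ring
          _ = 0 := by rw [this, mul_zero]
    simp [ha, hc]
  refine ⟨hinj, ?_⟩
  refine (LinearMap.injective_iff_surjective_of_finrank_eq_finrank ?_).1 hinj
  have hpos : 0 < Fintype.card (InfinitePlace K) := Fintype.card_pos
  rw [Module.finrank_prod, Module.finrank_self, Module.finrank_fintype_fun_eq_card,
    Module.finrank_fintype_fun_eq_card, Fintype.card_fin, Units.rank]
  omega

variable {K}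

/-- Unit-a.  `(τ, c₀) = logT⁻¹ (log w α)`, `n τ = log |N α|` (`sum_ellK`, `prod_norm_emb`),
`‖φ α‖ = (InfinitePlace.mk φ) α` -/
theorem exists_shift {α : K} (hα : α ≠ 0) : ∃ c₀ : Fin (Units.rank K) → ℝ, ∀ t : ℝ, 0 < t →
    ∀ (c : Fin (Units.rank K) → ℝ) (φ : K →+* ℂ), yv (ellK K) t c φ * ‖φ α‖ =
      yv (ellK K) (t * |((Algebra.norm ℚ α : ℚ) : ℝ)|) (c + c₀) φ := by
  obtain ⟨⟨τ, c₀⟩, h⟩ := (logT_bij K).2 fun w => Real.log (w α)
  have hφ : ∀ φ : K →+* ℂ, τ + ∑ j, c₀ j * ellK K j φ = Real.log ‖φ α‖ :=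
    fun φ => congrFun h (InfinitePlace.mk φ)
  have hpos : ∀ φ : K →+* ℂ, 0 < ‖φ α‖ := fun φ => norm_pos_iff.2 ((map_ne_zero φ).2 hα)
  have hN : 0 < |((Algebra.norm ℚ α : ℚ) : ℝ)| := by
    rw [← prod_norm_emb]; exact Finset.prod_pos fun φ _ => hpos φ
  have hn : (0 : ℝ) < Fintype.card (K →+* ℂ) := by exact_mod_cast Fintype.card_pos
  have hτ : (Fintype.card (K →+* ℂ) : ℝ) * τ = Real.log |((Algebra.norm ℚ α : ℚ) : ℝ)| := by
    rw [← prod_norm_emb, Real.log_prod fun φ _ => (hpos φ).ne']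
    simp_rw [← hφ]
    rw [Finset.sum_add_distrib, Finset.sum_comm]
    simp_rw [← Finset.mul_sum, sum_ellK]
    simp
  refine ⟨c₀, fun t ht c φ => ?_⟩
  unfold yv
  rw [Real.mul_rpow ht.le hN.le, Real.rpow_def_of_pos hN, ← hτ]
  have e1 : (Fintype.card (K →+* ℂ) : ℝ) * τ * (1 / (Fintype.card (K →+* ℂ) : ℝ)) = τ := by
    field_simp
  rw [e1, ← Real.exp_log (hpos φ), ← hφ φ]
  simp only [Pi.add_apply, add_mul, Finset.sum_add_distrib, Real.exp_add]
  ring

/-- Unit-a.  a torsion unit has absolute value `1` everywhere (`Units.mem_torsion`) -/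
theorem yv_unit (ζ : Units.torsion K) (k : Fin (Units.rank K) → ℤ) (t : ℝ)
    (c : Fin (Units.rank K) → ℝ) (φ : K →+* ℂ) :
    yv (ellK K) t c φ * ‖φ ((((ζ : (𝓞 K)ˣ) * ∏ j, Units.fundSystem K j ^ k j : (𝓞 K)ˣ) : 𝓞 K) : K)‖ =
      yv (ellK K) t (c + fun j => (k j : ℝ)) φ := by
  let f : (𝓞 K)ˣ →* ℝ :=
    { toFun := fun u => ‖φ ((u : 𝓞 K) : K)‖
      map_one' := by simp
      map_mul' := fun u v => by simp }
  have hf : ∀ u : (𝓞 K)ˣ, ‖φ ((u : 𝓞 K) : K)‖ = f u := fun u => rfl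
  have hfpos : ∀ u : (𝓞 K)ˣ, 0 < f u := fun u => Units.pos_at_place u (InfinitePlace.mk φ)
  have hζ : f ζ = 1 := (Units.mem_torsion K).1 ζ.2 (InfinitePlace.mk φ)
  have hz : ∀ (u : (𝓞 K)ˣ) (m : ℤ), f (u ^ m) = Real.exp (m * Real.log (f u)) := by
    intro u m
    have h1 : f (u ^ m) = f u ^ m := by
      simp
    rw [h1, mul_comm, Real.exp_mul, Real.exp_log (hfpos u), Real.rpow_intCast]
  rw [hf, map_mul, hζ, one_mul, map_prod]
  simp_rw [hz]
  unfold yv
  rw [← Real.exp_sum, mul_assoc, ← Real.exp_add]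
  simp only [Pi.add_apply, add_mul, Finset.sum_add_distrib]
  rfl

/-- Unit-b.  nonzero elements of `𝔟` = principal ideal, root of unity, exponents
(`Units.exist_unique_eq_mul_prod`, `Ideal.span_singleton_eq_span_singleton`); coordinates by `b.equivFun` -/
theorem exists_param {𝔟 : Ideal (𝓞 K)} (b : Module.Basis (K →+* ℂ) ℤ 𝔟) :
    ∃ (g : PP K 𝔟 → 𝓞 K) (E : PP K 𝔟 × Units.torsion K × (Fin (Units.rank K) → ℤ) ≃
        {m : (K →+* ℂ) → ℤ // m ≠ 0}), (∀ P, Ideal.span {g P} = P.1) ∧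
      ∀ x, ((∑ i, (E x).1 i • b i : 𝔟) : 𝓞 K) =
        g x.1 * (((x.2.1 : (𝓞 K)ˣ) * ∏ j, Units.fundSystem K j ^ x.2.2 j : (𝓞 K)ˣ) : 𝓞 K) := by
  have hg : ∀ P : PP K 𝔟, ∃ a : 𝓞 K, Ideal.span {a} = P.1 := fun P =>
    let ⟨a, ha⟩ := P.2.2.1.principal
    ⟨a, ha.symm⟩
  choose g hg using hg
  have hg0 : ∀ P, g P ≠ 0 := fun P h => P.2.1 (by rw [← hg P, h, Ideal.span_singleton_eq_bot])
  let u : Units.torsion K × (Fin (Units.rank K) → ℤ) → (𝓞 K)ˣ := fun x =>
    (x.1 : (𝓞 K)ˣ) * ∏ j, Units.fundSystem K j ^ x.2 j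
  have hsp : ∀ P x, Ideal.span {g P * (u x : 𝓞 K)} = P.1 := fun P x => by
    rw [Ideal.span_singleton_mul_right_unit (u x).isUnit, hg]
  have hm : ∀ P x, g P * (u x : 𝓞 K) ∈ 𝔟 := fun P x =>
    P.2.2.2 (hsp P x ▸ Ideal.mem_span_singleton_self _)
  let f : PP K 𝔟 × Units.torsion K × (Fin (Units.rank K) → ℤ) → {m : (K →+* ℂ) → ℤ // m ≠ 0} := fun x =>
    ⟨b.equivFun ⟨_, hm x.1 x.2⟩, fun h => mul_ne_zero (hg0 x.1) (u x.2).ne_zero
      (congrArg Subtype.val (b.equivFun.map_eq_zero_iff.1 h))⟩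
  have hf : ∀ x, ((∑ i, (f x).1 i • b i : 𝔟) : 𝓞 K) = g x.1 * (u x.2 : 𝓞 K) := fun x => by
    rw [← b.equivFun_symm_apply, LinearEquiv.symm_apply_apply]
  refine ⟨g, Equiv.ofBijective f ⟨fun x y h => ?_, fun m => ?_⟩, hg, hf⟩
  · have h1 : g x.1 * (u x.2 : 𝓞 K) = g y.1 * (u y.2 : 𝓞 K) := by rw [← hf, ← hf, h]
    have h2 : x.1 = y.1 := Subtype.ext (by rw [← hsp x.1 x.2, h1, hsp])
    rw [h2] at h1
    exact Prod.ext h2 ((Units.exist_unique_eq_mul_prod K (u x.2)).unique rfl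
      (Units.ext (mul_left_cancel₀ (hg0 _) h1)))
  · have h0 : (b.equivFun.symm m.1 : 𝓞 K) ≠ 0 := fun h =>
      m.2 (b.equivFun.symm.map_eq_zero_iff.1 (Subtype.ext h))
    let P : PP K 𝔟 := ⟨Ideal.span {(b.equivFun.symm m.1 : 𝓞 K)},
      fun h => h0 (Ideal.span_singleton_eq_bot.1 h), ⟨_, rfl⟩,
      (Ideal.span_singleton_le_iff_mem _).2 (b.equivFun.symm m.1).2⟩
    obtain ⟨v, hv⟩ := Ideal.span_singleton_eq_span_singleton.1 (hg P)
    obtain ⟨x, hx, -⟩ := Units.exist_unique_eq_mul_prod K v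
    exact ⟨(P, x), Subtype.ext (b.equivFun.eq_symm_apply.1 (Subtype.ext (hx ▸ hv :)))⟩

/-- Unit-b.  the translates of the unit cube tile the space (`ZSpan.isAddFundamentalDomain` for `Pi.basisFun`,
`IsAddFundamentalDomain.lintegral_eq_tsum''` for integrability, `integral_eq_tsum''`, `Ico` box `=ᵐ Icc`) -/
theorem cube_sum {κ : Type} [Fintype κ] {Φ : (κ → ℝ) → ℝ} (hc : Continuous Φ) (h0 : ∀ c, 0 ≤ Φ c)
    (hs : Summable fun k : κ → ℤ => ∫ c in Set.Icc (0 : κ → ℝ) 1, Φ (c + fun j => (k j : ℝ))) :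
    HasSum (fun k : κ → ℤ => ∫ c in Set.Icc (0 : κ → ℝ) 1, Φ (c + fun j => (k j : ℝ))) (∫ c, Φ c) := by
  let s : (κ → ℤ) → Set (κ → ℝ) := fun k => Set.pi Set.univ fun j => Set.Ico (k j : ℝ) (k j + 1)
  have hae : ∀ k, s k =ᵐ[volume] Set.Icc (fun j => (k j : ℝ)) fun j => (k j : ℝ) + 1 := fun k =>
    Measure.univ_pi_Ico_ae_eq_Icc
  have hmem : ∀ k c, c ∈ s k ↔ (fun j => ⌊c j⌋) = k := fun k c => by
    simp only [s, Set.mem_univ_pi, Set.mem_Ico, funext_iff, Int.floor_eq_iff]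
  have hU : ⋃ k, s k = Set.univ :=
    Set.eq_univ_of_forall fun c => Set.mem_iUnion.2 ⟨_, (hmem _ c).2 rfl⟩
  have he : ∀ k : κ → ℤ, ∫ c in Set.Icc (0 : κ → ℝ) 1, Φ (c + fun j => (k j : ℝ)) = ∫ c in s k, Φ c := by
    intro k
    rw [setIntegral_congr_set (hae k),
      ← (measurePreserving_add_right volume fun j => (k j : ℝ)).setIntegral_preimage_emb
        (measurableEmbedding_addRight _) Φ, Set.preimage_add_const_Icc, sub_self]
    congr 3
    funext j
    simp
  simp only [he] at hs ⊢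
  rw [← setIntegral_univ, ← hU]
  refine hasSum_integral_iUnion (fun k => MeasurableSet.univ_pi fun j => measurableSet_Ico)
    (fun k l hkl => Set.disjoint_left.2 fun c h1 h2 => hkl (((hmem k c).1 h1).symm.trans ((hmem l c).1 h2)))
    (integrableOn_iUnion_of_summable_integral_norm
      (fun k => (hc.integrableOn_Icc).congr_set_ae (hae k)) ?_)
  simpa only [Real.norm_of_nonneg (h0 _)] using hs

end Crest.Agent.R27.Ku
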